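import Crest.Agent.R213.J0
import Crest.Agent.R213.J310

/-!
# Row 213, part D4: scaling of the unit background to `[0,L]`

`UBg` = background on `(0,σ₁) × [0,1]`; `bg_of_unit` : a unit background with `|∂σ^j E| ≤ C σ^M`
(`j ≤ 9`) gives the background on `(0,1) × [0,L]` for all large `L`.
-/

set_option autoImplicit false

open Set MeasureTheory Filter Topology

noncomputable section

namespace Crest.Agent.R213

/-- Background on the unit interval, `σ ∈ (0,σ₁)`. -/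
structure UBg (c0 C0 A : ℝ) (g : ℝ → ℝ) (M : ℕ) (σ1 C : ℝ) (m w S E : ℝ → ℝ → ℝ) : Prop where
  s1_pos : 0 < σ1
  c0_pos : 0 < c0
  smm : Sm (Ioo 0 σ1) 1 m
  smw : Sm (Ioo 0 σ1) 1 w
  smS : Sm (Ioo 0 σ1) 1 S
  smE : Sm (Ioo 0 σ1) 1 E
  m_eq : ∀ σ ∈ Ioo 0 σ1, ∀ x ∈ Icc (0 : ℝ) 1, m σ x * (1 + x * (1 - x) * w σ x) = 1
  lower : ∀ σ ∈ Ioo 0 σ1, ∀ x ∈ Icc (0 : ℝ) 1, c0 ≤ m σ x
  upper : ∀ σ ∈ Ioo 0 σ1, ∀ x ∈ Icc (0 : ℝ) 1, m σ x ≤ C0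
  dphi : ∀ σ ∈ Ioo 0 σ1, ∀ x ∈ Icc (0 : ℝ) 1, |dx 1 (fun t y => y * (1 - y) * m t y) σ x| ≤ C0
  dtm : ∀ j ≤ 9, ∀ σ ∈ Ioo 0 σ1, ∀ x ∈ Icc (0 : ℝ) 1, (x ^ 2 + σ) ^ j * |(dt^[j] m) σ x| ≤ C0
  inner : ∀ σ ∈ Ioo 0 σ1, ∀ x ∈ Icc (0 : ℝ) (1 / 8), (1 - x) * m σ x = g (x / √σ)
  scal : ∀ σ ∈ Ioo 0 σ1, ∀ x ∈ Icc (0 : ℝ) 1,
    x ^ 10 - x ^ 9 * (x * (1 - x) * m σ x) = Kint (S σ) x
  eqE : ∀ σ ∈ Ioo 0 σ1, ∀ x ∈ Icc (0 : ℝ) 1,
    dx 1 (dx 1 E) σ x = dt w σ x - dx 1 (dx 1 S) σ x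
  S0 : ∀ σ ∈ Ioo 0 σ1, S σ 0 = 110 * A / √σ
  E0 : ∀ σ ∈ Ioo 0 σ1, ∀ x ∈ Icc (0 : ℝ) (1 / 8), E σ x = 0
  Eb : ∀ j ≤ 9, ∀ σ ∈ Ioo 0 σ1, ∀ x ∈ Icc (0 : ℝ) 1, |(dt^[j] E) σ x| ≤ C * σ ^ M

namespace D

/-- iterated `dt` of a rescaled function (unconditional) -/
theorem dt_iter_scale (c a b : ℝ) (u : ℝ → ℝ → ℝ) (j : ℕ) :
    dt^[j] (fun τ x => c * u (a * τ) (b * x)) =
      fun τ x => c * a ^ j * (dt^[j] u) (a * τ) (b * x) := by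
  induction j with
  | zero => simp
  | succ j ih =>
    rw [Function.iterate_succ_apply', ih]
    funext τ x
    rw [Function.iterate_succ_apply']
    unfold dt
    rw [deriv_const_mul_field]
    have := deriv_comp_mul_left (𝕜 := ℝ) a (fun r => (dt^[j] u) r (b * x)) τ
    unfold dt at this
    rw [this, smul_eq_mul, pow_succ]
    ring

theorem Kint_scaled (b : ℝ) (hb : b ≠ 0) (F : ℝ → ℝ) (x : ℝ) :
    Kint (fun y => b * F (b * y)) x = (b⁻¹) ^ 10 * Kint F (b * x) := by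
  rw [J310.Kint_scale, J310.Kint_scale]
  have e : (∫ r in (0 : ℝ)..1, (1 - r) * r ^ 9 * (b * F (b * (r * x)))) =
      b * ∫ r in (0 : ℝ)..1, (1 - r) * r ^ 9 * F (r * (b * x)) := by
    rw [← intervalIntegral.integral_const_mul]
    refine intervalIntegral.integral_congr fun r _ => ?_
    show (1 - r) * r ^ 9 * (b * F (b * (r * x))) = b * ((1 - r) * r ^ 9 * F (r * (b * x)))
    rw [show b * (r * x) = r * (b * x) by ring]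
    ring
  rw [e, mul_pow]
  field_simp

theorem alg_inv (b X W : ℝ) (hb : b ≠ 0) (hX : X ≠ 0) (h1 : 1 - X ≠ 0) :
    1 / ((X / b) * (1 - X)) * (1 + X * (1 - X) * W) =
      1 / (X / b) + 1 / ((1 / b) * (1 - X)) + b * W := by
  field_simp
  ring

section

variable {c0 C0 A : ℝ} {g : ℝ → ℝ} {M : ℕ} {σ1 C L : ℝ} {m w S E : ℝ → ℝ → ℝ}

theorem bg_scale (h : UBg c0 C0 A g M σ1 C m w S E) (hL8 : 8 ≤ L) (hL : 1 / L ^ 2 ≤ σ1) :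
    let a := 1 / L ^ 2
    let b := 1 / L
    let m' := fun τ x => m (a * τ) (b * x)
    let φ' := fun τ x => x * (1 - x / L) * m (a * τ) (b * x)
    let w' := fun τ x => b * w (a * τ) (b * x)
    let S' := fun τ x => b * S (a * τ) (b * x)
    let E' := fun τ x => b * E (a * τ) (b * x)
    Bg c0 C0 g L φ' m' ∧ Sm (Ioo 0 1) L w' ∧ Sm (Ioo 0 1) L S' ∧ Sm (Ioo 0 1) L E' ∧
      (∀ τ ∈ Ioo (0 : ℝ) 1, ∀ x ∈ Ioo 0 L, 1 / φ' τ x = 1 / x + 1 / (L - x) + w' τ x) ∧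
      (∀ τ ∈ Ioo (0 : ℝ) 1, ∀ x ∈ Icc 0 L, x ^ 10 - x ^ 9 * φ' τ x = Kint (S' τ) x) ∧
      (∀ τ ∈ Ioo (0 : ℝ) 1, ∀ x ∈ Icc 0 L,
        dx L (dx L E') τ x = dt w' τ x - dx L (dx L S') τ x) ∧
      (∀ τ ∈ Ioo (0 : ℝ) 1, S' τ 0 = 110 * A / √τ) ∧
      (∀ τ ∈ Ioo (0 : ℝ) 1, ∀ x ∈ Icc 0 1, E' τ x = 0) ∧
      (∀ j ≤ 9, ∀ τ ∈ Ioo (0 : ℝ) 1, ∀ x ∈ Icc 0 L,
        |(dt^[j] E') τ x| ≤ |C| * (L⁻¹) ^ (2 * M)) := by
  intro a b m' φ' w' S' E'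
  have hL0 : 0 < L := by linarith
  have ha : 0 < a := by positivity
  have hb : 0 < b := by positivity
  have hbL : b * L = 1 := by simp only [b]; field_simp
  have hab : a = b ^ 2 := by simp only [a, b]; field_simp
  have hb1 : b ≤ 1 := by
    simp only [b]; rw [div_le_one hL0]; linarith
  have ha1 : a ≤ 1 := by rw [hab]; exact pow_le_one₀ hb.le hb1
  have hσ : ∀ τ ∈ Ioo (0 : ℝ) 1, a * τ ∈ Ioo 0 σ1 := by
    intro τ hτ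
    refine ⟨mul_pos ha hτ.1, ?_⟩
    calc a * τ < a * 1 := mul_lt_mul_of_pos_left hτ.2 ha
      _ ≤ σ1 := by rw [mul_one]; exact hL
  have hx1 : ∀ x ∈ Icc 0 L, b * x ∈ Icc (0 : ℝ) 1 := by
    intro x hx
    refine ⟨mul_nonneg hb.le hx.1, ?_⟩
    rw [← hbL]; exact mul_le_mul_of_nonneg_left hx.2 hb.le
  have hxb : ∀ x, x / L = b * x := by intro x; simp only [b]; ring
  -- smoothness
  have smsc : ∀ u, Sm (Ioo 0 σ1) 1 u → Sm (Ioo 0 1) L (fun τ x => u (a * τ) (b * x)) := by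
    intro u hu
    have := Sm.scale (α := 0) (β := a) (k := b) (L := L) (s' := Ioo 0 1) hb
      (by rw [hbL]; exact hu) (by simpa using hσ)
    simpa using this
  have dxsc : ∀ u, Sm (Ioo 0 σ1) 1 u → ∀ τ ∈ Ioo (0 : ℝ) 1, ∀ x ∈ Icc 0 L,
      dx L (fun τ x => u (a * τ) (b * x)) τ x = b * dx 1 u (a * τ) (b * x) := by
    intro u hu τ hτ x hx
    have := Sm.dx_scale (α := 0) (β := a) (k := b) (L := L) (s := Ioo 0 σ1) hb hL0 (u := u)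
      (by rw [hbL]; exact hu) (t := τ) (x := x) (by simpa using hσ τ hτ) hx
    simpa [hbL] using this
  have dxsc2 : ∀ u, Sm (Ioo 0 σ1) 1 u → ∀ τ ∈ Ioo (0 : ℝ) 1, ∀ x ∈ Icc 0 L,
      dx L (dx L (fun τ x => b * u (a * τ) (b * x))) τ x =
        b * (b * (b * dx 1 (dx 1 u) (a * τ) (b * x))) := by
    intro u hu τ hτ x hx
    have e1 : ∀ y ∈ Icc 0 L, dx L (fun τ x => b * u (a * τ) (b * x)) τ y =
        b * (b * dx 1 u (a * τ) (b * y)) := by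
      intro y hy
      rw [Sm.dx_const_mul b (smsc u hu) hL0 hτ hy, dxsc u hu τ hτ y hy]
    rw [dx_congr (u := fun τ y => b * (b * dx 1 u (a * τ) (b * y))) e1 hx]
    have hu' : Sm (Ioo 0 σ1) 1 (dx 1 u) := Sm.dx isOpen_Ioo one_pos hu
    rw [Sm.dx_const_mul b ((smsc _ hu').const_mul b) hL0 hτ hx,
      Sm.dx_const_mul b (smsc _ hu') hL0 hτ hx, dxsc _ hu' τ hτ x hx]
  refine ⟨?_, (smsc w h.smw).const_mul b, (smsc S h.smS).const_mul b, (smsc E h.smE).const_mul b,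
    ?_, ?_, ?_, ?_, ?_, ?_⟩
  · -- Bg
    refine ⟨hL8, smsc m h.smm, fun τ _ x _ => rfl, ?_, ?_, ?_, ?_, ?_⟩
    · exact fun τ hτ x hx => h.lower _ (hσ τ hτ) _ (hx1 x hx)
    · exact fun τ hτ x hx => h.upper _ (hσ τ hτ) _ (hx1 x hx)
    · intro τ hτ x hx
      have hsm : Sm (Ioo 0 σ1) 1 (fun t y => y * (1 - y) * m t y) :=
        (Sm.snd.mul ((Sm.const 1).sub Sm.snd)).mul h.smm
      have e : ∀ y ∈ Icc 0 L, φ' τ y =
          (fun τ x => L * (fun t y => y * (1 - y) * m t y) (a * τ) (b * x)) τ y := by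
        intro y _
        simp only [φ']
        rw [hxb y]
        have : y = L * (b * y) := by rw [← mul_assoc, mul_comm L b, hbL, one_mul]
        nth_rewrite 1 [this]
        ring
      rw [dx_congr (u := fun τ x => L * (fun t y => y * (1 - y) * m t y) (a * τ) (b * x)) e hx,
        Sm.dx_const_mul L (smsc _ hsm) hL0 hτ hx, dxsc _ hsm τ hτ x hx,
        ← mul_assoc, mul_comm L b, hbL, one_mul]
      exact h.dphi _ (hσ τ hτ) _ (hx1 x hx)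
    · intro j hj τ hτ x hx
      have e := dt_iter_scale 1 a b m j
      simp only [one_mul] at e
      rw [show m' = fun τ x => m (a * τ) (b * x) from rfl, e]
      simp only
      rw [abs_mul, abs_of_nonneg (by positivity : (0 : ℝ) ≤ a ^ j)]
      have := h.dtm j hj _ (hσ τ hτ) _ (hx1 x hx)
      have e2 : (x ^ 2 + τ) ^ j * (a ^ j * |(dt^[j] m) (a * τ) (b * x)|) =
          ((b * x) ^ 2 + a * τ) ^ j * |(dt^[j] m) (a * τ) (b * x)| := by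
        rw [← mul_assoc, ← mul_pow]
        congr 2
        rw [hab]; ring
      rw [e2]; exact this
    · intro τ hτ x hx
      have hx' : b * x ∈ Icc (0 : ℝ) (1 / 8) := by
        refine ⟨mul_nonneg hb.le hx.1, ?_⟩
        calc b * x ≤ b * (L / 8) := mul_le_mul_of_nonneg_left hx.2 hb.le
          _ = 1 / 8 := by rw [← mul_div_assoc, hbL]
      have := h.inner _ (hσ τ hτ) _ hx'
      simp only [φ']
      rw [hxb x, mul_assoc, this]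
      congr 2
      rw [hab, Real.sqrt_mul (by positivity), Real.sqrt_sq hb.le]
      rw [mul_div_mul_left _ _ hb.ne']
  · -- `1/φ`
    intro τ hτ x hx
    have hx' : x ∈ Icc 0 L := Ioo_subset_Icc_self hx
    have e := h.m_eq _ (hσ τ hτ) _ (hx1 x hx')
    have hm : m (a * τ) (b * x) ≠ 0 := by
      intro h0; rw [h0, zero_mul] at e; exact zero_ne_one e
    have hxL : L - x ≠ 0 := by linarith [hx.2]
    have hx0 : x ≠ 0 := hx.1.ne'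
    have h1x : 1 - x / L ≠ 0 := by
      intro h0
      have : x / L = 1 := by linarith
      rw [div_eq_one_iff_eq hL0.ne'] at this
      linarith [hx.2]
    simp only [φ', w']
    have e3 : 1 / m (a * τ) (b * x) = 1 + (b * x) * (1 - b * x) * w (a * τ) (b * x) := by
      rw [div_eq_iff hm, mul_comm]; exact e.symm
    have e4 : 1 / (x * (1 - x / L) * m (a * τ) (b * x)) =
        1 / (x * (1 - x / L)) * (1 / m (a * τ) (b * x)) := by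
      field_simp
    rw [e4, e3, hxb x]
    have h1x' : 1 - b * x ≠ 0 := by rw [← hxb]; exact h1x
    have hb' : b = 1 / L := rfl
    have hLx : L - x = L * (1 - b * x) := by
      rw [mul_sub, mul_one, ← mul_assoc, mul_comm L b, hbL, one_mul]
    rw [hLx]
    have hLb : L = 1 / b := by rw [hb']; field_simp
    rw [hLb]
    have hX0 : b * x ≠ 0 := mul_ne_zero hb.ne' hx0
    have hxX : x = (b * x) / b := by field_simp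
    have key := alg_inv b (b * x) (w (a * τ) (b * x)) hb.ne' hX0 h1x'
    rw [← hxX] at key
    exact key
  · -- scal
    intro τ hτ x hx
    have e := h.scal _ (hσ τ hτ) _ (hx1 x hx)
    have e1 := Kint_scaled b hb.ne' (S (a * τ)) x
    simp only [S', φ']
    rw [e1, ← e, hxb x]
    field_simp
  · -- equation for E
    intro τ hτ x hx
    rw [dxsc2 E h.smE τ hτ x hx, dxsc2 S h.smS τ hτ x hx]
    have e := dt_iter_scale b a b w 1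
    simp only [Function.iterate_one, pow_one] at e
    rw [show w' = fun τ x => b * w (a * τ) (b * x) from rfl, e]
    simp only
    rw [h.eqE _ (hσ τ hτ) _ (hx1 x hx), hab]
    ring
  · intro τ hτ
    simp only [S', mul_zero]
    rw [h.S0 _ (hσ τ hτ), hab, Real.sqrt_mul (by positivity), Real.sqrt_sq hb.le]
    field_simp
  · intro τ hτ x hx
    simp only [E']
    rw [h.E0 _ (hσ τ hτ) (b * x), mul_zero]
    refine ⟨mul_nonneg hb.le hx.1, ?_⟩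
    calc b * x ≤ b * 1 := mul_le_mul_of_nonneg_left hx.2 hb.le
      _ ≤ 1 / 8 := by
        rw [mul_one]; simp only [b]
        exact one_div_le_one_div_of_le (by norm_num) hL8
  · intro j hj τ hτ x hx
    rw [show E' = fun τ x => b * E (a * τ) (b * x) from rfl, dt_iter_scale b a b E j]
    simp only
    rw [abs_mul, abs_of_nonneg (by positivity : (0 : ℝ) ≤ b * a ^ j)]
    have e := h.Eb j hj _ (hσ τ hτ) _ (hx1 x hx)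
    have e1 : C * (a * τ) ^ M ≤ |C| * (L⁻¹) ^ (2 * M) := by
      have : (a * τ) ^ M ≤ (L⁻¹) ^ (2 * M) := by
        rw [pow_mul]
        refine pow_le_pow_left₀ (by have := hτ.1; positivity) ?_ M
        calc a * τ ≤ a * 1 := mul_le_mul_of_nonneg_left hτ.2.le ha.le
          _ = (L⁻¹) ^ 2 := by simp only [a]; rw [mul_one, one_div, inv_pow]
      calc C * (a * τ) ^ M ≤ |C| * (a * τ) ^ M :=
            mul_le_mul_of_nonneg_right (le_abs_self C) (by have := hτ.1; positivity)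
        _ ≤ _ := mul_le_mul_of_nonneg_left this (abs_nonneg C)
    have e2 : b * a ^ j ≤ 1 := mul_le_one₀ hb1 (by positivity) (pow_le_one₀ ha.le ha1)
    calc b * a ^ j * |(dt^[j] E) (a * τ) (b * x)| ≤ 1 * |(dt^[j] E) (a * τ) (b * x)| :=
          mul_le_mul_of_nonneg_right e2 (abs_nonneg _)
      _ ≤ _ := by rw [one_mul]; exact e.trans e1

end

/-- **D4**: the unit backgrounds give `bg_exists`. -/
theorem bg_of_unit {A : ℝ} {g : ℝ → ℝ}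
    (hU : ∃ c0 C0 : ℝ, Prof c0 C0 g ∧ ∀ M : ℕ, ∃ (σ1 C : ℝ) (m w S E : ℝ → ℝ → ℝ),
      UBg c0 C0 A g M σ1 C m w S E) :
    ∃ c0 C0 : ℝ, Prof c0 C0 g ∧ ∀ P : ℕ, ∃ L2 : ℝ, ∀ L ≥ L2, ∃ φ m w S E : ℝ → ℝ → ℝ,
      Bg c0 C0 g L φ m ∧ Sm (Ioo 0 1) L w ∧ Sm (Ioo 0 1) L S ∧ Sm (Ioo 0 1) L E ∧
      (∀ τ ∈ Ioo (0 : ℝ) 1, ∀ x ∈ Ioo 0 L, 1 / φ τ x = 1 / x + 1 / (L - x) + w τ x) ∧
      (∀ τ ∈ Ioo (0 : ℝ) 1, ∀ x ∈ Icc 0 L, x ^ 10 - x ^ 9 * φ τ x = Kint (S τ) x) ∧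
      (∀ τ ∈ Ioo (0 : ℝ) 1, ∀ x ∈ Icc 0 L,
        dx L (dx L E) τ x = dt w τ x - dx L (dx L S) τ x) ∧
      (∀ τ ∈ Ioo (0 : ℝ) 1, S τ 0 = 110 * A / √τ) ∧
      (∀ τ ∈ Ioo (0 : ℝ) 1, ∀ x ∈ Icc 0 1, E τ x = 0) ∧
      (∀ j ≤ 9, ∀ τ ∈ Ioo (0 : ℝ) 1, ∀ x ∈ Icc 0 L, |(dt^[j] E) τ x| ≤ L ^ (-(P : ℝ))) := by
  obtain ⟨c0, C0, hP, hU⟩ := hU
  refine ⟨c0, C0, hP, fun P => ?_⟩
  obtain ⟨σ1, C, m, w, S, E, h⟩ := hU (P + 1)
  refine ⟨max (max 8 (1 / σ1)) (|C| + 1), fun L hL => ?_⟩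
  have hL8 : 8 ≤ L := (le_max_left _ _).trans ((le_max_left _ _).trans hL)
  have hLσ : 1 / σ1 ≤ L := (le_max_right _ _).trans ((le_max_left _ _).trans hL)
  have hLC : |C| + 1 ≤ L := (le_max_right _ _).trans hL
  have hL0 : 0 < L := by linarith
  have h1 : 1 / L ^ 2 ≤ σ1 := by
    have h2 : 1 / L ≤ σ1 := by
      rw [div_le_iff₀ hL0]
      rw [div_le_iff₀ h.s1_pos] at hLσ
      linarith
    refine le_trans ?_ h2
    exact one_div_le_one_div_of_le hL0 (by nlinarith)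
  have key := bg_scale h hL8 h1
  refine ⟨_, _, _, _, _, key.1, key.2.1, key.2.2.1, key.2.2.2.1, key.2.2.2.2.1, key.2.2.2.2.2.1,
    key.2.2.2.2.2.2.1, key.2.2.2.2.2.2.2.1, key.2.2.2.2.2.2.2.2.1, ?_⟩
  intro j hj τ hτ x hx
  refine (key.2.2.2.2.2.2.2.2.2 j hj τ hτ x hx).trans ?_
  rw [Real.rpow_neg hL0.le, Real.rpow_natCast, ← inv_pow]
  have hi : L⁻¹ ≤ 1 := inv_le_one_of_one_le₀ (by linarith)
  have hi0 : 0 < L⁻¹ := inv_pos.2 hL0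
  have e1 : (L⁻¹) ^ (2 * (P + 1)) ≤ (L⁻¹) ^ (P + 1) :=
    pow_le_pow_of_le_one hi0.le hi (by omega)
  calc |C| * (L⁻¹) ^ (2 * (P + 1)) ≤ L * (L⁻¹) ^ (P + 1) :=
        mul_le_mul (by linarith) e1 (by positivity) hL0.le
    _ = (L⁻¹) ^ P := by rw [pow_succ]; field_simp

/-- the form of helper800's `unit_bg` gives `UBg` -/
theorem ubg_of_unit_bg {c0 C0 A s1 C : ℝ} {g : ℝ → ℝ} {M : ℕ} (hc0 : 0 < c0) (h1 : 0 < s1)
    (h1' : s1 ≤ 1) {φ m w S E : ℝ → ℝ → ℝ}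
    (smm : Sm (Ioo 0 s1) 1 m) (smw : Sm (Ioo 0 s1) 1 w) (smS : Sm (Ioo 0 s1) 1 S)
    (smE : Sm (Ioo 0 s1) 1 E)
    (hφ : ∀ s ∈ Ioo 0 s1, ∀ x ∈ Icc (0 : ℝ) 1, φ s x = x * (1 - x) * m s x)
    (lower : ∀ s ∈ Ioo 0 s1, ∀ x ∈ Icc (0 : ℝ) 1, c0 ≤ m s x)
    (upper : ∀ s ∈ Ioo 0 s1, ∀ x ∈ Icc (0 : ℝ) 1, m s x ≤ C0)
    (dphi : ∀ s ∈ Ioo 0 s1, ∀ x ∈ Icc (0 : ℝ) 1, |dx 1 φ s x| ≤ C0)
    (dtm : ∀ j ≤ 9, ∀ s ∈ Ioo 0 s1, ∀ x ∈ Icc (0 : ℝ) 1,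
        (x ^ 2 + s) ^ j * |(dt^[j] m) s x| ≤ C0)
    (inner : ∀ s ∈ Ioo 0 s1, ∀ x ∈ Icc (0 : ℝ) (1 / 8), φ s x = x * g (x / √s))
    (hw : ∀ s ∈ Ioo 0 s1, ∀ x ∈ Ioo (0 : ℝ) 1, 1 / φ s x = 1 / x + 1 / (1 - x) + w s x)
    (scal : ∀ s ∈ Ioo 0 s1, ∀ x ∈ Icc (0 : ℝ) 1, x ^ 10 - x ^ 9 * φ s x = Kint (S s) x)
    (eqE : ∀ s ∈ Ioo 0 s1, ∀ x ∈ Icc (0 : ℝ) 1,
        dx 1 (dx 1 E) s x = dt w s x - dx 1 (dx 1 S) s x)
    (S0 : ∀ s ∈ Ioo 0 s1, S s 0 = 110 * A / √s)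
    (E0 : ∀ s ∈ Ioo 0 s1, ∀ x ∈ Icc (0 : ℝ) (1 / 8), E s x = 0)
    (Eb : ∀ j ≤ 9, ∀ s ∈ Ioo 0 s1, ∀ x ∈ Icc (0 : ℝ) 1,
      |(dt^[j] E) s x| ≤ C * s ^ (M + 9 - j)) (hcont : Continuous g) :
    UBg c0 C0 A g M s1 |C| m w S E where
  s1_pos := h1
  c0_pos := hc0
  smm := smm
  smw := smw
  smS := smS
  smE := smE
  m_eq := by
    intro σ hσ
    have hc1 : ContinuousOn (fun x => m σ x * (1 + x * (1 - x) * w σ x)) (Icc 0 1) := by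
      have c1 := smm.continuousOn_right hσ
      have c2 := smw.continuousOn_right hσ
      fun_prop
    have hEq : EqOn (fun x => m σ x * (1 + x * (1 - x) * w σ x)) (fun _ => (1 : ℝ)) (Ioo 0 1) := by
      intro x hx
      have hx' : x ∈ Icc (0 : ℝ) 1 := Ioo_subset_Icc_self hx
      have hm : m σ x ≠ 0 := (hc0.trans_le (lower σ hσ x hx')).ne'
      have h2 := hw σ hσ x hx
      rw [hφ σ hσ x hx'] at h2
      have hx0 : x ≠ 0 := hx.1.ne'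
      have hx1 : 1 - x ≠ 0 := by linarith [hx.2]
      show m σ x * (1 + x * (1 - x) * w σ x) = 1
      have h3 : w σ x = 1 / (x * (1 - x) * m σ x) - 1 / x - 1 / (1 - x) := by rw [h2]; ring
      rw [h3]
      field_simp
      ring
    have := hEq.of_subset_closure hc1 continuousOn_const Ioo_subset_Icc_self
      (by rw [closure_Ioo zero_ne_one])
    exact fun x hx => this hx
  lower := lower
  upper := upper
  dphi := by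
    intro σ hσ x hx
    rw [dx_congr (u := φ) (fun y hy => (hφ σ hσ y hy).symm) hx]
    exact dphi σ hσ x hx
  dtm := dtm
  inner := by
    intro σ hσ
    have hc1 : ContinuousOn (fun x => (1 - x) * m σ x) (Icc 0 (1 / 8)) := by
      have c1 := (smm.continuousOn_right hσ).mono
        (Icc_subset_Icc_right (by norm_num : (1 : ℝ) / 8 ≤ 1))
      fun_prop
    have hc2 : ContinuousOn (fun x => g (x / √σ)) (Icc 0 (1 / 8)) := by fun_prop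
    have hEq : EqOn (fun x => (1 - x) * m σ x) (fun x => g (x / √σ)) (Ioo 0 (1 / 8)) := by
      intro x hx
      have e1 := inner σ hσ x (Ioo_subset_Icc_self hx)
      rw [hφ σ hσ x ⟨hx.1.le, by linarith [hx.2]⟩, mul_assoc] at e1
      exact mul_left_cancel₀ hx.1.ne' e1
    have := hEq.of_subset_closure hc1 hc2 Ioo_subset_Icc_self
      (by rw [closure_Ioo (by norm_num)])
    exact fun x hx => this hx
  scal := by
    intro σ hσ x hx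
    rw [← hφ σ hσ x hx]; exact scal σ hσ x hx
  eqE := eqE
  S0 := S0
  E0 := E0
  Eb := by
    intro j hj σ hσ x hx
    refine (Eb j hj σ hσ x hx).trans ?_
    have hσ0 : 0 ≤ σ := hσ.1.le
    have e1 : σ ^ (M + 9 - j) ≤ σ ^ M :=
      pow_le_pow_of_le_one hσ0 (hσ.2.le.trans h1') (by omega)
    calc C * σ ^ (M + 9 - j) ≤ |C| * σ ^ (M + 9 - j) :=
          mul_le_mul_of_nonneg_right (le_abs_self C) (pow_nonneg hσ0 _)
      _ ≤ _ := mul_le_mul_of_nonneg_left e1 (abs_nonneg C)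

/-- **D4** : `unit_bg` (in the form of DIface.lean) gives `bg_exists`. -/
theorem bg_of_unit_bg {A : ℝ} {g : ℝ → ℝ}
    (hU : ∃ c0 C0 : ℝ, Prof c0 C0 g ∧ ∀ M : ℕ, 9 ≤ M → ∃ s1 C : ℝ, 0 < s1 ∧ s1 ≤ 1 ∧
      ∃ φ m w S E : ℝ → ℝ → ℝ,
      Sm (Ioo 0 s1) 1 m ∧ Sm (Ioo 0 s1) 1 w ∧ Sm (Ioo 0 s1) 1 S ∧ Sm (Ioo 0 s1) 1 E ∧
      (∀ s ∈ Ioo 0 s1, ∀ x ∈ Icc (0 : ℝ) 1, φ s x = x * (1 - x) * m s x) ∧
      (∀ s ∈ Ioo 0 s1, ∀ x ∈ Icc (0 : ℝ) 1, c0 ≤ m s x) ∧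
      (∀ s ∈ Ioo 0 s1, ∀ x ∈ Icc (0 : ℝ) 1, m s x ≤ C0) ∧
      (∀ s ∈ Ioo 0 s1, ∀ x ∈ Icc (0 : ℝ) 1, |dx 1 φ s x| ≤ C0) ∧
      (∀ j ≤ 9, ∀ s ∈ Ioo 0 s1, ∀ x ∈ Icc (0 : ℝ) 1,
        (x ^ 2 + s) ^ j * |(dt^[j] m) s x| ≤ C0) ∧
      (∀ s ∈ Ioo 0 s1, ∀ x ∈ Icc (0 : ℝ) (1 / 8), φ s x = x * g (x / √s)) ∧
      (∀ s ∈ Ioo 0 s1, ∀ x ∈ Ioo (0 : ℝ) 1, 1 / φ s x = 1 / x + 1 / (1 - x) + w s x) ∧
      (∀ s ∈ Ioo 0 s1, ∀ x ∈ Icc (0 : ℝ) 1, x ^ 10 - x ^ 9 * φ s x = Kint (S s) x) ∧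
      (∀ s ∈ Ioo 0 s1, ∀ x ∈ Icc (0 : ℝ) 1,
        dx 1 (dx 1 E) s x = dt w s x - dx 1 (dx 1 S) s x) ∧
      (∀ s ∈ Ioo 0 s1, S s 0 = 110 * A / √s) ∧
      (∀ s ∈ Ioo 0 s1, ∀ x ∈ Icc (0 : ℝ) (1 / 8), E s x = 0) ∧
      (∀ j ≤ 9, ∀ s ∈ Ioo 0 s1, ∀ x ∈ Icc (0 : ℝ) 1, |(dt^[j] E) s x| ≤ C * s ^ (M - j))) :
    ∃ c0 C0 : ℝ, Prof c0 C0 g ∧ ∀ P : ℕ, ∃ L2 : ℝ, ∀ L ≥ L2, ∃ φ m w S E : ℝ → ℝ → ℝ,
      Bg c0 C0 g L φ m ∧ Sm (Ioo 0 1) L w ∧ Sm (Ioo 0 1) L S ∧ Sm (Ioo 0 1) L E ∧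
      (∀ τ ∈ Ioo (0 : ℝ) 1, ∀ x ∈ Ioo 0 L, 1 / φ τ x = 1 / x + 1 / (L - x) + w τ x) ∧
      (∀ τ ∈ Ioo (0 : ℝ) 1, ∀ x ∈ Icc 0 L, x ^ 10 - x ^ 9 * φ τ x = Kint (S τ) x) ∧
      (∀ τ ∈ Ioo (0 : ℝ) 1, ∀ x ∈ Icc 0 L,
        dx L (dx L E) τ x = dt w τ x - dx L (dx L S) τ x) ∧
      (∀ τ ∈ Ioo (0 : ℝ) 1, S τ 0 = 110 * A / √τ) ∧
      (∀ τ ∈ Ioo (0 : ℝ) 1, ∀ x ∈ Icc 0 1, E τ x = 0) ∧
      (∀ j ≤ 9, ∀ τ ∈ Ioo (0 : ℝ) 1, ∀ x ∈ Icc 0 L, |(dt^[j] E) τ x| ≤ L ^ (-(P : ℝ))) := by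
  obtain ⟨c0, C0, hP, hU⟩ := hU
  refine bg_of_unit ⟨c0, C0, hP, fun M => ?_⟩
  obtain ⟨s1, C, h1, h1', φ, m, w, S, E, a1, a2, a3, a4, a5, a6, a7, a8, a9, a10, a11, a12, a13,
    a14, a15, a16⟩ := hU (M + 9) (by omega)
  exact ⟨s1, |C|, m, w, S, E, ubg_of_unit_bg hP.c0_pos h1 h1' a1 a2 a3 a4 a5 a6 a7 a8 a9 a10 a11
    a12 a13 a14 a15 a16 hP.smooth.continuous⟩

end D

end Crest.Agent.R213
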