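import Crest.Agent.R213.D.UnitBg
import Crest.Agent.R213.D.Scale

/-!
# Row 213, part D: `bg_exists` (exactly the statement of Iface.lean)
-/

set_option autoImplicit false

open Set MeasureTheory Filter Topology

noncomputable section

namespace Crest.Agent.R213

theorem bg_exists {c A : ℝ} {g gh : ℝ → ℝ} (hg : Soliton c A g gh) :
    ∃ c0 C0 : ℝ, Prof c0 C0 g ∧ ∀ P : ℕ, ∃ L2 : ℝ, ∀ L ≥ L2, ∃ φ m w S E : ℝ → ℝ → ℝ,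
      Bg c0 C0 g L φ m ∧ Sm (Ioo 0 1) L w ∧ Sm (Ioo 0 1) L S ∧ Sm (Ioo 0 1) L E ∧
      (∀ τ ∈ Ioo (0 : ℝ) 1, ∀ x ∈ Ioo 0 L, 1 / φ τ x = 1 / x + 1 / (L - x) + w τ x) ∧
      (∀ τ ∈ Ioo (0 : ℝ) 1, ∀ x ∈ Icc 0 L, x ^ 10 - x ^ 9 * φ τ x = Kint (S τ) x) ∧
      (∀ τ ∈ Ioo (0 : ℝ) 1, ∀ x ∈ Icc 0 L,
        dx L (dx L E) τ x = dt w τ x - dx L (dx L S) τ x) ∧
      (∀ τ ∈ Ioo (0 : ℝ) 1, S τ 0 = 110 * A / √τ) ∧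
      (∀ τ ∈ Ioo (0 : ℝ) 1, ∀ x ∈ Icc 0 1, E τ x = 0) ∧
      (∀ j ≤ 9, ∀ τ ∈ Ioo (0 : ℝ) 1, ∀ x ∈ Icc 0 L, |(dt^[j] E) τ x| ≤ L ^ (-(P : ℝ))) :=
  D.bg_of_unit_bg (D.unit_bg hg)

end Crest.Agent.R213
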