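import Crest.Agent.R213.Defs

/-!
# Row 213, part D: definitions (background built from the self-similar profile)

Unit scale: `x ∈ [0,1]`, time variable `s = σ = τ/L²`.  `1/φ = 1/x + 1/(1-x) + w`,
`φ = x(1-x)/P = x ψ`, `P = 1 + x(1-x)w`, `ψ = (1-x)/P`.
-/

set_option autoImplicit false

open Set MeasureTheory Filter Topology

noncomputable section

namespace Crest.Agent.R213.D

/-- `u` is `C^∞` on `I × K` (one-sided at closed ends; `I`, `K` intervals of any kind). -/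
def SmIK (I K : Set ℝ) (u : ℝ → ℝ → ℝ) : Prop :=
  ContDiffOn ℝ (⊤ : ℕ∞) (fun p : ℝ × ℝ => u p.1 p.2) (I ×ˢ K)

/-- `∂ₓ` within `K` (`dxK (Icc 0 L) = dx L` definitionally). -/
def dxK (K : Set ℝ) (u : ℝ → ℝ → ℝ) : ℝ → ℝ → ℝ := fun s x => derivWithin (fun y => u s y) K x

/-- `∂_s` within `[0,∞)` (one-sided at `s = 0`; equals `dt` for `s > 0`). -/
def ds (u : ℝ → ℝ → ℝ) : ℝ → ℝ → ℝ := fun s x => derivWithin (fun r => u r x) (Ici 0) s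

/-- `P = 1 + x(1-x) w` -/
def PP (w : ℝ → ℝ → ℝ) : ℝ → ℝ → ℝ := fun s x => 1 + x * (1 - x) * w s x

/-- `ψ = (1-x)/P`, so `φ = x ψ`. -/
def psi (w : ℝ → ℝ → ℝ) : ℝ → ℝ → ℝ := fun s x => (1 - x) / PP w s x

/-- scalar curvature `S[w] = 90 (1-ψ)/x - 20 ψ' - x ψ''`, with `(1-ψ)/x = (1+(1-x)w)/P`. -/
def Sc (K : Set ℝ) (w : ℝ → ℝ → ℝ) : ℝ → ℝ → ℝ := fun s x =>
  90 * ((1 + (1 - x) * w s x) / PP w s x) - 20 * dxK K (psi w) s x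
    - x * dxK K (dxK K (psi w)) s x

/-- residual `w_s - S[w]_xx`. -/
def Res (K : Set ℝ) (w : ℝ → ℝ → ℝ) : ℝ → ℝ → ℝ := fun s x =>
  ds w s x - dxK K (dxK K (Sc K w)) s x

/-- the class `O(M)`: `F = s^M G` with `G` smooth on `I × K` (including `s = 0`). -/
def OM (I K : Set ℝ) (M : ℕ) (F : ℝ → ℝ → ℝ) : Prop :=
  ∃ G : ℝ → ℝ → ℝ, SmIK I K G ∧ ∀ s ∈ I, ∀ x ∈ K, F s x = s ^ M * G s x

/-- smooth form of `(1 - g y)/y` (for `g 0 = 1`). -/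
def hq (g : ℝ → ℝ) (y : ℝ) : ℝ := -∫ r in (0 : ℝ)..1, deriv g (r * y)

/-- `(1/g - 1)/y` -/
def qin (g : ℝ → ℝ) (y : ℝ) : ℝ := hq g y / g y

/-- `Sig = 90 (1-g)/y - 20 g' - y g''` -/
def Sig (g : ℝ → ℝ) (y : ℝ) : ℝ := 90 * hq g y - 20 * deriv g y - y * deriv (deriv g) y

/-- inner solution, form valid for `s > 0`, `0 ≤ x < 1` -/
def win (g : ℝ → ℝ) : ℝ → ℝ → ℝ := fun s x => qin g (x / √s) / √s - 1 / (1 - x)

/-- inner solution, form valid for `s ≥ 0`, `0 < x < 1` (equal to `win` for `s > 0`) -/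
def winh (gh : ℝ → ℝ) : ℝ → ℝ → ℝ := fun s x => (1 / gh (s / x ^ 2) - 1) / x - 1 / (1 - x)

/-- open domain of the inner solution -/
def Ug (g : ℝ → ℝ) : Set (ℝ × ℝ) := {p | 0 < p.1 ∧ p.2 < 1 ∧ 0 < g (p.2 / √p.1)}

end Crest.Agent.R213.D
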