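import Crest.Agent.R213.D.Ord

/-!
# Row 213, part D2: the operator `S[w]`, the residual, and the matching lemma
-/

set_option autoImplicit false

open Set Filter Topology

noncomputable section

namespace Crest.Agent.R213.D

/-- `P = 1 + x (1-x) w` -/
def Pw (w : ℝ → ℝ → ℝ) : ℝ → ℝ → ℝ := fun t x => 1 + x * (1 - x) * w t x

/-- `ψ = (1-x)/P` -/
def psw (w : ℝ → ℝ → ℝ) : ℝ → ℝ → ℝ := fun t x => (1 - x) * (Pw w t x)⁻¹

/-- `q = (1+(1-x)w)/P` -/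
def qw (w : ℝ → ℝ → ℝ) : ℝ → ℝ → ℝ := fun t x => (1 + (1 - x) * w t x) * (Pw w t x)⁻¹

/-- the scalar curvature `S[w] = 90 q - 20 ψ' - x ψ''` (unit scale). -/
def Sop (w : ℝ → ℝ → ℝ) : ℝ → ℝ → ℝ := fun t x =>
  90 * qw w t x - 20 * dX (psw w) t x - x * dX (dX (psw w)) t x

/-- the residual `w_t - S[w]_xx`. -/
def resid (w : ℝ → ℝ → ℝ) : ℝ → ℝ → ℝ := fun t x => dt w t x - dX (dX (Sop w)) t x

section smooth

variable {U : Set (ℝ × ℝ)} {w : ℝ → ℝ → ℝ}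

lemma SmU.Pw (h : SmU U w) : SmU U (Pw w) :=
  (smU_const 1).add ((smU_x.mul ((smU_const 1).sub smU_x)).mul h)

lemma SmU.psw (h : SmU U w) (h0 : ∀ p ∈ U, D.Pw w p.1 p.2 ≠ 0) : SmU U (psw w) :=
  ((smU_const 1).sub smU_x).mul (h.Pw.inv h0)

lemma SmU.qw (h : SmU U w) (h0 : ∀ p ∈ U, D.Pw w p.1 p.2 ≠ 0) : SmU U (qw w) :=
  ((smU_const 1).add (((smU_const 1).sub smU_x).mul h)).mul (h.Pw.inv h0)

lemma SmU.Sop (hU : IsOpen U) (h : SmU U w) (h0 : ∀ p ∈ U, D.Pw w p.1 p.2 ≠ 0) :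
    SmU U (Sop w) :=
  (((smU_const 90).mul (h.qw h0)).sub ((smU_const 20).mul ((h.psw h0).dX hU))).sub
    (smU_x.mul (((h.psw h0).dX hU).dX hU))

lemma SmU.resid (hU : IsOpen U) (h : SmU U w) (h0 : ∀ p ∈ U, D.Pw w p.1 p.2 ≠ 0) :
    SmU U (resid w) :=
  (h.dt hU).sub ((((h.Sop hU h0)).dX hU).dX hU)

end smooth

section congr

variable {U : Set (ℝ × ℝ)} {w v : ℝ → ℝ → ℝ} {t x : ℝ}

lemma Sop_congr (hU : IsOpen U) (h : ∀ p ∈ U, w p.1 p.2 = v p.1 p.2) :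
    ∀ p ∈ U, Sop w p.1 p.2 = Sop v p.1 p.2 := by
  have h1 : ∀ p ∈ U, psw w p.1 p.2 = psw v p.1 p.2 := fun p hp => by simp only [psw, Pw, h p hp]
  have h2 : ∀ p ∈ U, dX (psw w) p.1 p.2 = dX (psw v) p.1 p.2 :=
    fun p hp => dX_congr (t := p.1) (x := p.2) hU h1 hp
  intro p hp
  have h3 : dX (dX (psw w)) p.1 p.2 = dX (dX (psw v)) p.1 p.2 :=
    dX_congr (t := p.1) (x := p.2) hU h2 hp
  have h4 : qw w p.1 p.2 = qw v p.1 p.2 := by simp only [qw, Pw, h p hp]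
  simp only [Sop, h2 p hp, h3, h4]

lemma resid_congr (hU : IsOpen U) (h : ∀ p ∈ U, w p.1 p.2 = v p.1 p.2) :
    ∀ p ∈ U, resid w p.1 p.2 = resid v p.1 p.2 := by
  have h1 := Sop_congr hU h
  have h2 : ∀ p ∈ U, dX (Sop w) p.1 p.2 = dX (Sop v) p.1 p.2 :=
    fun p hp => dX_congr (t := p.1) (x := p.2) hU h1 hp
  intro p hp
  have h3 : dX (dX (Sop w)) p.1 p.2 = dX (dX (Sop v)) p.1 p.2 :=
    dX_congr (t := p.1) (x := p.2) hU h2 hp
  have h4 : dt w p.1 p.2 = dt v p.1 p.2 := dt_congr (t := p.1) (x := p.2) hU h hp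
  simp only [resid, h3, h4]

/-- the Fubini–Study background is static. -/
lemma resid_zero_of_zero (hU : IsOpen U) (h : ∀ p ∈ U, w p.1 p.2 = 0) :
    ∀ p ∈ U, resid w p.1 p.2 = 0 := by
  intro p hp
  rw [resid_congr hU (w := w) (v := fun _ _ => 0) h p hp]
  have e1 : psw (fun _ _ => (0 : ℝ)) = fun _ x => 1 - x := by
    funext t x; simp [psw, Pw]
  have e2 : dX (psw (fun _ _ => (0 : ℝ))) = fun _ _ => -1 := by
    rw [e1]; funext t x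
    have : HasDerivAt (fun y : ℝ => 1 - y) (-1) x := by
      simpa using (hasDerivAt_id x).const_sub 1
    exact this.deriv
  have e3 : dX (dX (psw (fun _ _ => (0 : ℝ)))) = fun _ _ => 0 := by
    rw [e2]; funext t x; simp [dX]
  have e4 : Sop (fun _ _ => (0 : ℝ)) = fun _ _ => 110 := by
    funext t x
    show 90 * qw (fun _ _ => (0 : ℝ)) t x - 20 * dX (psw (fun _ _ => (0 : ℝ))) t x -
      x * dX (dX (psw (fun _ _ => (0 : ℝ)))) t x = 110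
    rw [e3, e2]; simp only [qw, Pw]; norm_num
  simp only [resid, e4]
  simp [dX, dt]

end congr

/-! ### `Sop` on the classes -/

section ord

variable {s : ℝ} {I : Set ℝ} {k M : ℕ} {w v : ℝ → ℝ → ℝ} {a b c : ℝ}

lemma ord_x (hI : IsOpen I) (hIb : I ⊆ Icc a b) : Ord s I 0 (fun _ x => x) :=
  ord_of_x hI isOpen_univ (isCompact_Icc (a := a) (b := b)) hIb (subset_univ _) contDiffOn_id

lemma ord_1x (hI : IsOpen I) (hIb : I ⊆ Icc a b) : Ord s I 0 (fun _ x => 1 - x) :=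
  (ord_const hI 1).sub hI (ord_x hI hIb)

lemma Ord.Pw (hI : IsOpen I) (hIb : I ⊆ Icc a b) (hw : Ord s I 0 w) : Ord s I 0 (Pw w) :=
  (ord_const hI 1).add hI (((ord_x hI hIb).mul0 hI (ord_1x hI hIb)).mul0 hI hw)

lemma Ord.Pinv (hI : IsOpen I) (hIb : I ⊆ Icc a b) (hw : Ord s I 0 w) (hc : 0 < c)
    (hP : ∀ t ∈ Ioo 0 s, ∀ x ∈ I, c ≤ D.Pw w t x) : Ord s I 0 (fun t x => (D.Pw w t x)⁻¹) :=
  (hw.Pw hI hIb).inv hI hc fun p hp => (hP p.1 hp.1 p.2 hp.2).trans (le_abs_self _)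

lemma ord_Pinv_sub (hI : IsOpen I) (hIb : I ⊆ Icc a b) (hw : Ord s I 0 w) (hv : Ord s I 0 v)
    (hc : 0 < c) (hPw : ∀ t ∈ Ioo 0 s, ∀ x ∈ I, c ≤ Pw w t x)
    (hPv : ∀ t ∈ Ioo 0 s, ∀ x ∈ I, c ≤ Pw v t x)
    (h : Ord s I k (fun t x => w t x - v t x)) :
    Ord s I k (fun t x => (Pw w t x)⁻¹ - (Pw v t x)⁻¹) := by
  have iw := hw.Pinv hI hIb hc hPw
  have iv := hv.Pinv hI hIb hc hPv
  have h1 : Ord s I k (fun t x => -((((fun _ x => x) t x * (fun _ x => 1 - x) t x) *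
      ((Pw w t x)⁻¹ * (Pw v t x)⁻¹)) * (w t x - v t x))) :=
    ((((ord_x hI hIb).mul0 hI (ord_1x hI hIb)).mul0 hI (iw.mul0 hI iv)).mul0 hI h).neg hI
  refine h1.congr hI ?_
  rintro ⟨t, x⟩ hp
  have e1 : Pw w t x ≠ 0 := (hc.trans_le (hPw t hp.1 x hp.2)).ne'
  have e2 : Pw v t x ≠ 0 := (hc.trans_le (hPv t hp.1 x hp.2)).ne'
  simp only
  field_simp
  simp only [Pw]; ring

lemma ord_psw (hI : IsOpen I) (hIb : I ⊆ Icc a b) (hw : Ord s I 0 w) (hc : 0 < c)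
    (hP : ∀ t ∈ Ioo 0 s, ∀ x ∈ I, c ≤ Pw w t x) : Ord s I 0 (psw w) :=
  (ord_1x hI hIb).mul0 hI (hw.Pinv hI hIb hc hP)

lemma ord_psw_sub (hI : IsOpen I) (hIb : I ⊆ Icc a b) (hw : Ord s I 0 w) (hv : Ord s I 0 v)
    (hc : 0 < c) (hPw : ∀ t ∈ Ioo 0 s, ∀ x ∈ I, c ≤ Pw w t x)
    (hPv : ∀ t ∈ Ioo 0 s, ∀ x ∈ I, c ≤ Pw v t x)
    (h : Ord s I k (fun t x => w t x - v t x)) :
    Ord s I k (fun t x => psw w t x - psw v t x) := by
  refine ((ord_1x hI hIb).mul0 hI (ord_Pinv_sub hI hIb hw hv hc hPw hPv h)).congr hI ?_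
  rintro ⟨t, x⟩ hp
  simp only [psw]; ring

lemma ord_qw_sub (hI : IsOpen I) (hIb : I ⊆ Icc a b) (hw : Ord s I 0 w) (hv : Ord s I 0 v)
    (hc : 0 < c) (hPw : ∀ t ∈ Ioo 0 s, ∀ x ∈ I, c ≤ Pw w t x)
    (hPv : ∀ t ∈ Ioo 0 s, ∀ x ∈ I, c ≤ Pw v t x)
    (h : Ord s I k (fun t x => w t x - v t x)) :
    Ord s I k (fun t x => qw w t x - qw v t x) := by
  have iw := hw.Pinv hI hIb hc hPw
  have h1 := ((ord_1x (s := s) hI hIb).mul0 hI (iw.mul0 hI h))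
  have h2 := (((ord_const hI 1).add hI ((ord_1x hI hIb).mul0 hI hv)).mul0 hI
    (ord_Pinv_sub hI hIb hw hv hc hPw hPv h))
  refine (h1.add hI h2).congr hI ?_
  rintro ⟨t, x⟩ hp
  simp only [qw]; ring

lemma ord_Sop (hI : IsOpen I) (hIb : I ⊆ Icc a b) (hw : Ord s I 0 w) (hc : 0 < c)
    (hP : ∀ t ∈ Ioo 0 s, ∀ x ∈ I, c ≤ Pw w t x) : Ord s I 0 (Sop w) := by
  have h1 := ord_psw hI hIb hw hc hP
  have h2 : Ord s I 0 (qw w) :=
    ((ord_const hI 1).add hI ((ord_1x hI hIb).mul0 hI hw)).mul0 hI (hw.Pinv hI hIb hc hP)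
  exact (((ord_const hI 90).mul0 hI h2).sub hI ((ord_const hI 20).mul0 hI (h1.dX hI))).sub hI
    ((ord_x hI hIb).mul0 hI ((h1.dX hI).dX hI))

lemma Ord.dX_sub (hI : IsOpen I) (hw : SmU (Ioo 0 s ×ˢ I) w) (hv : SmU (Ioo 0 s ×ˢ I) v)
    (h : Ord s I k (fun t x => w t x - v t x)) :
    Ord s I k (fun t x => D.dX w t x - D.dX v t x) := by
  refine (h.dX hI).congr hI ?_
  rintro ⟨t, x⟩ hp
  exact D.dX_sub hw hv (isOpen_dom hI) hp

lemma ord_Sop_sub (hI : IsOpen I) (hIb : I ⊆ Icc a b) (hw : Ord s I 0 w) (hv : Ord s I 0 v)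
    (hc : 0 < c) (hPw : ∀ t ∈ Ioo 0 s, ∀ x ∈ I, c ≤ Pw w t x)
    (hPv : ∀ t ∈ Ioo 0 s, ∀ x ∈ I, c ≤ Pw v t x)
    (h : Ord s I k (fun t x => w t x - v t x)) :
    Ord s I k (fun t x => Sop w t x - Sop v t x) := by
  have pw := ord_psw hI hIb hw hc hPw
  have pv := ord_psw hI hIb hv hc hPv
  have h1 := ord_psw_sub hI hIb hw hv hc hPw hPv h
  have h2 := ord_qw_sub hI hIb hw hv hc hPw hPv h
  have h3 : Ord s I k (fun t x => dX (psw w) t x - dX (psw v) t x) :=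
    Ord.dX_sub hI pw.sm pv.sm h1
  have h4 : Ord s I k (fun t x => dX (dX (psw w)) t x - dX (dX (psw v)) t x) :=
    Ord.dX_sub hI (pw.dX hI).sm (pv.dX hI).sm h3
  refine ((((ord_const hI 90).mul0 hI h2).sub hI ((ord_const hI 20).mul0 hI h3)).sub hI
    ((ord_x hI hIb).mul0 hI h4)).congr hI ?_
  rintro ⟨t, x⟩ hp
  simp only [Sop]; ring

lemma ord_dXdXSop_sub (hI : IsOpen I) (hIb : I ⊆ Icc a b) (hw : Ord s I 0 w) (hv : Ord s I 0 v)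
    (hc : 0 < c) (hPw : ∀ t ∈ Ioo 0 s, ∀ x ∈ I, c ≤ Pw w t x)
    (hPv : ∀ t ∈ Ioo 0 s, ∀ x ∈ I, c ≤ Pw v t x)
    (h : Ord s I k (fun t x => w t x - v t x)) :
    Ord s I k (fun t x => dX (dX (Sop w)) t x - dX (dX (Sop v)) t x) := by
  have sw := ord_Sop hI hIb hw hc hPw
  have sv := ord_Sop hI hIb hv hc hPv
  have h1 := ord_Sop_sub hI hIb hw hv hc hPw hPv h
  exact Ord.dX_sub hI (sw.dX hI).sm (sv.dX hI).sm (Ord.dX_sub hI sw.sm sv.sm h1)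

/-- **Matching lemma.** -/
theorem matching (hI : IsOpen I) (hIb : I ⊆ Icc a b) (hw : Ord s I 0 w) (hv : Ord s I 0 v)
    (hc : 0 < c) (hPw : ∀ t ∈ Ioo 0 s, ∀ x ∈ I, c ≤ Pw w t x)
    (hPv : ∀ t ∈ Ioo 0 s, ∀ x ∈ I, c ≤ Pw v t x)
    (h1 : Ord s I 1 (fun t x => w t x - v t x))
    (rw' : Ord s I M (resid w)) (rv : Ord s I M (resid v)) :
    Ord s I (M + 1) (fun t x => w t x - v t x) := by
  have step : ∀ k ≤ M, Ord s I k (fun t x => w t x - v t x) →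
      Ord s I (k + 1) (fun t x => w t x - v t x) := by
    intro k hk h
    refine h1.int hI ?_
    have h2 := ord_dXdXSop_sub hI hIb hw hv hc hPw hPv h
    refine (((rw'.mono_M hk).sub hI (rv.mono_M hk)).add hI h2).congr hI ?_
    rintro ⟨t, x⟩ hp
    simp only [resid]
    rw [dt_sub hw.sm hv.sm (isOpen_dom hI) hp]; ring
  have main : ∀ k ≤ M, Ord s I (k + 1) (fun t x => w t x - v t x) := by
    intro k
    induction k with
    | zero => intro _; exact h1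
    | succ k ih => intro hk; exact step (k + 1) hk (ih (by omega))
  exact main M le_rfl

end ord

end Crest.Agent.R213.D
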