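import Crest.Agent.R213.D.DDefs
import Crest.Agent.R213.D.Oper

/-!
# Row 213, part D: interface between the blocks, VERSION 2 (all `sorry`; NEVER import from a proof file)
Files: Inner (D1, helper800), InnerBd (D1b, helper690), Ord/Oper/Formal (D2, helper430), GenS (D3a, helper35),
ResBd (D3b, helper310), OuterBd (D3c, helper769), UnitBg (D3 assembly, helper684), Scale (D4, DONE, helper310).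
Two-sided operators (`dX`, `Sop`, `resid`, ...) of Ord.lean / Oper.lean on OPEN sets `U ⊇ (0,s1) × [0,1]`.
-/

set_option autoImplicit false

open Set MeasureTheory Filter Topology

noncomputable section

namespace Crest.Agent.R213.D

variable {c A : ℝ} {g gh : ℝ → ℝ}

/-! ### D1 (Inner.lean): identities of the inner solution -/

theorem isOpen_Ug (hg : Soliton c A g gh) : IsOpen (Ug g) := by sorry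
theorem mem_Ug (hg : Soliton c A g gh) {s x : ℝ} (hs : 0 < s) (hx : 0 ≤ x) (hx1 : x < 1) :
    (s, x) ∈ Ug g := by sorry
theorem gh_pos (hg : Soliton c A g gh) {z : ℝ} (hz : 0 ≤ z) : 0 < gh z := by sorry
theorem win_eq_winh (hg : Soliton c A g gh) {s x : ℝ} (hs : 0 < s) (hx : 0 < x) :
    win g s x = winh gh s x := by sorry
theorem winh_zero (hg : Soliton c A g gh) (x : ℝ) :
    winh gh 0 x = (1 / c - 1) / x - 1 / (1 - x) := by sorry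
theorem smIK_winh (hg : Soliton c A g gh) {a b : ℝ} (ha : 0 < a) (hb : b < 1) :
    SmIK (Ici 0) (Icc a b) (winh gh) := by sorry
theorem smU_win (hg : Soliton c A g gh) : SmU (Ug g) (win g) := by sorry
theorem Pw_win (hg : Soliton c A g gh) {s x : ℝ} (hp : (s, x) ∈ Ug g) :
    Pw (win g) s x = (1 - x) / g (x / √s) := by sorry
theorem Sop_win (hg : Soliton c A g gh) {s x : ℝ} (hp : (s, x) ∈ Ug g) :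
    Sop (win g) s x = Sig g (x / √s) / √s := by sorry
theorem Sop_win_zero (hg : Soliton c A g gh) {s : ℝ} (hs : 0 < s) :
    Sop (win g) s 0 = 110 * A / √s := by sorry
theorem resid_win (hg : Soliton c A g gh) {s x : ℝ} (hs : 0 < s) (hx : 0 ≤ x) (hx1 : x < 1) :
    resid (win g) s x = 0 := by sorry

/-! ### D1b (InnerBd.lean): bounds for the profile -/

theorem prof_exists (hg : Soliton c A g gh) : ∃ c0 C0 : ℝ, Prof c0 C0 g := by sorry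

theorem inner_dt_bd (hg : Soliton c A g gh) (J : ℕ) : ∃ C : ℝ, ∀ j ≤ J, ∀ s : ℝ, 0 < s →
    ∀ x : ℝ, 0 ≤ x → (x ^ 2 + s) ^ j * |iteratedDeriv j (fun r => g (x / √r)) s| ≤ C := by sorry

/-! ### D2 (Formal.lean, helper430): `formal`, `matching` (Oper.lean, done), `ord_inner`. -/

/-- `wM a M t x = ∑_{j ≤ M} t^j a_j(x)` -/
def wM' (a : ℕ → ℝ → ℝ) (M : ℕ) : ℝ → ℝ → ℝ := fun t x => ∑ j ∈ Finset.range (M + 1), t ^ j * a j x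

theorem formal {c : ℝ} (hc : 0 < c) : ∃ a : ℕ → ℝ → ℝ, (∀ j, ContDiff ℝ (⊤ : ℕ∞) (a j)) ∧
    (∀ j x, x ∉ Icc (1 / 32 : ℝ) (3 / 4) → a j x = 0) ∧
    (∀ x ∈ Icc (1 / 16 : ℝ) (1 / 2), a 0 x = 1 / (c * x) - 1 / x - 1 / (1 - x)) ∧
    (∀ x, 0 < 1 + x * (1 - x) * a 0 x) ∧
    ∀ M, ∃ s > 0, ∃ c1 > 0, (∀ t ∈ Ioo (-s) s, ∀ x, c1 ≤ Pw (wM' a M) t x) ∧
      Ord s (Ioo (-1) 2) M (resid (wM' a M)) := by sorry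

/-! ### D3a (GenS.lean, helper35) -/

theorem Kint_Sop {U : Set (ℝ × ℝ)} (hU : IsOpen U) {w : ℝ → ℝ → ℝ} (hw : SmU U w)
    (hP : ∀ p ∈ U, 0 < Pw w p.1 p.2) {s : ℝ} (hs : ∀ x ∈ Icc (0 : ℝ) 1, (s, x) ∈ U) :
    ∀ x ∈ Icc (0 : ℝ) 1,
      x ^ 10 - x ^ 9 * (x * (1 - x) / Pw w s x) = Kint (Sop w s) x := by sorry

theorem SmU.sm {U : Set (ℝ × ℝ)} {s1 L : ℝ} {u : ℝ → ℝ → ℝ} (hu : SmU U u)
    (hs : ∀ s ∈ Ioo 0 s1, ∀ x ∈ Icc 0 L, (s, x) ∈ U) : Sm (Ioo 0 s1) L u := by sorry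

theorem SmU.dx_eq {U : Set (ℝ × ℝ)} (hU : IsOpen U) {L : ℝ} (hL : 0 < L) {u : ℝ → ℝ → ℝ}
    (hu : SmU U u) {s x : ℝ} (hx : x ∈ Icc 0 L) (hp : (s, x) ∈ U) : dx L u s x = D.dX u s x := by
  sorry

theorem SmU.dx_dx_eq {U : Set (ℝ × ℝ)} (hU : IsOpen U) {L : ℝ} (hL : 0 < L) {u : ℝ → ℝ → ℝ}
    (hu : SmU U u) {s : ℝ} (hs : ∀ x ∈ Icc 0 L, (s, x) ∈ U) {x : ℝ} (hx : x ∈ Icc 0 L) :
    dx L (dx L u) s x = D.dX (D.dX u) s x := by sorry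

/-! ### D3b (ResBd.lean, helper310): the error from the residual -/

theorem E_of_residual {s1 : ℝ} (hs1 : 0 < s1) {M J : ℕ} {C : ℝ} {r : ℝ → ℝ → ℝ}
    (hr : Sm (Ioo 0 s1) 1 r)
    (hr0 : ∀ s ∈ Ioo 0 s1, ∀ x ∈ Icc (0 : ℝ) (1 / 8), r s x = 0)
    (hb : ∀ j ≤ J, ∀ s ∈ Ioo 0 s1, ∀ x ∈ Icc (0 : ℝ) 1, |(dt^[j] r) s x| ≤ C * s ^ (M - j)) :
    ∃ E : ℝ → ℝ → ℝ, Sm (Ioo 0 s1) 1 E ∧
      (∀ s ∈ Ioo 0 s1, ∀ x ∈ Icc (0 : ℝ) 1, dx 1 (dx 1 E) s x = r s x) ∧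
      (∀ s ∈ Ioo 0 s1, ∀ x ∈ Icc (0 : ℝ) (1 / 8), E s x = 0) ∧
      (∀ j ≤ J, ∀ s ∈ Ioo 0 s1, ∀ x ∈ Icc (0 : ℝ) 1, |(dt^[j] E) s x| ≤ C * s ^ (M - j)) := by
  sorry

/-! ### D3c (OuterBd.lean): bounds in the outer region, constants independent of `M` -/

theorem outer_bd {s1 : ℝ} (hs1 : 0 < s1) {w : ℝ → ℝ → ℝ} (hw : SmIK (Ico 0 s1) (Icc (1 / 8) 1) w)
    (hP : ∀ s ∈ Ico 0 s1, ∀ x ∈ Icc (1 / 8 : ℝ) 1, 0 < PP w s x) :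
    ∃ c1 C1 : ℝ, 0 < c1 ∧ ∀ (s2 : ℝ) (w' : ℝ → ℝ → ℝ), 0 < s2 →
      SmIK (Ico 0 s2) (Icc (1 / 8) 1) w' →
      OM (Ico 0 s2) (Icc (1 / 8) 1) 10 (fun s x => w' s x - w s x) →
      ∃ s3 : ℝ, 0 < s3 ∧ s3 ≤ s2 ∧ (∀ s ∈ Ico 0 s3, ∀ x ∈ Icc (1 / 8 : ℝ) 1,
        0 < PP w' s x ∧ c1 ≤ 1 / PP w' s x ∧ 1 / PP w' s x ≤ C1 ∧
        |dxK (Icc (1 / 8) 1) (fun s x => x * (1 - x) / PP w' s x) s x| ≤ C1) ∧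
        ∀ s ∈ Ioo 0 s3, ∀ x ∈ Icc (1 / 8 : ℝ) 1, ∀ j ≤ 9,
          |iteratedDeriv j (fun r => 1 / PP w' r x) s| ≤ C1 := by sorry

/-! ### D3 (UnitBg.lean): background in unit scale -/

theorem unit_bg (hg : Soliton c A g gh) :
    ∃ c0 C0 : ℝ, Prof c0 C0 g ∧ ∀ M : ℕ, 9 ≤ M → ∃ s1 C : ℝ, 0 < s1 ∧ s1 ≤ 1 ∧
      ∃ φ m w S E : ℝ → ℝ → ℝ,
      Sm (Ioo 0 s1) 1 m ∧ Sm (Ioo 0 s1) 1 w ∧ Sm (Ioo 0 s1) 1 S ∧ Sm (Ioo 0 s1) 1 E ∧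
      (∀ s ∈ Ioo 0 s1, ∀ x ∈ Icc (0 : ℝ) 1, φ s x = x * (1 - x) * m s x) ∧
      (∀ s ∈ Ioo 0 s1, ∀ x ∈ Icc (0 : ℝ) 1, c0 ≤ m s x) ∧
      (∀ s ∈ Ioo 0 s1, ∀ x ∈ Icc (0 : ℝ) 1, m s x ≤ C0) ∧
      (∀ s ∈ Ioo 0 s1, ∀ x ∈ Icc (0 : ℝ) 1, |dx 1 φ s x| ≤ C0) ∧
      (∀ j ≤ 9, ∀ s ∈ Ioo 0 s1, ∀ x ∈ Icc (0 : ℝ) 1,
        (x ^ 2 + s) ^ j * |(dt^[j] m) s x| ≤ C0) ∧
      (∀ s ∈ Ioo 0 s1, ∀ x ∈ Icc (0 : ℝ) (1 / 8), φ s x = x * g (x / √s)) ∧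
      (∀ s ∈ Ioo 0 s1, ∀ x ∈ Ioo (0 : ℝ) 1, 1 / φ s x = 1 / x + 1 / (1 - x) + w s x) ∧
      (∀ s ∈ Ioo 0 s1, ∀ x ∈ Icc (0 : ℝ) 1, x ^ 10 - x ^ 9 * φ s x = Kint (S s) x) ∧
      (∀ s ∈ Ioo 0 s1, ∀ x ∈ Icc (0 : ℝ) 1,
        dx 1 (dx 1 E) s x = dt w s x - dx 1 (dx 1 S) s x) ∧
      (∀ s ∈ Ioo 0 s1, S s 0 = 110 * A / √s) ∧
      (∀ s ∈ Ioo 0 s1, ∀ x ∈ Icc (0 : ℝ) (1 / 8), E s x = 0) ∧
      (∀ j ≤ 9, ∀ s ∈ Ioo 0 s1, ∀ x ∈ Icc (0 : ℝ) 1, |(dt^[j] E) s x| ≤ C * s ^ (M - j)) := by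
  sorry

/-! ### D4 (Scale.lean): `unit_bg`'s conclusion ⟹ `bg_exists`'s conclusion (τ = L² s, x ↦ x/L;
`φ_L = L φ(τ/L², x/L)`, `m_L = m(τ/L²,x/L)`, `w_L = L⁻¹ w`, `S_L = L⁻¹ S`, `E_L = L⁻¹ E`) -/

end Crest.Agent.R213.D
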