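import Crest.Agent.R213.D.Ord

/-!
# Row 213, part D2: Taylor remainders in `t` of functions smooth across `t = 0`
-/

set_option autoImplicit false

open Set Filter Topology

noncomputable section

namespace Crest.Agent.R213.D

/-- Taylor remainder in `t` of order `M` at `t = 0`. -/
def Rem (M : ℕ) (F : ℝ → ℝ → ℝ) : ℝ → ℝ → ℝ := fun t x =>
  F t x - ∑ j ∈ Finset.range M, t ^ j * ((dt^[j] F) 0 x / j.factorial)

/-- the slab `(-s0, s0) × ℝ` -/
abbrev Slab (s0 : ℝ) : Set (ℝ × ℝ) := Ioo (-s0) s0 ×ˢ univ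

lemma isOpen_slab (s0 : ℝ) : IsOpen (Slab s0) := isOpen_Ioo.prod isOpen_univ

section

variable {s0 : ℝ} {F : ℝ → ℝ → ℝ}

lemma iter_dt_sm {U : Set (ℝ × ℝ)} (hU : IsOpen U) : ∀ (j : ℕ) {F : ℝ → ℝ → ℝ}, SmU U F →
    SmU U (dt^[j] F)
  | 0, _, h => h
  | j + 1, F, h => by
    rw [Function.iterate_succ_apply]
    exact iter_dt_sm hU j (h.dt hU)

lemma iter_dt_congr {U : Set (ℝ × ℝ)} (hU : IsOpen U) : ∀ (j : ℕ) {F G : ℝ → ℝ → ℝ},
    (∀ p ∈ U, F p.1 p.2 = G p.1 p.2) → ∀ p ∈ U, (dt^[j] F) p.1 p.2 = (dt^[j] G) p.1 p.2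
  | 0, _, _, h => h
  | j + 1, F, G, h => by
    intro p hp
    rw [Function.iterate_succ_apply, Function.iterate_succ_apply]
    exact iter_dt_congr hU j (fun q hq => dt_congr (t := q.1) (x := q.2) hU h hq) p hp

lemma iter_dt_dX {U : Set (ℝ × ℝ)} (hU : IsOpen U) : ∀ (j : ℕ) {F : ℝ → ℝ → ℝ}, SmU U F →
    ∀ p ∈ U, (dt^[j] (dX F)) p.1 p.2 = dX (dt^[j] F) p.1 p.2
  | 0, _, _ => fun _ _ => rfl
  | j + 1, F, h => by
    intro p hp
    rw [Function.iterate_succ_apply, Function.iterate_succ_apply]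
    rw [iter_dt_congr hU j (F := dt (dX F)) (G := dX (dt F))
      (fun q hq => dt_dX_comm h hU (t := q.1) (x := q.2) hq) p hp]
    exact iter_dt_dX hU j (h.dt hU) p hp

lemma iter_dt_zero {V : Set ℝ} (hV : IsOpen V) {F : ℝ → ℝ → ℝ} {J : Set ℝ} (hJ : IsOpen J)
    (h : ∀ p ∈ J ×ˢ V, F p.1 p.2 = 0) (j : ℕ) : ∀ p ∈ J ×ˢ V, (dt^[j] F) p.1 p.2 = 0 := by
  intro p hp
  rw [iter_dt_congr (hJ.prod hV) j (F := F) (G := fun _ _ => 0) h p hp]
  have : dt (fun _ _ => (0 : ℝ)) = fun _ _ => 0 := by funext t x; simp [dt]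
  have h2 : ∀ j : ℕ, (dt^[j] (fun _ _ => (0 : ℝ))) = fun _ _ => 0 := by
    intro j
    induction j with
    | zero => rfl
    | succ j ih => rw [Function.iterate_succ_apply, this, ih]
  rw [h2]

/-- coefficient functions are smooth. -/
lemma coeff_smooth (hs0 : 0 < s0) (h : SmU (Slab s0) F) (j : ℕ) :
    ContDiff ℝ (⊤ : ℕ∞) (fun x => (dt^[j] F) 0 x) := by
  have h1 := iter_dt_sm (isOpen_slab s0) j h
  rw [← contDiffOn_univ]
  have h2 : ContDiffOn ℝ (⊤ : ℕ∞) (fun x : ℝ => ((0 : ℝ), x)) univ :=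
    (contDiff_const.prodMk contDiff_id).contDiffOn
  exact ContDiffOn.comp (g := fun p : ℝ × ℝ => (dt^[j] F) p.1 p.2) h1 h2
    (fun x _ => ⟨⟨by simpa using hs0, hs0⟩, mem_univ _⟩)

lemma Rem_sm (hs0 : 0 < s0) (h : SmU (Slab s0) F) : ∀ M : ℕ, SmU (Slab s0) (Rem M F) := by
  intro M
  have h1 : SmU (Slab s0) (fun t x =>
      ∑ j ∈ Finset.range M, t ^ j * ((dt^[j] F) 0 x / j.factorial)) := by
    unfold SmU
    apply ContDiffOn.sum
    intro j _
    exact (smU_tpow j).mul (smU_of_x ((coeff_smooth hs0 h j).div_const _))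
  exact h.sub h1

lemma Rem_succ (M : ℕ) (t x : ℝ) : Rem (M + 1) F t x = F t x -
    (∑ j ∈ Finset.range M, t ^ (j + 1) * ((dt^[j] (dt F)) 0 x / (j + 1).factorial) + F 0 x) := by
  simp only [Rem]
  rw [Finset.sum_range_succ']
  simp [Function.iterate_succ_apply]

lemma dt_Rem_succ (h : SmU (Slab s0) F) (M : ℕ) :
    ∀ p ∈ Slab s0, dt (Rem (M + 1) F) p.1 p.2 = Rem M (dt F) p.1 p.2 := by
  rintro ⟨t, x⟩ hp
  have hd := h.hdt (isOpen_slab s0) hp
  have h1 : HasDerivAt (fun r => Rem (M + 1) F r x)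
      (dt F t x - (∑ j ∈ Finset.range M, ((j + 1 : ℕ) * t ^ j) *
        ((dt^[j] (dt F)) 0 x / (j + 1).factorial) + 0)) t := by
    have e : (fun r => Rem (M + 1) F r x) = fun r => F r x -
        (∑ j ∈ Finset.range M, r ^ (j + 1) * ((dt^[j] (dt F)) 0 x / (j + 1).factorial) +
          F 0 x) := by
      funext r; exact Rem_succ M r x
    rw [e]
    refine hd.sub (HasDerivAt.add (HasDerivAt.fun_sum fun j _ => ?_) (hasDerivAt_const _ _))
    have := (hasDerivAt_pow (j + 1) t).mul_const ((dt^[j] (dt F)) 0 x / (j + 1).factorial)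
    simpa using this
  have h2 : dt (Rem (M + 1) F) t x = _ := h1.deriv
  rw [h2]
  simp only [Rem, add_zero]
  congr 1
  refine Finset.sum_congr rfl fun j _ => ?_
  rw [Nat.factorial_succ]
  have : ((j.factorial : ℕ) : ℝ) ≠ 0 := by exact_mod_cast j.factorial_ne_zero
  have h3 : ((j + 1 : ℕ) : ℝ) ≠ 0 := by exact_mod_cast Nat.succ_ne_zero j
  push_cast at h3 ⊢
  field_simp

lemma dX_Rem (hs0 : 0 < s0) (h : SmU (Slab s0) F) (M : ℕ) :
    ∀ p ∈ Slab s0, dX (Rem M F) p.1 p.2 = Rem M (dX F) p.1 p.2 := by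
  rintro ⟨t, x⟩ hp
  have hd := h.hdX (isOpen_slab s0) hp
  have h1 : HasDerivAt (fun y => Rem M F t y)
      (dX F t x - ∑ j ∈ Finset.range M, t ^ j * (dX (dt^[j] F) 0 x / j.factorial)) x := by
    refine hd.sub (HasDerivAt.fun_sum fun j _ => ?_)
    have h3 := (iter_dt_sm (isOpen_slab s0) j h).hdX (isOpen_slab s0) (t := 0) (x := x)
      ⟨⟨by simpa using hs0, hs0⟩, mem_univ _⟩
    exact (h3.div_const _).const_mul _
  have h2 : dX (Rem M F) t x = _ := h1.deriv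
  rw [h2]
  simp only [Rem]
  congr 1
  refine Finset.sum_congr rfl fun j _ => ?_
  rw [iter_dt_dX (isOpen_slab s0) j h (0, x) ⟨⟨by simpa using hs0, hs0⟩, mem_univ _⟩]

/-- smooth functions are bounded on compact boxes inside the slab. -/
lemma bd0_of_smU {s a b : ℝ} (hs : s < s0) (hs' : 0 < s0) (h : SmU (Slab s0) F) :
    Bd s (Ioo a b) 0 F := by
  have hK : IsCompact (Icc (0 : ℝ) s ×ˢ Icc a b) := isCompact_Icc.prod isCompact_Icc
  obtain ⟨C, hC⟩ := hK.exists_bound_of_continuousOn (f := fun p : ℝ × ℝ => F p.1 p.2)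
    (h.continuousOn.mono (by
      rintro ⟨t, x⟩ ⟨ht, _⟩
      exact ⟨⟨by simp only at ht ⊢; linarith [ht.1], ht.2.trans_lt hs⟩, mem_univ _⟩))
  refine ⟨|C|, abs_nonneg _, fun t ht x hx => ?_⟩
  have := hC (t, x) ⟨⟨ht.1.le, ht.2.le⟩, ⟨hx.1.le, hx.2.le⟩⟩
  rw [Real.norm_eq_abs] at this
  simpa using this.trans (le_abs_self C)

/-- version of `bd_of_deriv` with a limit at `0`. -/
lemma bd_of_deriv' {s : ℝ} {M : ℕ} {f : ℝ → ℝ} {f' : ℝ → ℝ} {C : ℝ} (hC : 0 ≤ C)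
    (hd : ∀ t ∈ Ioo 0 s, HasDerivAt f (f' t) t) (hf' : ∀ t ∈ Ioo 0 s, |f' t| ≤ C * t ^ M)
    (h0 : Tendsto f (𝓝[>] 0) (𝓝 0)) : ∀ t ∈ Ioo 0 s, |f t| ≤ C * t ^ (M + 1) := by
  intro t ht
  have key : ∀ r ∈ Ioo 0 t, |f t - f r| ≤ C * t ^ (M + 1) := by
    intro r hr
    have hsub : Icc r t ⊆ Ioo 0 s := fun y hy => ⟨hr.1.trans_le hy.1, hy.2.trans_lt ht.2⟩
    have h1 : ‖f t - f r‖ ≤ C * t ^ M * ‖t - r‖ := by
      refine Convex.norm_image_sub_le_of_norm_hasDerivWithin_le (s := Icc r t) (f' := f')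
        (fun y hy => (hd y (hsub hy)).hasDerivWithinAt) (fun y hy => ?_) (convex_Icc r t)
        (left_mem_Icc.2 hr.2.le) (right_mem_Icc.2 hr.2.le)
      rw [Real.norm_eq_abs]
      refine (hf' y (hsub hy)).trans ?_
      gcongr
      · exact (hsub hy).1.le
      · exact hy.2
    rw [Real.norm_eq_abs, Real.norm_eq_abs, abs_of_pos (sub_pos.2 hr.2)] at h1
    have h4 : C * t ^ M * (t - r) ≤ C * t ^ M * t := by
      have : 0 ≤ C * t ^ M := mul_nonneg hC (pow_nonneg ht.1.le _)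
      have hr0 := hr.1
      nlinarith
    calc |f t - f r| ≤ C * t ^ M * (t - r) := h1
      _ ≤ C * t ^ M * t := h4
      _ = C * t ^ (M + 1) := by ring
  have hlim : Tendsto (fun r : ℝ => |f t - f r|) (𝓝[>] 0) (𝓝 |f t - 0|) :=
    (h0.const_sub (f t)).abs
  have := le_of_tendsto hlim (by
    filter_upwards [Ioo_mem_nhdsGT ht.1] with r hr using key r hr)
  simpa using this

lemma Rem_bd {s a b : ℝ} (hs0 : 0 < s0) (hs : s < s0) : ∀ (M : ℕ) {F : ℝ → ℝ → ℝ},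
    SmU (Slab s0) F → Bd s (Ioo a b) M (Rem M F)
  | 0, F, h => by
    have : Rem 0 F = F := by funext t x; simp [Rem]
    rw [this]
    exact bd0_of_smU hs hs0 h
  | M + 1, F, h => by
    have hU := isOpen_slab s0
    obtain ⟨C, hC, hb⟩ := Rem_bd (a := a) (b := b) hs0 hs M (h.dt hU)
    refine ⟨C, hC, fun t ht x hx => ?_⟩
    have hmem : ∀ t ∈ Ioo (-s0) s0, (t, x) ∈ Slab s0 := fun t ht => ⟨ht, mem_univ _⟩
    have hsub : Ioo 0 s ⊆ Ioo (-s0) s0 := Ioo_subset_Ioo (by linarith) hs.le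
    refine bd_of_deriv' (f := fun r => Rem (M + 1) F r x) (f' := fun r => Rem M (dt F) r x)
      hC (fun r hr => ?_) (fun r hr => hb r hr x hx) ?_ t ht
    · have := (Rem_sm hs0 h (M + 1)).hdt hU (hmem r (hsub hr))
      rwa [dt_Rem_succ h M (r, x) (hmem r (hsub hr))] at this
    · have hc : ContinuousAt (fun r => Rem (M + 1) F r x) 0 :=
        ((Rem_sm hs0 h (M + 1)).hdt hU (hmem 0 ⟨by linarith, hs0⟩)).continuousAt
      have e0 : Rem (M + 1) F 0 x = 0 := by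
        rw [Rem_succ]; simp
      have := hc.tendsto.mono_left (nhdsWithin_le_nhds (s := Ioi 0))
      simpa [e0] using this

/-- **Taylor lemma**. -/
theorem ordN_Rem {s a b : ℝ} (hs0 : 0 < s0) (hs : s < s0) : ∀ (n M : ℕ) {F : ℝ → ℝ → ℝ},
    SmU (Slab s0) F → OrdN s (Ioo a b) M n (Rem M F) := by
  intro n
  have hU := isOpen_slab s0
  have hI : IsOpen (Ioo a b) := isOpen_Ioo
  have hsub : ∀ {s1 : ℝ}, s1 ≤ s → Ioo 0 s1 ×ˢ Ioo a b ⊆ Slab s0 := fun h1 =>
    prod_mono (Ioo_subset_Ioo (by linarith) (by linarith)) (subset_univ _)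
  induction n with
  | zero => intro M F h; exact Rem_bd hs0 hs M h
  | succ n ih =>
    intro M F h
    refine ⟨Rem_bd hs0 hs M h, ?_, ?_⟩
    · rcases M with _ | M
      · refine (ih 0 (h.X1 hU)).congr hI ?_
        rintro ⟨t, x⟩ hp
        have e1 : ∀ G : ℝ → ℝ → ℝ, Rem 0 G = G := fun G => by funext t x; simp [Rem]
        rw [e1, e1]
      · have h1 := OrdN.mul hI (M := 1) (N := M) (n := n) (F := fun t _ => t) smU_t
          ((Rem_sm hs0 (h.dt hU) M).mono (hsub le_rfl)) ((ord_t (s := s) hI).bd n)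
          (ih M (h.dt hU))
        rw [Nat.add_comm] at h1
        refine h1.congr hI ?_
        rintro ⟨t, x⟩ hp
        simp only [D.X1]
        rw [dt_Rem_succ h M (t, x) (hsub le_rfl hp)]
    · refine (ih M (h.dX hU)).congr hI ?_
      rintro ⟨t, x⟩ hp
      exact (dX_Rem hs0 h M (t, x) (hsub le_rfl hp)).symm

theorem ord_Rem {s a b : ℝ} (hs0 : 0 < s0) (hs : s < s0) (M : ℕ) (h : SmU (Slab s0) F) :
    Ord s (Ioo a b) M (Rem M F) :=
  ⟨(Rem_sm hs0 h M).mono (prod_mono (Ioo_subset_Ioo (by linarith) hs.le) (subset_univ _)),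
    fun n => ordN_Rem hs0 hs n M h⟩

theorem ord0_of_smU {s a b : ℝ} (hs0 : 0 < s0) (hs : s < s0) (h : SmU (Slab s0) F) :
    Ord s (Ioo a b) 0 F := by
  have := ord_Rem (a := a) (b := b) hs0 hs 0 h
  have e1 : Rem 0 F = F := by funext t x; simp [Rem]
  rwa [e1] at this

/-- a polynomial of degree `< N` which is `O(t^N)` vanishes. -/
lemma poly_zero : ∀ (N : ℕ) (c : ℕ → ℝ) (C s : ℝ), 0 < s →
    (∀ t ∈ Ioo 0 s, |∑ j ∈ Finset.range N, t ^ j * c j| ≤ C * t ^ N) → ∀ j < N, c j = 0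
  | 0, _, _, _, _, _ => fun j hj => absurd hj (Nat.not_lt_zero j)
  | N + 1, c, C, s, hs, h => by
    have h0 : c 0 = 0 := by
      have hc : Continuous fun t : ℝ => ∑ j ∈ Finset.range (N + 1), t ^ j * c j := by fun_prop
      have l1 : Tendsto (fun t : ℝ => |∑ j ∈ Finset.range (N + 1), t ^ j * c j|) (𝓝[>] 0)
          (𝓝 |∑ j ∈ Finset.range (N + 1), (0 : ℝ) ^ j * c j|) :=
        ((hc.abs.tendsto 0)).mono_left nhdsWithin_le_nhds
      have hc2 : Continuous fun t : ℝ => C * t ^ (N + 1) := by fun_prop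
      have l2 : Tendsto (fun t : ℝ => C * t ^ (N + 1)) (𝓝[>] 0) (𝓝 (C * 0 ^ (N + 1))) :=
        (hc2.tendsto 0).mono_left nhdsWithin_le_nhds
      have := le_of_tendsto_of_tendsto l1 l2 (by
        filter_upwards [Ioo_mem_nhdsGT hs] with t ht using h t ht)
      rw [Finset.sum_range_succ'] at this
      simp at this
      exact this
    have h1 : ∀ t ∈ Ioo 0 s, |∑ j ∈ Finset.range N, t ^ j * c (j + 1)| ≤ C * t ^ N := by
      intro t ht
      have h2 := h t ht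
      rw [Finset.sum_range_succ', h0] at h2
      have e : ∑ k ∈ Finset.range N, t ^ (k + 1) * c (k + 1) + t ^ 0 * 0 =
          t * ∑ j ∈ Finset.range N, t ^ j * c (j + 1) := by
        rw [Finset.mul_sum, mul_zero, add_zero]
        exact Finset.sum_congr rfl fun j _ => by ring
      rw [e, abs_mul, abs_of_pos ht.1] at h2
      have e2 : C * t ^ (N + 1) = t * (C * t ^ N) := by ring
      rw [e2] at h2
      exact le_of_mul_le_mul_left h2 ht.1
    intro j hj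
    rcases j with _ | j
    · exact h0
    · exact poly_zero N (fun j => c (j + 1)) C s hs h1 j (by omega)

/-- `O(t^N)` and smooth across `0` imply vanishing derivatives. -/
theorem vanish_of_bd {s x : ℝ} {N : ℕ} {C : ℝ} (hs0 : 0 < s0) (hs : 0 < s) (h : SmU (Slab s0) F)
    (hb : ∀ t ∈ Ioo 0 s, |F t x| ≤ C * t ^ N) : ∀ j < N, (dt^[j] F) 0 x = 0 := by
  set s' := min s (s0 / 2) with hs'
  have hs'0 : 0 < s' := lt_min hs (by linarith)
  have hs's : s' < s0 := (min_le_right _ _).trans_lt (by linarith)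
  obtain ⟨C', hC', hR⟩ := Rem_bd (a := x - 1) (b := x + 1) hs0 hs's N h
  have key := poly_zero N (fun j => (dt^[j] F) 0 x / j.factorial) (C + C') s' hs'0 (by
    intro t ht
    have h1 := hR t ht x ⟨by linarith, by linarith⟩
    have h2 := hb t ⟨ht.1, ht.2.trans_le (min_le_left _ _)⟩
    have e : ∑ j ∈ Finset.range N, t ^ j * ((dt^[j] F) 0 x / j.factorial) =
        F t x - Rem N F t x := by simp [Rem]
    rw [e]
    calc |F t x - Rem N F t x| ≤ |F t x| + |Rem N F t x| := abs_sub _ _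
      _ ≤ C * t ^ N + C' * t ^ N := add_le_add h2 h1
      _ = (C + C') * t ^ N := by ring)
  intro j hj
  have := key j hj
  have h3 : ((j.factorial : ℕ) : ℝ) ≠ 0 := by exact_mod_cast j.factorial_ne_zero
  simpa [h3] using this

end

end Crest.Agent.R213.D
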