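import Crest.Agent.R213.D.Oper
import Crest.Agent.R213.D.Taylor

/-!
# Row 213, part D2: the formal outer solution
-/

set_option autoImplicit false

open Set Filter Topology

noncomputable section

namespace Crest.Agent.R213.D

/-! ### the initial profile -/

/-- cut-off: `0` for `x ≤ 1/32` and `x ≥ 3/4`, `1` on `[1/16, 1/2]`. -/
def lam (x : ℝ) : ℝ :=
  Real.smoothTransition (32 * (x - 1 / 32)) * (1 - Real.smoothTransition (4 * (x - 1 / 2)))

/-- `w` at `t = 0`. -/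
def w0f (c : ℝ) (x : ℝ) : ℝ := lam x * (1 / (c * x) - 1 / x - 1 / (1 - x))

lemma lam_smooth : ContDiff ℝ (⊤ : ℕ∞) lam := by
  unfold lam
  refine ContDiff.mul ?_ (contDiff_const.sub ?_)
  · exact Real.smoothTransition.contDiff.comp (contDiff_const.mul (contDiff_id.sub contDiff_const))
  · exact Real.smoothTransition.contDiff.comp (contDiff_const.mul (contDiff_id.sub contDiff_const))

lemma lam_nonneg (x : ℝ) : 0 ≤ lam x :=
  mul_nonneg (Real.smoothTransition.nonneg _) (sub_nonneg.2 (Real.smoothTransition.le_one _))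

lemma lam_le_one (x : ℝ) : lam x ≤ 1 := by
  have h1 := Real.smoothTransition.le_one (32 * (x - 1 / 32))
  have h2 := Real.smoothTransition.nonneg (32 * (x - 1 / 32))
  have h3 := Real.smoothTransition.le_one (4 * (x - 1 / 2))
  have h4 := Real.smoothTransition.nonneg (4 * (x - 1 / 2))
  unfold lam
  nlinarith

lemma lam_of_le {x : ℝ} (h : x ≤ 1 / 32) : lam x = 0 := by
  unfold lam
  rw [Real.smoothTransition.zero_of_nonpos (by linarith), zero_mul]

lemma lam_of_ge {x : ℝ} (h : 3 / 4 ≤ x) : lam x = 0 := by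
  unfold lam
  rw [Real.smoothTransition.one_of_one_le (x := 4 * (x - 1 / 2)) (by linarith), sub_self, mul_zero]

lemma lam_eq_one {x : ℝ} (h1 : 1 / 16 ≤ x) (h2 : x ≤ 1 / 2) : lam x = 1 := by
  unfold lam
  rw [Real.smoothTransition.one_of_one_le (x := 32 * (x - 1 / 32)) (by linarith),
    Real.smoothTransition.zero_of_nonpos (x := 4 * (x - 1 / 2)) (by linarith)]
  ring

lemma w0f_supp (c : ℝ) {x : ℝ} (h : x ∉ Icc (1 / 32 : ℝ) (3 / 4)) : w0f c x = 0 := by
  unfold w0f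
  have : lam x = 0 := by
    rcases lt_or_ge x (1 / 32) with h1 | h1
    · exact lam_of_le h1.le
    · refine lam_of_ge ?_
      by_contra h2
      exact h ⟨h1, (not_le.1 h2).le⟩
  rw [this, zero_mul]

lemma w0f_eq (c : ℝ) {x : ℝ} (h : x ∈ Icc (1 / 16 : ℝ) (1 / 2)) :
    w0f c x = 1 / (c * x) - 1 / x - 1 / (1 - x) := by
  unfold w0f; rw [lam_eq_one h.1 h.2, one_mul]

lemma w0f_smooth {c : ℝ} (hc : 0 < c) : ContDiff ℝ (⊤ : ℕ∞) (w0f c) := by
  rw [contDiff_iff_contDiffAt]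
  intro x
  by_cases h : x ∈ Icc (1 / 32 : ℝ) (3 / 4)
  · have hx : x ≠ 0 := by have := h.1; intro h0; rw [h0] at this; norm_num at this
    have hx1 : 1 - x ≠ 0 := by have := h.2; intro h0; linarith
    have hcx : c * x ≠ 0 := mul_ne_zero hc.ne' hx
    unfold w0f
    refine (lam_smooth.contDiffAt).mul (((ContDiffAt.div ?_ ?_ ?_).sub (ContDiffAt.div ?_ ?_ ?_)).sub
      (ContDiffAt.div ?_ ?_ ?_))
    · exact contDiffAt_const
    · exact contDiffAt_const.mul contDiffAt_id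
    · exact hcx
    · exact contDiffAt_const
    · exact contDiffAt_id
    · exact hx
    · exact contDiffAt_const
    · exact contDiffAt_const.sub contDiffAt_id
    · exact hx1
  · have hev : w0f c =ᶠ[𝓝 x] fun _ => 0 := by
      filter_upwards [isClosed_Icc.isOpen_compl.mem_nhds h] with y hy using w0f_supp c hy
    exact contDiffAt_const.congr_of_eventuallyEq hev

lemma w0f_pos {c : ℝ} (hc : 0 < c) (x : ℝ) : 0 < 1 + x * (1 - x) * w0f c x := by
  by_cases h : x ∈ Icc (1 / 32 : ℝ) (3 / 4)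
  · have hx : 0 < x := by have := h.1; linarith
    have hx1 : 0 < 1 - x := by have := h.2; linarith
    have e : 1 + x * (1 - x) * w0f c x = (1 - lam x) + lam x * ((1 - x) / c) := by
      unfold w0f
      field_simp
      ring
    rw [e]
    have h1 := lam_nonneg x
    have h2 := lam_le_one x
    have h3 : 0 < (1 - x) / c := div_pos hx1 hc
    rcases h2.lt_or_eq with h4 | h4
    · have : 0 ≤ lam x * ((1 - x) / c) := mul_nonneg h1 h3.le
      linarith
    · rw [h4]; linarith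
  · rw [w0f_supp c h]; norm_num

/-! ### the recursion -/

/-- the truncated formal solution. -/
def Wf (w0 : ℝ → ℝ) : ℕ → ℝ → ℝ → ℝ
  | 0 => fun _ x => w0 x
  | M + 1 => fun t x => Wf w0 M t x +
      t ^ (M + 1) * (-((dt^[M] (resid (Wf w0 M))) 0 x) / (M + 1).factorial)

/-- positivity near `t = 0`. -/
lemma pos_near {w : ℝ → ℝ → ℝ} (hw : SmU univ w)
    (hsupp : ∀ t x, x ∉ Icc (1 / 32 : ℝ) (3 / 4) → w t x = 0) (hP : ∀ x, 0 < Pw w 0 x) :
    ∃ s0 > 0, ∃ c1 > 0, ∀ t ∈ Ioo (-s0) s0, ∀ x, c1 ≤ Pw w t x := by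
  have hcont : Continuous fun p : ℝ × ℝ => Pw w p.1 p.2 := by
    have := (SmU.Pw hw).continuousOn
    rwa [← continuousOn_univ]
  have hK : IsCompact (Icc (1 / 32 : ℝ) (3 / 4)) := isCompact_Icc
  have hne : (Icc (1 / 32 : ℝ) (3 / 4)).Nonempty := ⟨1 / 32, by norm_num⟩
  have hc0 : Continuous fun x : ℝ => Pw w 0 x := hcont.comp (by fun_prop : Continuous fun x : ℝ => ((0 : ℝ), x))
  obtain ⟨x0, hx0, hmin⟩ := hK.exists_isMinOn hne hc0.continuousOn
  set c0 := Pw w 0 x0 with hc0'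
  have hc0pos : 0 < c0 := hP x0
  have hopen : IsOpen {p : ℝ × ℝ | c0 / 2 < Pw w p.1 p.2} := isOpen_lt continuous_const hcont
  have hsub : ({(0 : ℝ)} : Set ℝ) ×ˢ Icc (1 / 32 : ℝ) (3 / 4) ⊆ {p : ℝ × ℝ | c0 / 2 < Pw w p.1 p.2} := by
    rintro ⟨t, x⟩ ⟨ht, hx⟩
    simp only [mem_singleton_iff] at ht
    subst ht
    have : c0 ≤ Pw w 0 x := hmin hx
    simp only [mem_setOf_eq]; linarith
  obtain ⟨u, v, hu, _, h0u, hKv, huv⟩ := generalized_tube_lemma isCompact_singleton hK hopen hsub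
  obtain ⟨s0, hs0, hball⟩ := Metric.isOpen_iff.1 hu 0 (h0u rfl)
  refine ⟨s0, hs0, min (c0 / 2) 1, lt_min (by linarith) one_pos, fun t ht x => ?_⟩
  by_cases hx : x ∈ Icc (1 / 32 : ℝ) (3 / 4)
  · have htu : t ∈ u := hball (by rw [Metric.mem_ball, Real.dist_eq, sub_zero, abs_lt]; exact ht)
    have := huv (mk_mem_prod htu (hKv hx))
    simp only [mem_setOf_eq] at this
    exact (min_le_left _ _).trans this.le
  · have : Pw w t x = 1 := by simp only [Pw]; rw [hsupp t x hx]; ring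
    rw [this]; exact min_le_right _ _

/-- invariant of the recursion. -/
structure Inv (w : ℝ → ℝ → ℝ) (M : ℕ) : Prop where
  sm : SmU univ w
  supp : ∀ t x, x ∉ Icc (1 / 32 : ℝ) (3 / 4) → w t x = 0
  pos0 : ∀ x, 0 < Pw w 0 x
  van : ∀ j < M, ∀ x, (dt^[j] (resid w)) 0 x = 0

lemma isOpen_V : IsOpen ((Icc (1 / 32 : ℝ) (3 / 4))ᶜ) := isClosed_Icc.isOpen_compl

lemma Inv.resid_zero {w : ℝ → ℝ → ℝ} (hs : ∀ t x, x ∉ Icc (1 / 32 : ℝ) (3 / 4) → w t x = 0)
    (j : ℕ) {t x : ℝ} (hx : x ∉ Icc (1 / 32 : ℝ) (3 / 4)) : (dt^[j] (resid w)) t x = 0 := by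
  refine iter_dt_zero isOpen_V isOpen_univ (J := univ) ?_ j (t, x) ⟨mem_univ _, hx⟩
  exact resid_zero_of_zero (isOpen_univ.prod isOpen_V) fun p hp => hs _ _ hp.2

/-- the residual of the invariant functions is `O(t^M)`. -/
lemma Inv.ord {w : ℝ → ℝ → ℝ} {M : ℕ} (h : Inv w M) {s0 c1 s a b : ℝ} (hs0 : 0 < s0)
    (hc1 : 0 < c1) (hpos : ∀ t ∈ Ioo (-s0) s0, ∀ x, c1 ≤ Pw w t x) (hs : s < s0) :
    Ord s (Ioo a b) M (resid w) := by
  have hR : SmU (Slab s0) (resid w) :=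
    (h.sm.mono (subset_univ _)).resid (isOpen_slab s0)
      fun p hp => (hc1.trans_le (hpos p.1 hp.1 p.2)).ne'
  refine (ord_Rem (a := a) (b := b) hs0 hs M hR).congr isOpen_Ioo ?_
  rintro ⟨t, x⟩ _
  simp only [Rem]
  rw [Finset.sum_eq_zero, sub_zero]
  intro j hj
  rw [h.van j (Finset.mem_range.1 hj) x]; simp

lemma Inv.step {w : ℝ → ℝ → ℝ} {M : ℕ} (h : Inv w M) :
    Inv (fun t x => w t x + t ^ (M + 1) *
      (-((dt^[M] (resid w)) 0 x) / (M + 1).factorial)) (M + 1) := by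
  obtain ⟨s0, hs0, c1, hc1, hpos⟩ := pos_near h.sm h.supp h.pos0
  have hU := isOpen_slab s0
  have hR : SmU (Slab s0) (resid w) :=
    (h.sm.mono (subset_univ _)).resid hU fun p hp => (hc1.trans_le (hpos p.1 hp.1 p.2)).ne'
  set A : ℝ → ℝ := fun x => -((dt^[M] (resid w)) 0 x) / (M + 1).factorial with hA
  have hAs : ContDiff ℝ (⊤ : ℕ∞) A := ((coeff_smooth hs0 hR M).neg).div_const _
  have hA0 : ∀ x, x ∉ Icc (1 / 32 : ℝ) (3 / 4) → A x = 0 := by
    intro x hx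
    simp only [hA]
    rw [Inv.resid_zero h.supp M hx]; simp
  set w' : ℝ → ℝ → ℝ := fun t x => w t x + t ^ (M + 1) * A x with hw'
  have sm' : SmU univ w' := h.sm.add ((smU_tpow _).mul (smU_of_x hAs))
  have supp' : ∀ t x, x ∉ Icc (1 / 32 : ℝ) (3 / 4) → w' t x = 0 := by
    intro t x hx
    simp only [hw']; rw [h.supp t x hx, hA0 x hx]; simp
  have pos0' : ∀ x, 0 < Pw w' 0 x := by
    intro x
    have : Pw w' 0 x = Pw w 0 x := by simp [Pw, hw']
    rw [this]; exact h.pos0 x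
  refine ⟨sm', supp', pos0', ?_⟩
  obtain ⟨s0', hs0', c1', hc1', hpos'⟩ := pos_near sm' supp' pos0'
  have hR' : SmU (Slab s0') (resid w') :=
    (sm'.mono (subset_univ _)).resid (isOpen_slab s0')
      fun p hp => (hc1'.trans_le (hpos' p.1 hp.1 p.2)).ne'
  intro j hj x
  by_cases hx : x ∈ Icc (1 / 32 : ℝ) (3 / 4)
  swap
  · exact Inv.resid_zero supp' j hx
  -- main part
  set s := min s0 s0' / 2 with hs
  have hm : 0 < min s0 s0' := lt_min hs0 hs0'
  have hspos : 0 < s := by rw [hs]; linarith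
  have hss0 : s < s0 := by have := min_le_left s0 s0'; rw [hs]; linarith
  have hss0' : s < s0' := by have := min_le_right s0 s0'; rw [hs]; linarith
  have hI : IsOpen (Ioo (-1 : ℝ) 2) := isOpen_Ioo
  have hIb : Ioo (-1 : ℝ) 2 ⊆ Icc (-1) 2 := Ioo_subset_Icc_self
  have ow : Ord s (Ioo (-1 : ℝ) 2) 0 w := ord0_of_smU hs0 hss0 (h.sm.mono (subset_univ _))
  have ow' : Ord s (Ioo (-1 : ℝ) 2) 0 w' := ord0_of_smU hs0' hss0' (sm'.mono (subset_univ _))
  set c := min c1 c1' with hc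
  have hcpos : 0 < c := lt_min hc1 hc1'
  have hPw : ∀ t ∈ Ioo 0 s, ∀ x ∈ Ioo (-1 : ℝ) 2, c ≤ Pw w t x := fun t ht x _ =>
    (min_le_left _ _).trans (hpos t ⟨by linarith [ht.1], ht.2.trans hss0⟩ x)
  have hPw' : ∀ t ∈ Ioo 0 s, ∀ x ∈ Ioo (-1 : ℝ) 2, c ≤ Pw w' t x := fun t ht x _ =>
    (min_le_right _ _).trans (hpos' t ⟨by linarith [ht.1], ht.2.trans hss0'⟩ x)
  have odiff : Ord s (Ioo (-1 : ℝ) 2) (M + 1) (fun t x => w' t x - w t x) := by
    have h1 : Ord s (Ioo (-1 : ℝ) 2) (M + 1) (fun t x => t ^ (M + 1) * A x) := by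
      have := (ord_tpow (s := s) hI (M + 1)).mul hI (ord_of_x' (s := s) (a := -1) (b := 2) hAs)
      simpa using this
    refine h1.congr hI ?_
    rintro ⟨t, x⟩ _; simp [hw']
  have oD := ord_dXdXSop_sub hI hIb ow' ow hcpos hPw' hPw odiff
  have oRem := ord_Rem (a := -1) (b := 2) hs0 hss0 (M + 1) hR
  have oR' : Ord s (Ioo (-1 : ℝ) 2) (M + 1) (resid w') := by
    refine (oRem.sub hI oD).congr hI ?_
    rintro ⟨t, x⟩ hp
    have hdom := isOpen_dom (s := s) hI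
    have e1 : Rem (M + 1) (resid w) t x = resid w t x + (M + 1) * t ^ M * A x := by
      simp only [Rem]
      rw [Finset.sum_range_succ, Finset.sum_eq_zero]
      · simp only [hA]
        rw [Nat.factorial_succ]
        have h1 : ((M.factorial : ℕ) : ℝ) ≠ 0 := by exact_mod_cast M.factorial_ne_zero
        have h2 : ((M : ℝ) + 1) ≠ 0 := by positivity
        push_cast
        field_simp
        ring
      · intro j hj
        rw [h.van j (Finset.mem_range.1 hj) x]; simp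
    have e2 : dt w' t x = dt w t x + (M + 1) * t ^ M * A x := by
      have h1 : HasDerivAt (fun r => w r x) (dt w t x) t :=
        h.sm.hdt isOpen_univ (mem_univ _)
      have h2 : HasDerivAt (fun r : ℝ => r ^ (M + 1) * A x) (((M + 1 : ℕ) : ℝ) * t ^ M * A x) t := by
        have := (hasDerivAt_pow (M + 1) t).mul_const (A x)
        simpa using this
      have h3 := (h1.add h2).deriv
      have h4 : dt w' t x = dt w t x + ((M + 1 : ℕ) : ℝ) * t ^ M * A x := h3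
      rw [h4]; push_cast; ring
    simp only
    rw [e1]
    simp only [resid]
    rw [e2]; ring
  obtain ⟨C, _, hC⟩ := (oR'.bd 0)
  have hxI : x ∈ Ioo (-1 : ℝ) 2 := ⟨by linarith [hx.1], by linarith [hx.2]⟩
  exact vanish_of_bd hs0' hspos hR' (fun t ht => hC t ht x hxI) j hj

lemma Wf_inv {w0 : ℝ → ℝ} (h0 : Inv (fun _ x => w0 x) 0) : ∀ M : ℕ, Inv (Wf w0 M) M
  | 0 => h0
  | M + 1 => (Wf_inv h0 M).step

lemma Wf_zero_time (w0 : ℝ → ℝ) : ∀ (M : ℕ) (x : ℝ), Wf w0 M 0 x = w0 x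
  | 0, _ => rfl
  | M + 1, x => by
    simp only [Wf]; rw [Wf_zero_time w0 M x]; simp

/-- coefficients. -/
def af (w0 : ℝ → ℝ) : ℕ → ℝ → ℝ
  | 0 => w0
  | j + 1 => fun x => -((dt^[j] (resid (Wf w0 j))) 0 x) / (j + 1).factorial

/-- `w^(M) = Σ_{j ≤ M} t^j a_j` -/
def wM (a : ℕ → ℝ → ℝ) (M : ℕ) : ℝ → ℝ → ℝ := fun t x => ∑ j ∈ Finset.range (M + 1), t ^ j * a j x

lemma wM_eq (w0 : ℝ → ℝ) : ∀ M : ℕ, wM (af w0) M = Wf w0 M
  | 0 => by funext t x; simp [wM, af, Wf]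
  | M + 1 => by
    funext t x
    have h1 := congrFun (congrFun (wM_eq w0 M) t) x
    simp only [wM] at h1
    simp only [wM, Wf]
    rw [Finset.sum_range_succ, h1]
    rfl

lemma wM_sm {a : ℕ → ℝ → ℝ} (ha : ∀ j, ContDiff ℝ (⊤ : ℕ∞) (a j)) (M : ℕ) :
    SmU univ (wM a M) := by
  unfold SmU wM
  exact ContDiffOn.sum fun j _ => (smU_tpow j).mul (smU_of_x (ha j))

lemma wM_zero {a : ℕ → ℝ → ℝ} (M : ℕ) {x : ℝ} (hx : ∀ j, a j x = 0) (t : ℝ) : wM a M t x = 0 := by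
  simp only [wM]
  exact Finset.sum_eq_zero fun j _ => by rw [hx j, mul_zero]

/-- **the formal outer solution.** -/
theorem formal {c : ℝ} (hc : 0 < c) : ∃ a : ℕ → ℝ → ℝ, (∀ j, ContDiff ℝ (⊤ : ℕ∞) (a j)) ∧
    (∀ j x, x ∉ Icc (1 / 32 : ℝ) (3 / 4) → a j x = 0) ∧
    (∀ x ∈ Icc (1 / 16 : ℝ) (1 / 2), a 0 x = 1 / (c * x) - 1 / x - 1 / (1 - x)) ∧
    (∀ x, 0 < 1 + x * (1 - x) * a 0 x) ∧
    ∀ M : ℕ, ∃ s > 0, ∃ c1 > 0, (∀ t ∈ Ioo (-s) s, ∀ x, c1 ≤ Pw (wM a M) t x) ∧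
      Ord s (Ioo (-1) 2) M (resid (wM a M)) := by
  have h0 : Inv (fun _ x => w0f c x) 0 := by
    refine ⟨smU_of_x (w0f_smooth hc), fun _ x hx => w0f_supp c hx, fun x => ?_,
      fun j hj => absurd hj (Nat.not_lt_zero j)⟩
    exact w0f_pos hc x
  refine ⟨af (w0f c), ?_, ?_, fun x hx => w0f_eq c hx, fun x => w0f_pos hc x, ?_⟩
  · intro j
    rcases j with _ | j
    · exact w0f_smooth hc
    · have hI := Wf_inv h0 j
      obtain ⟨s0, hs0, c1, hc1, hpos⟩ := pos_near hI.sm hI.supp hI.pos0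
      have hR : SmU (Slab s0) (resid (Wf (w0f c) j)) :=
        (hI.sm.mono (subset_univ _)).resid (isOpen_slab s0)
          fun p hp => (hc1.trans_le (hpos p.1 hp.1 p.2)).ne'
      exact ((coeff_smooth hs0 hR j).neg).div_const _
  · intro j x hx
    rcases j with _ | j
    · exact w0f_supp c hx
    · have hI := Wf_inv h0 j
      simp only [af]
      rw [Inv.resid_zero hI.supp j hx]; simp
  · intro M
    have hI := Wf_inv h0 M
    obtain ⟨s0, hs0, c1, hc1, hpos⟩ := pos_near hI.sm hI.supp hI.pos0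
    rw [wM_eq]
    refine ⟨s0 / 2, by linarith, c1, hc1, fun t ht x => hpos t ⟨by linarith [ht.1], by
      linarith [ht.2]⟩ x, hI.ord hs0 hc1 hpos (by linarith)⟩

end Crest.Agent.R213.D
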