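import Crest.Agent.R213.D.DDefs
import Crest.Agent.R213.D.Oper
import Crest.Agent.R213.J0bK

/-!
# Row 213, D3a: generic facts about `SmIK`, `dxK`, `ds`, `Sc`, `Res` (helper35)
-/

set_option autoImplicit false
set_option linter.unusedVariables false

open Set MeasureTheory Filter Topology
open scoped ContDiff

noncomputable section

namespace Crest.Agent.R213.D

variable {I K : Set ℝ} {u v : ℝ → ℝ → ℝ}

/-! ### slices -/

lemma SmIK.hasFDeriv (hu : SmIK I K u) {s x : ℝ} (hs : s ∈ I) (hx : x ∈ K) :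
    HasFDerivWithinAt (fun p : ℝ × ℝ => u p.1 p.2)
      (fderivWithin ℝ (fun p : ℝ × ℝ => u p.1 p.2) (I ×ˢ K) (s, x)) (I ×ˢ K) (s, x) :=
  ((ContDiffOn.differentiableOn hu (by simp)) (s, x) ⟨hs, hx⟩).hasFDerivWithinAt

lemma slice_x {G : ℝ × ℝ → ℝ} {G' : ℝ × ℝ →L[ℝ] ℝ} {s x : ℝ} (hs : s ∈ I)
    (h : HasFDerivWithinAt G G' (I ×ˢ K) (s, x)) :
    HasDerivWithinAt (fun y => G (s, y)) (G' (0, 1)) K x := by
  have hm : MapsTo (fun y : ℝ => (s, y)) K (I ×ˢ K) := fun y hy => ⟨hs, hy⟩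
  exact J0b.hasDerivWithinAt_slice (γ := fun y => (s, y)) (v := (0, 1))
    ((hasDerivWithinAt_const x _ s).prodMk (hasDerivWithinAt_id x _)) rfl hm h

lemma slice_s {G : ℝ × ℝ → ℝ} {G' : ℝ × ℝ →L[ℝ] ℝ} {s x : ℝ} (hx : x ∈ K)
    (h : HasFDerivWithinAt G G' (I ×ˢ K) (s, x)) :
    HasDerivWithinAt (fun r => G (r, x)) (G' (1, 0)) I s := by
  have hm : MapsTo (fun r : ℝ => (r, x)) I (I ×ˢ K) := fun y hy => ⟨hy, hx⟩
  exact J0b.hasDerivWithinAt_slice (γ := fun r => (r, x)) (v := (1, 0))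
    ((hasDerivWithinAt_id s _).prodMk (hasDerivWithinAt_const s _ x)) rfl hm h

/-- `x`-derivative -/
lemma SmIK.hasDx (hK : UniqueDiffOn ℝ K) (hu : SmIK I K u) {s x : ℝ} (hs : s ∈ I)
    (hx : x ∈ K) : HasDerivWithinAt (fun y => u s y) (dxK K u s x) K x := by
  have h := slice_x hs (hu.hasFDeriv hs hx)
  have e : dxK K u s x = _ := h.derivWithin (hK x hx)
  rw [e]; exact h

/-- `s`-derivative within `I` -/
lemma SmIK.hasDsI (hI : UniqueDiffOn ℝ I) (hu : SmIK I K u) {s x : ℝ} (hs : s ∈ I)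
    (hx : x ∈ K) :
    HasDerivWithinAt (fun r => u r x) (derivWithin (fun r => u r x) I s) I s := by
  have h := slice_s hx (hu.hasFDeriv hs hx)
  rw [h.derivWithin (hI s hs)]; exact h

lemma Ico_mem_Ici {s1 s : ℝ} (hs : s ∈ Ico 0 s1) : Ico 0 s1 ∈ 𝓝[Ici 0] s := by
  filter_upwards [self_mem_nhdsWithin, mem_nhdsWithin_of_mem_nhds (Iio_mem_nhds hs.2)] with r h1 h2
  exact ⟨h1, h2⟩

/-- `s`-derivative on `[0,s1)` -/
lemma SmIK.hasDs {s1 : ℝ} (hu : SmIK (Ico 0 s1) K u) {s x : ℝ} (hs : s ∈ Ico 0 s1)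
    (hx : x ∈ K) : HasDerivWithinAt (fun r => u r x) (D.ds u s x) (Ici 0) s := by
  have h := (slice_s hx (hu.hasFDeriv hs hx)).mono_of_mem_nhdsWithin (Ico_mem_Ici hs)
  have e : D.ds u s x = _ := h.derivWithin (uniqueDiffOn_Ici 0 s hs.1)
  rw [e]; exact h

/-! ### smoothness of derivatives -/

theorem SmIK.dxK' (hI' : UniqueDiffOn ℝ I) (hK : UniqueDiffOn ℝ K) (hu : SmIK I K u) :
    SmIK I K (D.dxK K u) := by
  have h1 : ContDiffOn ℝ ∞ (fun p => fderivWithin ℝ (fun p : ℝ × ℝ => u p.1 p.2)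
      (I ×ˢ K) p (0, 1)) (I ×ˢ K) :=
    (ContDiffOn.fderivWithin hu (m := ∞) (hI'.prod hK) (by simp)).clm_apply contDiffOn_const
  refine ContDiffOn.congr h1 ?_
  rintro ⟨s, x⟩ ⟨hs, hx⟩
  exact (slice_x hs (hu.hasFDeriv hs hx)).derivWithin (hK x hx)

theorem SmIK.dxK {I : Set ℝ} {a b : ℝ} (hI : Convex ℝ I) (hI' : UniqueDiffOn ℝ I) (hab : a < b)
    {u : ℝ → ℝ → ℝ} (hu : SmIK I (Icc a b) u) : SmIK I (Icc a b) (dxK (Icc a b) u) :=
  hu.dxK' hI' (uniqueDiffOn_Icc hab)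

theorem SmIK.ds' {s1 : ℝ} (hs1 : 0 < s1) (hK : UniqueDiffOn ℝ K)
    {u : ℝ → ℝ → ℝ} (hu : SmIK (Ico 0 s1) K u) : SmIK (Ico 0 s1) K (D.ds u) := by
  have hI : UniqueDiffOn ℝ (Ico 0 s1) := uniqueDiffOn_Ico 0 s1
  have h1 : ContDiffOn ℝ ∞ (fun p => fderivWithin ℝ (fun p : ℝ × ℝ => u p.1 p.2)
      (Ico 0 s1 ×ˢ K) p (1, 0)) (Ico 0 s1 ×ˢ K) :=
    (ContDiffOn.fderivWithin hu (m := ∞) (hI.prod hK) (by simp)).clm_apply contDiffOn_const
  refine ContDiffOn.congr h1 ?_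
  rintro ⟨s, x⟩ ⟨hs, hx⟩
  exact ((slice_s hx (hu.hasFDeriv hs hx)).mono_of_mem_nhdsWithin (Ico_mem_Ici hs)).derivWithin
    (uniqueDiffOn_Ici 0 s hs.1)

theorem SmIK.ds {s1 a b : ℝ} (hs1 : 0 < s1) (hab : a < b)
    {u : ℝ → ℝ → ℝ} (hu : SmIK (Ico 0 s1) (Icc a b) u) : SmIK (Ico 0 s1) (Icc a b) (ds u) :=
  hu.ds' hs1 (uniqueDiffOn_Icc hab)

/-! ### algebra of `SmIK` -/

lemma SmIK.mono {I' K' : Set ℝ} (hu : SmIK I K u) (hI : I' ⊆ I) (hK : K' ⊆ K) : SmIK I' K' u :=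
  ContDiffOn.mono hu (prod_mono hI hK)
lemma SmIK.congr (hu : SmIK I K u) (h : ∀ s ∈ I, ∀ x ∈ K, v s x = u s x) : SmIK I K v :=
  ContDiffOn.congr hu (fun p hp => h p.1 hp.1 p.2 hp.2)
lemma SmIK.add (hu : SmIK I K u) (hv : SmIK I K v) : SmIK I K (fun s x => u s x + v s x) :=
  ContDiffOn.add hu hv
lemma SmIK.sub (hu : SmIK I K u) (hv : SmIK I K v) : SmIK I K (fun s x => u s x - v s x) :=
  ContDiffOn.sub hu hv
lemma SmIK.mul (hu : SmIK I K u) (hv : SmIK I K v) : SmIK I K (fun s x => u s x * v s x) :=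
  ContDiffOn.mul hu hv
lemma SmIK.div (hu : SmIK I K u) (hv : SmIK I K v) (h : ∀ s ∈ I, ∀ x ∈ K, v s x ≠ 0) :
    SmIK I K (fun s x => u s x / v s x) :=
  ContDiffOn.div hu hv (fun p hp => h p.1 hp.1 p.2 hp.2)
lemma SmIK.const (c : ℝ) : SmIK I K (fun _ _ => c) := contDiffOn_const
lemma SmIK.const_mul (c : ℝ) (hu : SmIK I K u) : SmIK I K (fun s x => c * u s x) :=
  (SmIK.const c).mul hu
lemma SmIK.of_contDiff (hu : ContDiff ℝ ∞ (fun p : ℝ × ℝ => u p.1 p.2)) : SmIK I K u :=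
  hu.contDiffOn

lemma SmIK.smPP {w : ℝ → ℝ → ℝ} (hw : SmIK I K w) : SmIK I K (D.PP w) :=
  (SmIK.const 1).add (SmIK.mul (u := fun _ x => x * (1 - x)) (SmIK.of_contDiff (by fun_prop)) hw)

lemma SmIK.smPsi {w : ℝ → ℝ → ℝ} (hw : SmIK I K w) (hP : ∀ s ∈ I, ∀ x ∈ K, 0 < D.PP w s x) :
    SmIK I K (D.psi w) :=
  SmIK.div (u := fun _ x => 1 - x) (SmIK.of_contDiff (by fun_prop)) hw.smPP
    (fun s hs x hx => (hP s hs x hx).ne')

theorem SmIK.Sc' (hI' : UniqueDiffOn ℝ I) (hK : UniqueDiffOn ℝ K)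
    {w : ℝ → ℝ → ℝ} (hw : SmIK I K w) (hP : ∀ s ∈ I, ∀ x ∈ K, 0 < D.PP w s x) :
    SmIK I K (D.Sc K w) := by
  have h1 := (hw.smPsi hP).dxK' hI' hK
  have h2 := h1.dxK' hI' hK
  have h3 : SmIK I K (fun s x => (1 + (1 - x) * w s x) / D.PP w s x) :=
    SmIK.div ((SmIK.const 1).add (SmIK.mul (u := fun _ x => 1 - x)
      (SmIK.of_contDiff (by fun_prop)) hw)) hw.smPP (fun s hs x hx => (hP s hs x hx).ne')
  exact ((h3.const_mul 90).sub (h1.const_mul 20)).sub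
    (SmIK.mul (u := fun _ x => x) (SmIK.of_contDiff (by fun_prop)) h2)

theorem SmIK.Sc {I : Set ℝ} {a b : ℝ} (hI : Convex ℝ I) (hI' : UniqueDiffOn ℝ I) (hab : a < b)
    {w : ℝ → ℝ → ℝ} (hw : SmIK I (Icc a b) w) (hP : ∀ s ∈ I, ∀ x ∈ Icc a b, 0 < PP w s x) :
    SmIK I (Icc a b) (Sc (Icc a b) w) := hw.Sc' hI' (uniqueDiffOn_Icc hab) hP

/-! ### the integrated form of the curvature -/

theorem Kint_Sc {t : Set ℝ} (ht : IsOpen t) {w : ℝ → ℝ → ℝ} (hw : Sm t 1 w)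
    (hP : ∀ s ∈ t, ∀ x ∈ Icc (0 : ℝ) 1, 0 < PP w s x) :
    ∀ s ∈ t, ∀ x ∈ Icc (0 : ℝ) 1,
      x ^ 10 - x ^ 9 * (x * (1 - x) / PP w s x) = Kint (Sc (Icc 0 1) w s) x := by
  intro s hs
  have hU : UniqueDiffOn ℝ (Icc (0:ℝ) 1) := uniqueDiffOn_Icc one_pos
  have hw' : SmIK t (Icc 0 1) w := hw
  have hψ := hw'.smPsi hP
  have hψ' := hψ.dxK' ht.uniqueDiffOn hU
  have hSc := hw'.Sc' ht.uniqueDiffOn hU hP
  have hScc : ContinuousOn (Sc (Icc 0 1) w s) (Icc 0 1) :=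
    J0b.continuousOn_slice (s := t) (L := 1) hSc hs
  have key := eq_Kint_of_deriv (L := 1) one_pos hScc
    (P := fun x => x ^ 10 * (1 - psi w s x))
    (P' := fun x => 10 * x ^ 9 * (1 - psi w s x) - x ^ 10 * dxK (Icc 0 1) (psi w) s x)
    (by simp) (by simp) ?_ ?_
  · intro x hx
    rw [← key x hx]
    simp only [psi]
    ring
  · intro x hx
    have h1 := hψ.hasDx hU hs hx
    have h2 : HasDerivWithinAt (fun x : ℝ => x ^ 10) (10 * x ^ 9) (Icc 0 1) x := by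
      simpa using (hasDerivAt_pow 10 x).hasDerivWithinAt
    have h3 := h2.mul (h1.const_sub 1)
    refine h3.congr_deriv ?_
    ring
  · intro x hx
    have h1 := hψ.hasDx hU hs hx
    have h1' := hψ'.hasDx hU hs hx
    have h2 : HasDerivWithinAt (fun x : ℝ => x ^ 10) (10 * x ^ 9) (Icc 0 1) x := by
      simpa using (hasDerivAt_pow 10 x).hasDerivWithinAt
    have h4 : HasDerivWithinAt (fun x : ℝ => 10 * x ^ 9) (10 * (9 * x ^ 8)) (Icc 0 1) x := by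
      simpa using ((hasDerivAt_pow 9 x).const_mul 10).hasDerivWithinAt
    have h3 := (h4.mul (h1.const_sub 1)).sub (h2.mul h1')
    refine h3.congr_deriv ?_
    have hp := (hP s hs x hx).ne'
    have e : 1 - psi w s x = x * ((1 + (1 - x) * w s x) / PP w s x) := by
      simp only [psi]
      field_simp
      simp only [PP]
      ring
    rw [e]
    simp only [Sc]
    ring

/-! ### locality -/

lemma dxK_local {K K' U : Set ℝ} (hU : IsOpen U) (hK : K ∩ U = K' ∩ U) {u u' : ℝ → ℝ → ℝ}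
    {s : ℝ} (h : ∀ y ∈ K ∩ U, u s y = u' s y) : ∀ x ∈ K ∩ U, dxK K u s x = dxK K' u' s x := by
  intro x hx
  have e1 : dxK K u s x = derivWithin (fun y => u s y) (K ∩ U) x :=
    (derivWithin_inter (hU.mem_nhds hx.2)).symm
  have e2 : dxK K' u' s x = derivWithin (fun y => u' s y) (K' ∩ U) x :=
    (derivWithin_inter (hU.mem_nhds hx.2)).symm
  rw [e1, e2, ← hK]
  exact derivWithin_congr h (h x hx)

theorem Sc_local {K K' U : Set ℝ} (hU : IsOpen U) (hK : K ∩ U = K' ∩ U) {w w' : ℝ → ℝ → ℝ}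
    {s : ℝ} (h : ∀ y ∈ K ∩ U, w s y = w' s y) : ∀ x ∈ K ∩ U, Sc K w s x = Sc K' w' s x := by
  have hψ : ∀ y ∈ K ∩ U, psi w s y = psi w' s y := fun y hy => by
    simp only [psi, PP, h y hy]
  have h1 := dxK_local hU hK hψ
  have h2 := dxK_local hU hK h1
  intro x hx
  simp only [Sc, h1 x hx, h2 x hx, PP, h x hx]

theorem Res_local {K K' U : Set ℝ} (hU : IsOpen U) (hK : K ∩ U = K' ∩ U) {w w' : ℝ → ℝ → ℝ}
    {s1 s : ℝ} (hs : s ∈ Ico 0 s1) (h : ∀ r ∈ Ico 0 s1, ∀ y ∈ K ∩ U, w r y = w' r y) :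
    ∀ x ∈ K ∩ U, Res K w s x = Res K' w' s x := by
  intro x hx
  have h1 := dxK_local hU hK (dxK_local hU hK (Sc_local hU hK (h s hs)))
  have h2 : ds w s x = ds w' s x := by
    refine Filter.EventuallyEq.derivWithin_eq_of_mem ?_ hs.1
    filter_upwards [Ico_mem_Ici hs] with r hr
    exact h r hr x hx
  simp only [Res, h1 x hx, h2]

/-- the same for `s > 0` with equality only for `r > 0`. -/
theorem Res_local' {K K' U : Set ℝ} (hU : IsOpen U) (hK : K ∩ U = K' ∩ U) {w w' : ℝ → ℝ → ℝ}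
    {s1 s : ℝ} (hs : s ∈ Ioo 0 s1) (h : ∀ r ∈ Ioo 0 s1, ∀ y ∈ K ∩ U, w r y = w' r y) :
    ∀ x ∈ K ∩ U, Res K w s x = Res K' w' s x := by
  intro x hx
  have h1 := dxK_local hU hK (dxK_local hU hK (Sc_local hU hK (h s hs)))
  have h2 : ds w s x = ds w' s x := by
    refine Filter.EventuallyEq.derivWithin_eq_of_mem ?_ hs.1.le
    filter_upwards [mem_nhdsWithin_of_mem_nhds (Ioo_mem_nhds hs.1 hs.2)] with r hr
    exact h r hr x hx
  simp only [Res, h1 x hx, h2]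

/-! ### version 2: two-sided operators on open sets -/

theorem SmU.sm {U : Set (ℝ × ℝ)} {s1 L : ℝ} {u : ℝ → ℝ → ℝ} (hu : SmU U u)
    (hs : ∀ s ∈ Ioo 0 s1, ∀ x ∈ Icc 0 L, (s, x) ∈ U) : Sm (Ioo 0 s1) L u :=
  ContDiffOn.mono hu (fun p hp => hs p.1 hp.1 p.2 hp.2)

theorem SmU.dx_eq {U : Set (ℝ × ℝ)} (hU : IsOpen U) {L : ℝ} (hL : 0 < L) {u : ℝ → ℝ → ℝ}
    (hu : SmU U u) {s x : ℝ} (hx : x ∈ Icc 0 L) (hp : (s, x) ∈ U) : dx L u s x = D.dX u s x :=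
  (hu.hdX hU hp).hasDerivWithinAt.derivWithin (uniqueDiffOn_Icc hL x hx)

theorem SmU.dx_dx_eq {U : Set (ℝ × ℝ)} (hU : IsOpen U) {L : ℝ} (hL : 0 < L) {u : ℝ → ℝ → ℝ}
    (hu : SmU U u) {s : ℝ} (hs : ∀ x ∈ Icc 0 L, (s, x) ∈ U) {x : ℝ} (hx : x ∈ Icc 0 L) :
    dx L (dx L u) s x = D.dX (D.dX u) s x := by
  have h1 : dx L (dx L u) s x = dx L (D.dX u) s x :=
    derivWithin_congr (fun y hy => SmU.dx_eq hU hL hu hy (hs y hy))
      (SmU.dx_eq hU hL hu hx (hs x hx))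
  rw [h1]
  exact SmU.dx_eq hU hL (hu.dX hU) hx (hs x hx)

theorem Kint_Sop {U : Set (ℝ × ℝ)} (hU : IsOpen U) {w : ℝ → ℝ → ℝ} (hw : SmU U w)
    (hP : ∀ p ∈ U, 0 < Pw w p.1 p.2) {s : ℝ} (hs : ∀ x ∈ Icc (0 : ℝ) 1, (s, x) ∈ U) :
    ∀ x ∈ Icc (0 : ℝ) 1,
      x ^ 10 - x ^ 9 * (x * (1 - x) / Pw w s x) = Kint (Sop w s) x := by
  have hP' : ∀ p ∈ U, Pw w p.1 p.2 ≠ 0 := fun p hp => (hP p hp).ne'
  have hψ := hw.psw hP'
  have hψ' := hψ.dX hU
  have hSc := hw.Sop hU hP'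
  have hScc : ContinuousOn (Sop w s) (Icc 0 1) := by
    have h1 : ContinuousOn (fun p : ℝ × ℝ => Sop w p.1 p.2) U := ContDiffOn.continuousOn hSc
    exact h1.comp (f := fun x => (s, x)) (by fun_prop) (fun x hx => hs x hx)
  have key := eq_Kint_of_deriv (L := 1) one_pos hScc
    (P := fun x => x ^ 10 * (1 - psw w s x))
    (P' := fun x => 10 * x ^ 9 * (1 - psw w s x) - x ^ 10 * dX (psw w) s x)
    (by simp) (by simp) ?_ ?_
  · intro x hx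
    rw [← key x hx]
    simp only [psw]
    ring
  · intro x hx
    have h1 := (hψ.hdX hU (hs x hx)).hasDerivWithinAt (s := Icc 0 1)
    have h2 : HasDerivWithinAt (fun x : ℝ => x ^ 10) (10 * x ^ 9) (Icc 0 1) x := by
      simpa using (hasDerivAt_pow 10 x).hasDerivWithinAt
    have h3 := h2.mul (h1.const_sub 1)
    refine h3.congr_deriv ?_
    ring
  · intro x hx
    have h1 := (hψ.hdX hU (hs x hx)).hasDerivWithinAt (s := Icc 0 1)
    have h1' := (hψ'.hdX hU (hs x hx)).hasDerivWithinAt (s := Icc 0 1)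
    have h2 : HasDerivWithinAt (fun x : ℝ => x ^ 10) (10 * x ^ 9) (Icc 0 1) x := by
      simpa using (hasDerivAt_pow 10 x).hasDerivWithinAt
    have h4 : HasDerivWithinAt (fun x : ℝ => 10 * x ^ 9) (10 * (9 * x ^ 8)) (Icc 0 1) x := by
      simpa using ((hasDerivAt_pow 9 x).const_mul 10).hasDerivWithinAt
    have h3 := (h4.mul (h1.const_sub 1)).sub (h2.mul h1')
    refine h3.congr_deriv ?_
    have hp := hP' _ (hs x hx)
    have e : 1 - psw w s x = x * qw w s x := by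
      simp only [psw, qw]
      field_simp
      simp only [Pw]
      ring
    rw [e]
    simp only [Sop]
    ring

end Crest.Agent.R213.D
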