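import Crest.Agent.R213.D.DDefs
import Crest.Agent.R213.D.Oper
import Crest.Agent.R213.J0bGen

/-!
# Row 213, D1: the self-similar inner solution (helper800)
-/

set_option autoImplicit false

open Set MeasureTheory Filter Topology

noncomputable section

namespace Crest.Agent.R213.D

variable {c A : ℝ} {g gh : ℝ → ℝ}

theorem deriv_smooth {f : ℝ → ℝ} (hf : ContDiff ℝ (⊤ : ℕ∞) f) : ContDiff ℝ (⊤ : ℕ∞) (deriv f) :=
  (contDiff_infty_iff_deriv.1 hf).2

theorem smooth_diff {f : ℝ → ℝ} (hf : ContDiff ℝ (⊤ : ℕ∞) f) (y : ℝ) :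
    HasDerivAt f (deriv f y) y :=
  ((contDiff_infty_iff_deriv.1 hf).1 y).hasDerivAt

theorem hq_smooth (hg : Soliton c A g gh) : ContDiff ℝ (⊤ : ℕ∞) (hq g) := by
  have hd : ContDiff ℝ (⊤ : ℕ∞) (deriv g) := deriv_smooth hg.smooth
  have H : ContDiffOn ℝ (⊤ : ℕ∞) (fun p : ℝ × ℝ => deriv g (p.1 * p.2)) (Icc 0 1 ×ˢ univ) :=
    (hd.comp (contDiff_fst.mul contDiff_snd)).contDiffOn
  have := contDiffOn_pint (a := 0) (b := 1) one_pos (convex_univ (𝕜 := ℝ) (E := ℝ))
    uniqueDiffOn_univ H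
  exact (contDiffOn_univ.1 this).neg

theorem hq_mul (hg : Soliton c A g gh) (y : ℝ) : 1 - g y = y * hq g y := by
  unfold hq
  have h1 : y * ∫ r in (0 : ℝ)..1, deriv g (r * y) = ∫ r in (0 * y)..(1 * y), deriv g r := by
    have := intervalIntegral.smul_integral_comp_mul_right (f := deriv g) (a := 0) (b := 1) y
    simpa using this
  have h2 : ∫ r in (0 * y)..(1 * y), deriv g r = g (1 * y) - g (0 * y) := by
    apply intervalIntegral.integral_deriv_eq_sub
    · intro x _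
      exact (contDiff_infty_iff_deriv.1 hg.smooth).1 x
    · exact (deriv_smooth hg.smooth).continuous.intervalIntegrable _ _
  rw [mul_neg, h1, h2, one_mul, zero_mul, hg.g_zero]
  ring

theorem hq_zero (hg : Soliton c A g gh) : hq g 0 = A := by
  unfold hq
  simp [hg.deriv_zero]

theorem Sig_zero (hg : Soliton c A g gh) : Sig g 0 = 110 * A := by
  unfold Sig
  rw [hq_zero hg, hg.deriv_zero]
  ring

theorem gh_pos (hg : Soliton c A g gh) {z : ℝ} (hz : 0 ≤ z) : 0 < gh z := by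
  rcases hz.eq_or_lt with rfl | hz
  · rw [hg.gh_zero]; exact hg.c_pos
  · have h := hg.link (1 / √z) (by positivity)
    have e : 1 / (1 / √z) ^ 2 = z := by
      rw [div_pow, one_pow, one_div_one_div, Real.sq_sqrt hz.le]
    rw [e] at h
    rw [← h]
    exact hg.pos _ (by positivity)

theorem Sig_smooth (hg : Soliton c A g gh) : ContDiff ℝ (⊤ : ℕ∞) (Sig g) := by
  unfold Sig
  have h1 := deriv_smooth hg.smooth
  have h2 := deriv_smooth h1
  exact ((contDiff_const.mul (hq_smooth hg)).sub (contDiff_const.mul h1)).sub (contDiff_id.mul h2)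

theorem hq_deriv (hg : Soliton c A g gh) (y : ℝ) :
    hq g y + y * deriv (hq g) y = - deriv g y := by
  have h1 : HasDerivAt (fun y => 1 - g y) (- deriv g y) y := by
    simpa using (smooth_diff hg.smooth y).const_sub 1
  have h2 : HasDerivAt (fun y => y * hq g y) (1 * hq g y + y * deriv (hq g) y) y :=
    (hasDerivAt_id y).mul (smooth_diff (hq_smooth hg) y)
  have e : (fun y => 1 - g y) = fun y => y * hq g y := funext (hq_mul hg)
  rw [e] at h1
  have := h2.unique h1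
  linarith

theorem Sig_hasDeriv (hg : Soliton c A g gh) (y : ℝ) :
    HasDerivAt (Sig g) (90 * deriv (hq g) y - 21 * deriv (deriv g) y
      - y * deriv (deriv (deriv g)) y) y := by
  unfold Sig
  have h1 := deriv_smooth hg.smooth
  have h2 := deriv_smooth h1
  have := (((smooth_diff (hq_smooth hg) y).const_mul 90).sub ((smooth_diff h1 y).const_mul 20)).sub
    ((hasDerivAt_id y).mul (smooth_diff h2 y))
  refine this.congr_deriv ?_
  simp only [id]
  ring

theorem deriv_Sig_pos (hg : Soliton c A g gh) {y : ℝ} (hy : 0 < y) :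
    deriv (Sig g) y = 1 / 2 * (1 / c - 1 / g y) := by
  rw [(Sig_hasDeriv hg y).deriv]
  have ode := hg.ode y hy
  have e2 : iteratedDeriv 2 g y = deriv (deriv g) y := by
    rw [iteratedDeriv_succ, iteratedDeriv_one]
  have e3 : iteratedDeriv 3 g y = deriv (deriv (deriv g)) y := by
    rw [iteratedDeriv_succ]
    congr 1
    rw [iteratedDeriv_succ, iteratedDeriv_one]
  rw [e2, e3] at ode
  have h1 := hq_deriv hg y
  have h2 := hq_mul hg y
  have hy2 : y ^ 2 ≠ 0 := by positivity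
  apply mul_left_cancel₀ hy2
  -- y² h' = - y g' - (1 - g)
  have h3 : y ^ 2 * deriv (hq g) y = - (y * deriv g y) - (1 - g y) := by
    rw [h2]
    have : y * deriv (hq g) y = - deriv g y - hq g y := by linarith
    calc y ^ 2 * deriv (hq g) y = y * (y * deriv (hq g) y) := by ring
      _ = _ := by rw [this]; ring
  have : y ^ 2 * (90 * deriv (hq g) y - 21 * deriv (deriv g) y - y * deriv (deriv (deriv g)) y)
    = 90 * (y ^ 2 * deriv (hq g) y) - 21 * y ^ 2 * deriv (deriv g) y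
      - y ^ 3 * deriv (deriv (deriv g)) y := by ring
  rw [this, h3]
  linarith

/-- if two functions continuous from the right at `0` agree for `y > 0`, they agree at `0`. -/
theorem eq_zero_of_right {f1 f2 : ℝ → ℝ} (h1 : ContinuousWithinAt f1 (Ioi 0) 0)
    (h2 : ContinuousWithinAt f2 (Ioi 0) 0) (h : ∀ y, 0 < y → f1 y = f2 y) : f1 0 = f2 0 := by
  have e : f1 =ᶠ[𝓝[>] 0] f2 := by
    filter_upwards [self_mem_nhdsWithin] with y hy using h y hy
  exact tendsto_nhds_unique (h1.tendsto.congr' e) h2.tendsto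

theorem deriv_Sig (hg : Soliton c A g gh) {y : ℝ} (hy : 0 ≤ y) :
    deriv (Sig g) y = 1 / 2 * (1 / c - 1 / g y) := by
  rcases hy.eq_or_lt with rfl | hy
  · refine eq_zero_of_right (f1 := deriv (Sig g)) (f2 := fun y => 1 / 2 * (1 / c - 1 / g y))
      ?_ ?_ (fun y hy => deriv_Sig_pos hg hy)
    · exact (deriv_smooth (Sig_smooth hg)).continuous.continuousWithinAt
    · have hg0 : g 0 ≠ 0 := by rw [hg.g_zero]; exact one_ne_zero
      exact (continuousAt_const.mul (continuousAt_const.sub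
        (continuousAt_const.div hg.smooth.continuous.continuousAt hg0))).continuousWithinAt
  · exact deriv_Sig_pos hg hy

theorem deriv2_Sig (hg : Soliton c A g gh) {y : ℝ} (hy : 0 ≤ y) :
    deriv (deriv (Sig g)) y = 1 / 2 * (deriv g y / g y ^ 2) := by
  have key : ∀ y : ℝ, 0 < y → deriv (deriv (Sig g)) y = 1 / 2 * (deriv g y / g y ^ 2) := by
    intro y hy
    have hgy : g y ≠ 0 := (hg.pos y hy.le).ne'
    have e : deriv (Sig g) =ᶠ[𝓝 y] fun y => 1 / 2 * (1 / c - 1 / g y) := by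
      filter_upwards [lt_mem_nhds hy] with z hz using deriv_Sig_pos hg hz
    rw [e.deriv_eq]
    have h1 : HasDerivAt (fun y => 1 / g y) (- deriv g y / g y ^ 2) y := by
      have := (smooth_diff hg.smooth y).inv hgy
      have e : (fun y => 1 / g y) = g⁻¹ := by funext z; simp
      rw [e]; exact this
    have h2 := (h1.const_sub (1 / c)).const_mul (1 / 2)
    rw [h2.deriv]
    ring
  rcases hy.eq_or_lt with rfl | hy
  · refine eq_zero_of_right (f1 := deriv (deriv (Sig g)))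
      (f2 := fun y => 1 / 2 * (deriv g y / g y ^ 2)) ?_ ?_ key
    · exact (deriv_smooth (deriv_smooth (Sig_smooth hg))).continuous.continuousWithinAt
    · have hg0 : g 0 ≠ 0 := by rw [hg.g_zero]; exact one_ne_zero
      exact (continuousAt_const.mul ((deriv_smooth hg.smooth).continuous.continuousAt.div
        (hg.smooth.continuous.continuousAt.pow 2) (pow_ne_zero 2 hg0))).continuousWithinAt
  · exact key y hy

/-- `q + y q' = -g'/g²` for `q = (1/g-1)/y`. -/
theorem qin_hasDeriv (hg : Soliton c A g gh) {y : ℝ} (hy : 0 ≤ y) :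
    HasDerivAt (qin g) (deriv (qin g) y) y ∧
      qin g y + y * deriv (qin g) y = - deriv g y / g y ^ 2 := by
  have hgy : g y ≠ 0 := (hg.pos y hy).ne'
  have h0 : HasDerivAt (qin g) ((deriv (hq g) y * g y - hq g y * deriv g y) / g y ^ 2) y :=
    (smooth_diff (hq_smooth hg) y).div (smooth_diff hg.smooth y) hgy
  refine ⟨h0.differentiableAt.hasDerivAt, ?_⟩
  rw [h0.deriv]
  unfold qin
  have h1 := hq_deriv hg y
  have h2 := hq_mul hg y
  field_simp
  have e : y * deriv (hq g) y = - deriv g y - hq g y := by linarith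
  have e2 : hq g y * g y + y * (g y * deriv (hq g) y - hq g y * deriv g y)
      = g y * hq g y + (y * deriv (hq g) y) * g y - (y * hq g y) * deriv g y := by ring
  rw [e2, e, ← h2]; ring

theorem smOn_qin (hg : Soliton c A g gh) : ContDiffOn ℝ (⊤ : ℕ∞) (qin g) (Ici 0) := by
  unfold qin
  exact (hq_smooth hg).contDiffOn.div hg.smooth.contDiffOn (fun y hy => (hg.pos y hy).ne')

theorem win_eq_winh (hg : Soliton c A g gh) {s x : ℝ} (hs : 0 < s) (hx : 0 < x) :
    win g s x = winh gh s x := by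
  unfold win winh qin
  have hss : 0 < √s := Real.sqrt_pos.2 hs
  have hy : 0 < x / √s := by positivity
  have h1 := hg.link _ hy
  have e : 1 / (x / √s) ^ 2 = s / x ^ 2 := by
    rw [div_pow, Real.sq_sqrt hs.le, one_div_div]
  rw [e] at h1
  rw [← h1]
  have h2 := hq_mul hg (x / √s)
  have hgy : g (x / √s) ≠ 0 := (hg.pos _ hy.le).ne'
  have h3 : hq g (x / √s) = (1 - g (x / √s)) / (x / √s) := by
    rw [h2]; field_simp
  rw [h3]
  congr 1
  field_simp

theorem winh_zero (hg : Soliton c A g gh) (x : ℝ) :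
    winh gh 0 x = (1 / c - 1) / x - 1 / (1 - x) := by
  unfold winh
  rw [zero_div, hg.gh_zero]

theorem smIK_winh (hg : Soliton c A g gh) {a b : ℝ} (ha : 0 < a) (hb : b < 1) :
    SmIK (Ici 0) (Icc a b) (winh gh) := by
  unfold SmIK winh
  have hx0 : ∀ p ∈ (Ici (0:ℝ) ×ˢ Icc a b), p.2 ≠ 0 := fun p hp => (ha.trans_le hp.2.1).ne'
  have h1 : ContDiffOn ℝ (⊤ : ℕ∞) (fun p : ℝ × ℝ => p.1 / p.2 ^ 2) (Ici 0 ×ˢ Icc a b) :=
    contDiff_fst.contDiffOn.div (contDiff_snd.contDiffOn.pow 2)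
      (fun p hp => pow_ne_zero 2 (hx0 p hp))
  have hmap : MapsTo (fun p : ℝ × ℝ => p.1 / p.2 ^ 2) (Ici 0 ×ˢ Icc a b) (Ici 0) :=
    fun p hp => mem_Ici.2 (div_nonneg (mem_Ici.1 hp.1) (sq_nonneg _))
  have h2 : ContDiffOn ℝ (⊤ : ℕ∞) (fun p : ℝ × ℝ => gh (p.1 / p.2 ^ 2)) (Ici 0 ×ˢ Icc a b) :=
    hg.smooth_inf.comp h1 hmap
  refine (((contDiffOn_const.div h2 (fun p hp => (gh_pos hg (hmap hp)).ne')).sub
    contDiffOn_const).div contDiff_snd.contDiffOn hx0).sub
    (contDiffOn_const.div (contDiffOn_const.sub contDiff_snd.contDiffOn) (fun p hp => ?_))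
  have := hp.2.2
  linarith

theorem isOpen_Ug (hg : Soliton c A g gh) : IsOpen (Ug g) := by
  have h1 : IsOpen {p : ℝ × ℝ | 0 < p.1} := isOpen_lt continuous_const continuous_fst
  have h2 : IsOpen {p : ℝ × ℝ | p.2 < 1} := isOpen_lt continuous_snd continuous_const
  have hc : ContinuousOn (fun p : ℝ × ℝ => g (p.2 / √p.1)) {p : ℝ × ℝ | 0 < p.1} := by
    refine hg.smooth.continuous.comp_continuousOn ?_
    refine continuous_snd.continuousOn.div (Real.continuous_sqrt.comp continuous_fst).continuousOn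
      (fun p hp => (Real.sqrt_pos.2 hp).ne')
  have h3 := hc.isOpen_inter_preimage h1 (isOpen_Ioi (a := (0 : ℝ)))
  have e : Ug g = ({p : ℝ × ℝ | 0 < p.1} ∩ (fun p : ℝ × ℝ => g (p.2 / √p.1)) ⁻¹' Ioi 0)
      ∩ {p : ℝ × ℝ | p.2 < 1} := by
    ext p
    simp only [Ug, mem_setOf_eq, mem_inter_iff, mem_preimage, mem_Ioi]
    tauto
  rw [e]
  exact h3.inter h2

theorem mem_Ug (hg : Soliton c A g gh) {s x : ℝ} (hs : 0 < s) (hx : 0 ≤ x) (hx1 : x < 1) :
    (s, x) ∈ Ug g :=
  ⟨hs, hx1, hg.pos _ (div_nonneg hx (Real.sqrt_nonneg _))⟩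

theorem contDiffOn_ratio (U : Set (ℝ × ℝ)) (hU : ∀ p ∈ U, 0 < p.1) :
    ContDiffOn ℝ (⊤ : ℕ∞) (fun p : ℝ × ℝ => p.2 / √p.1) U :=
  contDiff_snd.contDiffOn.div (contDiff_fst.contDiffOn.sqrt (fun p hp => (hU p hp).ne'))
    (fun p hp => (Real.sqrt_pos.2 (hU p hp)).ne')

theorem smU_ratio_comp {f : ℝ → ℝ} (hf : ContDiff ℝ (⊤ : ℕ∞) f) (U : Set (ℝ × ℝ))
    (hU : ∀ p ∈ U, 0 < p.1) : SmU U (fun s x => f (x / √s)) :=
  hf.comp_contDiffOn (contDiffOn_ratio U hU)

theorem smU_sqrt (U : Set (ℝ × ℝ)) (hU : ∀ p ∈ U, 0 < p.1) : SmU U (fun s _ => √s) :=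
  contDiff_fst.contDiffOn.sqrt (fun p hp => (hU p hp).ne')

theorem smU_win (hg : Soliton c A g gh) : SmU (Ug g) (win g) := by
  have hU : ∀ p ∈ Ug g, 0 < p.1 := fun p hp => hp.1
  have h1 := smU_ratio_comp (hq_smooth hg) (Ug g) hU
  have h2 := smU_ratio_comp hg.smooth (Ug g) hU
  have h3 := smU_sqrt (Ug g) hU
  have h4 : ContDiffOn ℝ (⊤ : ℕ∞) (fun p : ℝ × ℝ => hq g (p.2 / √p.1) / g (p.2 / √p.1)) (Ug g) :=
    ContDiffOn.div h1 h2 (fun p hp => hp.2.2.ne')
  have h5 : ContDiffOn ℝ (⊤ : ℕ∞)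
      (fun p : ℝ × ℝ => hq g (p.2 / √p.1) / g (p.2 / √p.1) / √p.1) (Ug g) :=
    ContDiffOn.div h4 h3 (fun p hp => (Real.sqrt_pos.2 hp.1).ne')
  have h6 : ContDiffOn ℝ (⊤ : ℕ∞) (fun p : ℝ × ℝ => 1 / (1 - p.2)) (Ug g) :=
    contDiffOn_const.div (contDiffOn_const.sub contDiff_snd.contDiffOn) (fun p hp => by
      have := hp.2.1
      linarith)
  exact ContDiffOn.sub h5 h6

theorem Pw_win (hg : Soliton c A g gh) {s x : ℝ} (hp : (s, x) ∈ Ug g) :
    Pw (win g) s x = (1 - x) / g (x / √s) := by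
  unfold Pw win qin
  have hs : 0 < s := hp.1
  have hx1 : x < 1 := hp.2.1
  have hss : 0 < √s := Real.sqrt_pos.2 hs
  have hgy : g (x / √s) ≠ 0 := hp.2.2.ne'
  have h2 := hq_mul hg (x / √s)
  have hx2 : 1 - x ≠ 0 := by linarith
  have e : x * (1 - x) * (hq g (x / √s) / g (x / √s) / √s - 1 / (1 - x))
      = (1 - x) * ((x / √s) * hq g (x / √s)) / g (x / √s) - x := by
    field_simp
  rw [e, ← h2]
  field_simp
  ring

theorem Pw_win_pos (hg : Soliton c A g gh) {p : ℝ × ℝ} (hp : p ∈ Ug g) :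
    0 < Pw (win g) p.1 p.2 := by
  rw [Pw_win hg (s := p.1) (x := p.2) hp]
  exact div_pos (by have := hp.2.1; linarith) hp.2.2

theorem psw_win (hg : Soliton c A g gh) {s x : ℝ} (hp : (s, x) ∈ Ug g) :
    psw (win g) s x = g (x / √s) := by
  unfold psw
  rw [Pw_win hg hp]
  have hx2 : 1 - x ≠ 0 := by have := hp.2.1; simp only at this; linarith
  have hgy : g (x / √s) ≠ 0 := hp.2.2.ne'
  field_simp

theorem qw_win (hg : Soliton c A g gh) {s x : ℝ} (hp : (s, x) ∈ Ug g) :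
    qw (win g) s x = hq g (x / √s) / √s := by
  unfold qw
  rw [Pw_win hg hp]
  have hx2 : 1 - x ≠ 0 := by have := hp.2.1; simp only at this; linarith
  have hgy : g (x / √s) ≠ 0 := hp.2.2.ne'
  have hss : √s ≠ 0 := (Real.sqrt_pos.2 hp.1).ne'
  unfold win qin
  field_simp
  ring

/-- x-derivative of a self-similar function. -/
theorem hasDerivAt_ratio {f : ℝ → ℝ} (hf : ContDiff ℝ (⊤ : ℕ∞) f) (s x : ℝ) :
    HasDerivAt (fun y => f (y / √s)) (deriv f (x / √s) / √s) x := by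
  have h1 : HasDerivAt (fun y : ℝ => y / √s) (1 / √s) x := (hasDerivAt_id x).div_const _
  have h2 := (smooth_diff hf (x / √s)).comp x h1
  refine h2.congr_deriv ?_
  ring

theorem dX_psw_win (hg : Soliton c A g gh) {s x : ℝ} (hp : (s, x) ∈ Ug g) :
    dX (psw (win g)) s x = deriv g (x / √s) / √s := by
  have h : ∀ p ∈ Ug g, psw (win g) p.1 p.2 = (fun s x => g (x / √s)) p.1 p.2 :=
    fun p hp => psw_win hg hp
  rw [dX_congr (G := fun s x => g (x / √s)) (isOpen_Ug hg) h hp]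
  exact (hasDerivAt_ratio hg.smooth s x).deriv

theorem dX_dX_psw_win (hg : Soliton c A g gh) {s x : ℝ} (hp : (s, x) ∈ Ug g) :
    dX (dX (psw (win g))) s x = deriv (deriv g) (x / √s) / s := by
  have h : ∀ p ∈ Ug g, dX (psw (win g)) p.1 p.2
      = (fun s x => deriv g (x / √s) / √s) p.1 p.2 := fun p hp => dX_psw_win hg hp
  rw [dX_congr (G := fun s x => deriv g (x / √s) / √s) (isOpen_Ug hg) h hp]
  have h2 := ((hasDerivAt_ratio (deriv_smooth hg.smooth) s x).div_const (√s)).deriv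
  refine h2.trans ?_
  rw [div_div, Real.mul_self_sqrt hp.1.le]

theorem Sop_win (hg : Soliton c A g gh) {s x : ℝ} (hp : (s, x) ∈ Ug g) :
    Sop (win g) s x = Sig g (x / √s) / √s := by
  unfold Sop
  rw [qw_win hg hp, dX_psw_win hg hp, dX_dX_psw_win hg hp]
  unfold Sig
  have hs : 0 < s := hp.1
  have hss : √s ≠ 0 := (Real.sqrt_pos.2 hs).ne'
  have e : x * (deriv (deriv g) (x / √s) / s) = x / √s * deriv (deriv g) (x / √s) / √s := by
    have : s = √s * √s := (Real.mul_self_sqrt hs.le).symm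
    nth_rewrite 2 [this]
    field_simp
  rw [e]
  ring

theorem Sop_win_zero (hg : Soliton c A g gh) {s : ℝ} (hs : 0 < s) :
    Sop (win g) s 0 = 110 * A / √s := by
  rw [Sop_win hg (mem_Ug hg hs le_rfl one_pos), zero_div, Sig_zero hg]

theorem dX_dX_Sop_win (hg : Soliton c A g gh) {s x : ℝ} (hp : (s, x) ∈ Ug g) :
    dX (dX (Sop (win g))) s x = deriv (deriv (Sig g)) (x / √s) / (√s * s) := by
  have hS := Sig_smooth hg
  have h : ∀ p ∈ Ug g, Sop (win g) p.1 p.2
      = (fun s x => Sig g (x / √s) / √s) p.1 p.2 := fun p hp => Sop_win hg hp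
  have h1 : ∀ p ∈ Ug g, dX (Sop (win g)) p.1 p.2
      = (fun s x => deriv (Sig g) (x / √s) / √s / √s) p.1 p.2 := by
    intro p hp
    rw [dX_congr (G := fun s x => Sig g (x / √s) / √s) (isOpen_Ug hg) h (t := p.1) (x := p.2) hp]
    exact ((hasDerivAt_ratio hS p.1 p.2).div_const (√p.1)).deriv
  rw [dX_congr (G := fun s x => deriv (Sig g) (x / √s) / √s / √s) (isOpen_Ug hg) h1 hp]
  have h2 := (((hasDerivAt_ratio (deriv_smooth hS) s x).div_const (√s)).div_const (√s)).deriv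
  refine h2.trans ?_
  rw [div_div, div_div, Real.mul_self_sqrt hp.1.le]

theorem dt_win (hg : Soliton c A g gh) {s x : ℝ} (hs : 0 < s) (hx : 0 ≤ x) :
    dt (win g) s x = 1 / 2 * (deriv g (x / √s) / g (x / √s) ^ 2) / (√s * s) := by
  have hss : 0 < √s := Real.sqrt_pos.2 hs
  have hy : 0 ≤ x / √s := div_nonneg hx hss.le
  obtain ⟨h1, h2⟩ := qin_hasDeriv hg hy
  have h3 : HasDerivAt (fun r : ℝ => √r) (1 / (2 * √s)) s := Real.hasDerivAt_sqrt hs.ne'
  have h4 : HasDerivAt (fun r : ℝ => x / √r) (- (x * (1 / (2 * √s))) / √s ^ 2) s := by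
    have := (hasDerivAt_const s x).div h3 hss.ne'
    refine this.congr_deriv ?_
    ring
  have h5 : HasDerivAt (fun r : ℝ => qin g (x / √r))
      (deriv (qin g) (x / √s) * (- (x * (1 / (2 * √s))) / √s ^ 2)) s :=
    HasDerivAt.comp (x := s) (h := fun r : ℝ => x / √r) (h₂ := qin g) h1 h4
  have h6 := (h5.div h3 hss.ne').sub_const (1 / (1 - x))
  unfold dt win
  have h7 : deriv (fun r => qin g (x / √r) / √r - 1 / (1 - x)) s = _ := h6.deriv
  rw [h7]
  have e : deriv g (x / √s) / g (x / √s) ^ 2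
      = - (qin g (x / √s) + x / √s * deriv (qin g) (x / √s)) := by
    rw [h2]; ring
  rw [e, Real.sq_sqrt hs.le]
  have hs2 : s = √s * √s := (Real.mul_self_sqrt hs.le).symm
  have hss' : √s ≠ 0 := hss.ne'
  have hmul : √s * √s = s := Real.mul_self_sqrt hs.le
  field_simp
  linear_combination (-(x * deriv (qin g) (x / √s))) * hmul

theorem resid_win (hg : Soliton c A g gh) {s x : ℝ} (hs : 0 < s) (hx : 0 ≤ x) (hx1 : x < 1) :
    resid (win g) s x = 0 := by
  unfold resid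
  have hss : 0 < √s := Real.sqrt_pos.2 hs
  have hy : 0 ≤ x / √s := div_nonneg hx hss.le
  rw [dt_win hg hs hx, dX_dX_Sop_win hg (mem_Ug hg hs hx hx1), deriv2_Sig hg hy]
  ring

end Crest.Agent.R213.D
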