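import Crest.Agent.R213.D.DDefs

/-!
# Row 213, part D3c: bounds in the outer region, constants independent of `M` (helper587)
-/

set_option autoImplicit false

open Set MeasureTheory Filter Topology

noncomputable section

namespace Crest.Agent.R213.D

namespace OB

variable {s1 a b : ℝ} {u v : ℝ → ℝ → ℝ}

lemma uniq (_hs1 : 0 < s1) (hab : a < b) : UniqueDiffOn ℝ (Ico 0 s1 ×ˢ Icc a b) :=
  (uniqueDiffOn_Ico 0 s1).prod (uniqueDiffOn_Icc hab)

lemma hasDs (hu : SmIK (Ico 0 s1) (Icc a b) u) {s x : ℝ} (hs : s ∈ Ico 0 s1) (hx : x ∈ Icc a b) :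
    HasDerivWithinAt (fun r => u r x) (fderivWithin ℝ (fun p : ℝ × ℝ => u p.1 p.2)
      (Ico 0 s1 ×ˢ Icc a b) (s, x) (1, 0)) (Ici 0) s := by
  have h0 : DifferentiableWithinAt ℝ (fun p : ℝ × ℝ => u p.1 p.2) (Ico 0 s1 ×ˢ Icc a b) (s, x) :=
    (hu (s, x) ⟨hs, hx⟩).differentiableWithinAt (by simp)
  have h1 := h0.hasFDerivWithinAt
  have h2 : HasDerivWithinAt (fun r : ℝ => (r, x)) ((1 : ℝ), (0 : ℝ)) (Ico 0 s1) s :=
    ((hasDerivAt_id s).prodMk (hasDerivAt_const s x)).hasDerivWithinAt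
  have hm : MapsTo (fun r : ℝ => (r, x)) (Ico 0 s1) (Ico 0 s1 ×ˢ Icc a b) := fun r hr => ⟨hr, hx⟩
  have h3 : HasDerivWithinAt ((fun p : ℝ × ℝ => u p.1 p.2) ∘ fun r : ℝ => (r, x))
      (fderivWithin ℝ (fun p : ℝ × ℝ => u p.1 p.2) (Ico 0 s1 ×ˢ Icc a b) (s, x) (1, 0))
      (Ico 0 s1) s := h1.comp_hasDerivWithinAt s h2 hm
  refine HasDerivWithinAt.mono_of_mem_nhdsWithin (t := Ico 0 s1) h3 ?_
  rw [← Ici_inter_Iio]
  exact inter_mem_nhdsWithin _ (Iio_mem_nhds hs.2)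

lemma ds_eq (hu : SmIK (Ico 0 s1) (Icc a b) u) {s x : ℝ} (hs : s ∈ Ico 0 s1) (hx : x ∈ Icc a b) :
    ds u s x = fderivWithin ℝ (fun p : ℝ × ℝ => u p.1 p.2)
      (Ico 0 s1 ×ˢ Icc a b) (s, x) (1, 0) :=
  (hasDs hu hs hx).derivWithin (uniqueDiffOn_Ici 0 s hs.1)

lemma hasDs' (hu : SmIK (Ico 0 s1) (Icc a b) u) {s x : ℝ} (hs : s ∈ Ico 0 s1) (hx : x ∈ Icc a b) :
    HasDerivWithinAt (fun r => u r x) (ds u s x) (Ici 0) s := by
  rw [ds_eq hu hs hx]; exact hasDs hu hs hx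

lemma smIK_ds (hs1 : 0 < s1) (hab : a < b) (hu : SmIK (Ico 0 s1) (Icc a b) u) :
    SmIK (Ico 0 s1) (Icc a b) (ds u) := by
  have h1 : ContDiffOn ℝ (⊤ : ℕ∞) (fderivWithin ℝ (fun p : ℝ × ℝ => u p.1 p.2)
      (Ico 0 s1 ×ˢ Icc a b)) (Ico 0 s1 ×ˢ Icc a b) :=
    ContDiffOn.fderivWithin hu (uniq hs1 hab) (by simp)
  refine ContDiffOn.congr (h1.clm_apply (contDiffOn_const (c := ((1 : ℝ), (0 : ℝ))))) ?_
  intro p hp
  exact ds_eq hu hp.1 hp.2

lemma smIK_ds_iter (hs1 : 0 < s1) (hab : a < b) (hu : SmIK (Ico 0 s1) (Icc a b) u) (j : ℕ) :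
    SmIK (Ico 0 s1) (Icc a b) (ds^[j] u) := by
  induction j with
  | zero => simpa using hu
  | succ j ih => rw [Function.iterate_succ_apply']; exact smIK_ds hs1 hab ih

lemma hasDx (_hab : a < b) (hu : SmIK (Ico 0 s1) (Icc a b) u) {s x : ℝ} (hs : s ∈ Ico 0 s1)
    (hx : x ∈ Icc a b) :
    HasDerivWithinAt (fun y => u s y) (dxK (Icc a b) u s x) (Icc a b) x := by
  have h0 : DifferentiableWithinAt ℝ (fun p : ℝ × ℝ => u p.1 p.2) (Ico 0 s1 ×ˢ Icc a b) (s, x) :=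
    (hu (s, x) ⟨hs, hx⟩).differentiableWithinAt (by simp)
  have h1 := h0.hasFDerivWithinAt
  have h2 : HasDerivWithinAt (fun r : ℝ => (s, r)) ((0 : ℝ), (1 : ℝ)) (Icc a b) x :=
    ((hasDerivAt_const x s).prodMk (hasDerivAt_id x)).hasDerivWithinAt
  have hm : MapsTo (fun r : ℝ => (s, r)) (Icc a b) (Ico 0 s1 ×ˢ Icc a b) := fun r hr => ⟨hs, hr⟩
  have h3 : HasDerivWithinAt (fun r => u s r) _ (Icc a b) x := h1.comp_hasDerivWithinAt x h2 hm
  exact (h3.differentiableWithinAt).hasDerivWithinAt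

lemma dxK_eq (hab : a < b) (hu : SmIK (Ico 0 s1) (Icc a b) u) {s x : ℝ} (hs : s ∈ Ico 0 s1)
    (hx : x ∈ Icc a b) :
    dxK (Icc a b) u s x = fderivWithin ℝ (fun p : ℝ × ℝ => u p.1 p.2)
      (Ico 0 s1 ×ˢ Icc a b) (s, x) (0, 1) := by
  have h0 : DifferentiableWithinAt ℝ (fun p : ℝ × ℝ => u p.1 p.2) (Ico 0 s1 ×ˢ Icc a b) (s, x) :=
    (hu (s, x) ⟨hs, hx⟩).differentiableWithinAt (by simp)
  have h1 := h0.hasFDerivWithinAt
  have h2 : HasDerivWithinAt (fun r : ℝ => (s, r)) ((0 : ℝ), (1 : ℝ)) (Icc a b) x :=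
    ((hasDerivAt_const x s).prodMk (hasDerivAt_id x)).hasDerivWithinAt
  have hm : MapsTo (fun r : ℝ => (s, r)) (Icc a b) (Ico 0 s1 ×ˢ Icc a b) := fun r hr => ⟨hs, hr⟩
  have h3 : HasDerivWithinAt (fun r => u s r) _ (Icc a b) x := h1.comp_hasDerivWithinAt x h2 hm
  exact h3.derivWithin (uniqueDiffOn_Icc hab x hx)

lemma smIK_dx (hs1 : 0 < s1) (hab : a < b) (hu : SmIK (Ico 0 s1) (Icc a b) u) :
    SmIK (Ico 0 s1) (Icc a b) (dxK (Icc a b) u) := by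
  have h1 : ContDiffOn ℝ (⊤ : ℕ∞) (fderivWithin ℝ (fun p : ℝ × ℝ => u p.1 p.2)
      (Ico 0 s1 ×ˢ Icc a b)) (Ico 0 s1 ×ˢ Icc a b) :=
    ContDiffOn.fderivWithin hu (uniq hs1 hab) (by simp)
  refine ContDiffOn.congr (h1.clm_apply (contDiffOn_const (c := ((0 : ℝ), (1 : ℝ))))) ?_
  intro p hp
  exact dxK_eq hab hu hp.1 hp.2

/-- `ds` for `s > 0` is the usual derivative. -/
lemma ds_deriv {s x : ℝ} (hs : 0 < s) : ds u s x = deriv (fun r => u r x) s :=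
  derivWithin_of_mem_nhds (Ici_mem_nhds hs)

lemma iter_eq (_hs1 : 0 < s1) (_hab : a < b) (_hu : SmIK (Ico 0 s1) (Icc a b) u) {x : ℝ}
    (_hx : x ∈ Icc a b) (j : ℕ) :
    ∀ s ∈ Ioo 0 s1, iteratedDeriv j (fun r => u r x) s = (ds^[j] u) s x := by
  induction j with
  | zero => intro s _; simp
  | succ j ih =>
    intro s hs
    rw [iteratedDeriv_succ, Function.iterate_succ_apply', ds_deriv hs.1]
    apply Filter.EventuallyEq.deriv_eq
    filter_upwards [Ioo_mem_nhds hs.1 hs.2] with r hr using ih r hr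

lemma bound (hu : SmIK (Ico 0 s1) (Icc a b) u) {s2 : ℝ} (h2 : s2 < s1) :
    ∃ C : ℝ, 0 ≤ C ∧ ∀ s ∈ Icc 0 s2, ∀ x ∈ Icc a b, |u s x| ≤ C := by
  have hK : IsCompact (Icc 0 s2 ×ˢ Icc a b) := isCompact_Icc.prod isCompact_Icc
  have hc : ContinuousOn (fun p : ℝ × ℝ => u p.1 p.2) (Icc 0 s2 ×ˢ Icc a b) :=
    (ContDiffOn.continuousOn hu).mono
      (prod_mono (fun s hs => ⟨hs.1, lt_of_le_of_lt hs.2 h2⟩) subset_rfl)
  obtain ⟨C, hC⟩ := hK.exists_bound_of_continuousOn hc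
  refine ⟨max C 0, le_max_right _ _, fun s hs x hx => ?_⟩
  have := hC (s, x) ⟨hs, hx⟩
  rw [Real.norm_eq_abs] at this
  exact this.trans (le_max_left _ _)

lemma iter_bound (hs1 : 0 < s1) (hab : a < b) (hu : SmIK (Ico 0 s1) (Icc a b) u) {s2 : ℝ}
    (h2 : s2 < s1) (J : ℕ) :
    ∃ C : ℝ, 0 ≤ C ∧ ∀ j ≤ J, ∀ s ∈ Ioc 0 s2, ∀ x ∈ Icc a b,
      |iteratedDeriv j (fun r => u r x) s| ≤ C := by
  choose C hC0 hC using fun j => bound (smIK_ds_iter hs1 hab hu j) h2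
  refine ⟨∑ j ∈ Finset.range (J + 1), C j, Finset.sum_nonneg fun j _ => hC0 j, ?_⟩
  intro j hj s hs x hx
  rw [iter_eq hs1 hab hu hx j s ⟨hs.1, lt_of_le_of_lt hs.2 h2⟩]
  refine (hC j s ⟨hs.1.le, hs.2⟩ x hx).trans ?_
  exact Finset.single_le_sum (fun i _ => hC0 i) (Finset.mem_range.2 (by omega))

/-- `OM` is lowered by one by `ds`. -/
lemma om_ds (hs1 : 0 < s1) (hab : a < b) {n : ℕ} (h : OM (Ico 0 s1) (Icc a b) (n + 1) u) :
    OM (Ico 0 s1) (Icc a b) n (ds u) := by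
  obtain ⟨G, hG, hGu⟩ := h
  refine ⟨fun s x => ((n : ℝ) + 1) * G s x + s * ds G s x, ?_, ?_⟩
  · exact ContDiffOn.add (ContDiffOn.mul contDiffOn_const hG)
      (ContDiffOn.mul contDiff_fst.contDiffOn (smIK_ds hs1 hab hG))
  · intro s hs x hx
    have hd : HasDerivWithinAt (fun r => r ^ (n + 1) * G r x)
        (((n : ℝ) + 1) * s ^ n * G s x + s ^ (n + 1) * ds G s x) (Ici 0) s := by
      have h1 : HasDerivWithinAt (fun r : ℝ => r ^ (n + 1)) (((n : ℝ) + 1) * s ^ n) (Ici 0) s := by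
        simpa using (hasDerivAt_pow (n + 1) s).hasDerivWithinAt
      exact h1.mul (hasDs' hG hs hx)
    have hev : (fun r => u r x) =ᶠ[𝓝[Ici 0] s] fun r => r ^ (n + 1) * G r x := by
      have : Ico 0 s1 ∈ 𝓝[Ici 0] s := by
        rw [← Ici_inter_Iio]
        exact inter_mem_nhdsWithin _ (Iio_mem_nhds hs.2)
      filter_upwards [this] with r hr using hGu r hr x hx
    have : ds u s x = ((n : ℝ) + 1) * s ^ n * G s x + s ^ (n + 1) * ds G s x := by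
      unfold ds
      rw [hev.derivWithin_eq (hGu s hs x hx)]
      exact hd.derivWithin (uniqueDiffOn_Ici 0 s hs.1)
    rw [this]; ring

lemma om_ds_iter (hs1 : 0 < s1) (hab : a < b) (j : ℕ) :
    ∀ {n : ℕ} {u : ℝ → ℝ → ℝ}, OM (Ico 0 s1) (Icc a b) (n + j) u →
      OM (Ico 0 s1) (Icc a b) n (ds^[j] u) := by
  induction j with
  | zero => intro n u h; simpa using h
  | succ j ih =>
    intro n u h
    rw [Function.iterate_succ_apply]
    exact ih (om_ds hs1 hab (by simpa [add_assoc] using h))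

lemma om_mono (h : OM (Ico 0 s1) (Icc a b) 1 u) : ∀ {s2 : ℝ}, s2 < s1 →
    ∃ C : ℝ, 0 ≤ C ∧ ∀ s ∈ Icc 0 s2, ∀ x ∈ Icc a b, |u s x| ≤ C * s := by
  intro s2 h2
  obtain ⟨G, hG, hGu⟩ := h
  obtain ⟨C, hC0, hC⟩ := bound hG h2
  refine ⟨C, hC0, fun s hs x hx => ?_⟩
  rw [hGu s ⟨hs.1, lt_of_le_of_lt hs.2 h2⟩ x hx, pow_one, abs_mul, abs_of_nonneg hs.1, mul_comm]
  exact mul_le_mul_of_nonneg_right (hC s hs x hx) hs.1

/-- a term in `O(10)` has small derivatives of order `≤ 9` near `s = 0`. -/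
lemma om_small (hs1 : 0 < s1) (hab : a < b) {n : ℕ} (h : OM (Ico 0 s1) (Icc a b) (n + 1) u) :
    ∃ s3 : ℝ, 0 < s3 ∧ s3 < s1 ∧ ∀ j ≤ n, ∀ s ∈ Ioo 0 s3, ∀ x ∈ Icc a b,
      |(ds^[j] u) s x| ≤ 1 := by
  have hj : ∀ j : ℕ, ∃ t : ℝ, 0 < t ∧ (j ≤ n → ∀ s ∈ Icc 0 (min t (s1 / 2)), ∀ x ∈ Icc a b,
      |(ds^[j] u) s x| ≤ 1) := by
    intro j
    by_cases hjn : j ≤ n
    · have h1 : OM (Ico 0 s1) (Icc a b) 1 (ds^[j] u) := by
        have h2 : OM (Ico 0 s1) (Icc a b) ((n - j + 1) + j) u := by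
          rw [show (n - j + 1) + j = n + 1 by omega]; exact h
        obtain ⟨G, hG, hGu⟩ := om_ds_iter hs1 hab j h2
        refine ⟨fun s x => s ^ (n - j) * G s x, ?_, fun s hs x hx => ?_⟩
        · exact ContDiffOn.mul (contDiff_fst.pow _).contDiffOn hG
        · rw [hGu s hs x hx]; ring
      obtain ⟨C, hC0, hC⟩ := om_mono h1 (s2 := s1 / 2) (by linarith)
      refine ⟨1 / (C + 1), by positivity, fun _ s hs x hx => ?_⟩
      refine (hC s ⟨hs.1, hs.2.trans (min_le_right _ _)⟩ x hx).trans ?_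
      have h3 : s ≤ 1 / (C + 1) := hs.2.trans (min_le_left _ _)
      calc C * s ≤ (C + 1) * (1 / (C + 1)) := by
            apply mul_le_mul (by linarith) h3 hs.1 (by linarith)
        _ = 1 := by field_simp
    · exact ⟨1, one_pos, fun h => absurd h hjn⟩
  choose t ht0 ht using hj
  have hne : (Finset.range (n + 1)).Nonempty := ⟨0, by simp⟩
  set T := (Finset.range (n + 1)).inf' hne t with hT
  have hTpos : 0 < T := by
    rw [hT, Finset.lt_inf'_iff]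
    exact fun j _ => ht0 j
  refine ⟨min T (s1 / 2), lt_min hTpos (by linarith), (min_le_right _ _).trans_lt (by linarith), ?_⟩
  intro j hj s hs x hx
  apply ht j hj s ⟨hs.1.le, ?_⟩ x hx
  have : T ≤ t j := Finset.inf'_le _ (Finset.mem_range.2 (by omega))
  exact hs.2.le.trans (min_le_min_right _ this)

end OB

open OB in
theorem outer_bd {s1 : ℝ} (hs1 : 0 < s1) {w : ℝ → ℝ → ℝ} (hw : SmIK (Ico 0 s1) (Icc (1 / 8) 1) w)
    (hP : ∀ s ∈ Ico 0 s1, ∀ x ∈ Icc (1 / 8 : ℝ) 1, 0 < PP w s x) :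
    ∃ c1 C1 : ℝ, 0 < c1 ∧ ∀ (s2 : ℝ) (w' : ℝ → ℝ → ℝ), 0 < s2 →
      SmIK (Ico 0 s2) (Icc (1 / 8) 1) w' →
      OM (Ico 0 s2) (Icc (1 / 8) 1) 10 (fun s x => w' s x - w s x) →
      ∃ s3 : ℝ, 0 < s3 ∧ s3 ≤ s2 ∧ (∀ s ∈ Ico 0 s3, ∀ x ∈ Icc (1 / 8 : ℝ) 1,
        0 < PP w' s x ∧ c1 ≤ 1 / PP w' s x ∧ 1 / PP w' s x ≤ C1 ∧
        |dxK (Icc (1 / 8) 1) (fun s x => x * (1 - x) / PP w' s x) s x| ≤ C1) ∧
        ∀ s ∈ Ioo 0 s3, ∀ x ∈ Icc (1 / 8 : ℝ) 1, ∀ j ≤ 9,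
          |iteratedDeriv j (fun r => 1 / PP w' r x) s| ≤ C1 := by
  have hab : (1 / 8 : ℝ) < 1 := by norm_num
  -- smoothness of `P` and `1/P`
  have smP : ∀ {t : ℝ} {v : ℝ → ℝ → ℝ}, SmIK (Ico 0 t) (Icc (1 / 8) 1) v →
      SmIK (Ico 0 t) (Icc (1 / 8) 1) (PP v) := by
    intro t v hv
    exact contDiffOn_const.add ((contDiff_snd.contDiffOn.mul
      (contDiffOn_const.sub contDiff_snd.contDiffOn)).mul hv)
  have smI : ∀ {t : ℝ} {v : ℝ → ℝ → ℝ}, SmIK (Ico 0 t) (Icc (1 / 8) 1) v →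
      (∀ s ∈ Ico 0 t, ∀ x ∈ Icc (1 / 8 : ℝ) 1, 0 < PP v s x) →
      SmIK (Ico 0 t) (Icc (1 / 8) 1) (fun s x => 1 / PP v s x) := by
    intro t v hv h0
    exact contDiffOn_const.div (smP hv) (fun p hp => (h0 p.1 hp.1 p.2 hp.2).ne')
  have smphi : ∀ {t : ℝ} {v : ℝ → ℝ → ℝ}, SmIK (Ico 0 t) (Icc (1 / 8) 1) v →
      (∀ s ∈ Ico 0 t, ∀ x ∈ Icc (1 / 8 : ℝ) 1, 0 < PP v s x) →
      SmIK (Ico 0 t) (Icc (1 / 8) 1) (fun s x => x * (1 - x) / PP v s x) := by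
    intro t v hv h0
    exact (contDiff_snd.contDiffOn.mul (contDiffOn_const.sub contDiff_snd.contDiffOn)).div
      (smP hv) (fun p hp => (h0 p.1 hp.1 p.2 hp.2).ne')
  -- bounds for `w`
  obtain ⟨CP, hCP0, hCP⟩ := bound (smP hw) (s2 := s1 / 2) (by linarith)
  obtain ⟨CI, hCI0, hCI⟩ := bound (smI hw hP) (s2 := s1 / 2) (by linarith)
  obtain ⟨CJ, hCJ0, hCJ⟩ := iter_bound hs1 hab (smI hw hP) (s2 := s1 / 2) (by linarith) 9
  obtain ⟨CD, hCD0, hCD⟩ := bound (smIK_dx hs1 hab (smphi hw hP)) (s2 := s1 / 2) (by linarith)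
  set c1 : ℝ := 1 / (CP + 1) with hc1
  set C1 : ℝ := CI + CJ + CD + 2 * CI + 2 with hC1
  refine ⟨c1, C1, by positivity, ?_⟩
  intro s2 w' hs2 hw' hOM
  -- `t0 = min s1 s2`, everything on `Ico 0 t0`
  set t0 := min (s1 / 2) s2 with ht0
  have ht0p : 0 < t0 := lt_min (by linarith) hs2
  obtain ⟨G, hG, hGu⟩ := hOM
  have hsub1 : Ico 0 t0 ⊆ Ico 0 s1 := Ico_subset_Ico_right ((min_le_left _ _).trans (by linarith))
  have hsub2 : Ico 0 t0 ⊆ Ico 0 s2 := Ico_subset_Ico_right (min_le_right _ _)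
  have hwt : SmIK (Ico 0 t0) (Icc (1 / 8) 1) w := ContDiffOn.mono hw (prod_mono hsub1 subset_rfl)
  have hwt' : SmIK (Ico 0 t0) (Icc (1 / 8) 1) w' := ContDiffOn.mono hw' (prod_mono hsub2 subset_rfl)
  have hGt : SmIK (Ico 0 t0) (Icc (1 / 8) 1) G := ContDiffOn.mono hG (prod_mono hsub2 subset_rfl)
  have hPt : ∀ s ∈ Ico 0 t0, ∀ x ∈ Icc (1 / 8 : ℝ) 1, 0 < PP w s x := fun s hs => hP s (hsub1 hs)
  -- `P' - P = s^10 x(1-x) G`
  have hdiff : ∀ s ∈ Ico 0 t0, ∀ x ∈ Icc (1 / 8 : ℝ) 1,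
      PP w' s x = PP w s x + s ^ 10 * (x * (1 - x) * G s x) := by
    intro s hs x hx
    have := hGu s (hsub2 hs) x hx
    simp only [PP]
    have h2 : w' s x = w s x + s ^ 10 * G s x := by linarith
    rw [h2]; ring
  -- lower bound for `P` on `[0,s1/2]`
  have hPlow : ∀ s ∈ Ico 0 t0, ∀ x ∈ Icc (1 / 8 : ℝ) 1, 1 / (CI + 1) ≤ PP w s x := by
    intro s hs x hx
    have h1 := hCI s ⟨hs.1, hs.2.le.trans (min_le_left _ _)⟩ x hx
    have h2 := hPt s hs x hx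
    rw [abs_of_pos (by positivity)] at h1
    rw [div_le_iff₀ (by linarith)]
    rw [div_le_iff₀ h2] at h1
    nlinarith
  -- choose `t1` such that `|s^10 x(1-x) G| ≤ 1/(2(CI+1))`
  obtain ⟨CG, hCG0, hCG⟩ := bound hGt (s2 := t0 / 2) (by linarith)
  set e : ℝ := 1 / (2 * (CI + 1)) with he
  have hepos : 0 < e := by positivity
  set t1 := min (min (t0 / 2) 1) (e / (CG + 1)) with ht1
  have ht1p : 0 < t1 := lt_min (lt_min (by linarith) one_pos) (by positivity)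
  have ht1a : t1 ≤ t0 / 2 := (min_le_left _ _).trans (min_le_left _ _)
  have ht1b : t1 ≤ 1 := (min_le_left _ _).trans (min_le_right _ _)
  have ht1c : t1 ≤ e / (CG + 1) := min_le_right _ _
  have hsm : ∀ s ∈ Ico 0 t1, ∀ x ∈ Icc (1 / 8 : ℝ) 1, |s ^ 10 * (x * (1 - x) * G s x)| ≤ e := by
    intro s hs x hx
    have h1 := hCG s ⟨hs.1, hs.2.le.trans ht1a⟩ x hx
    have hx0 : 0 ≤ x := by linarith [hx.1]
    have hx1 : 0 ≤ 1 - x := by linarith [hx.2]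
    have h3 : x * (1 - x) ≤ 1 := by nlinarith
    have h4 : s ^ 10 ≤ s := by
      have := pow_le_pow_of_le_one hs.1 (hs.2.le.trans ht1b) (show 1 ≤ 10 by norm_num)
      simpa using this
    rw [abs_mul, abs_mul, abs_of_nonneg (pow_nonneg hs.1 10), abs_of_nonneg (mul_nonneg hx0 hx1)]
    calc s ^ 10 * (x * (1 - x) * |G s x|) ≤ s * (1 * |G s x|) := by
          apply mul_le_mul h4 _ (by positivity) hs.1
          exact mul_le_mul_of_nonneg_right h3 (abs_nonneg _)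
      _ ≤ (e / (CG + 1)) * (CG + 1) := by
          apply mul_le_mul (hs.2.le.trans ht1c) (by linarith) (by positivity) (by positivity)
      _ = e := by field_simp
  have hP' : ∀ s ∈ Ico 0 t1, ∀ x ∈ Icc (1 / 8 : ℝ) 1, e ≤ PP w' s x := by
    intro s hs x hx
    have hs0 : s ∈ Ico 0 t0 := ⟨hs.1, hs.2.trans_le (ht1a.trans (by linarith))⟩
    rw [hdiff s hs0 x hx]
    have h1 := hPlow s hs0 x hx
    have h2 := (abs_le.1 (hsm s hs x hx)).1
    have h3 : 1 / (CI + 1) = 2 * e := by rw [he]; field_simp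
    linarith
  -- everything on `Ico 0 t1`
  have hsub3 : Ico 0 t1 ⊆ Ico 0 t0 := Ico_subset_Ico_right (ht1a.trans (by linarith))
  have hwu : SmIK (Ico 0 t1) (Icc (1 / 8) 1) w := ContDiffOn.mono hwt (prod_mono hsub3 subset_rfl)
  have hwu' : SmIK (Ico 0 t1) (Icc (1 / 8) 1) w' :=
    ContDiffOn.mono hwt' (prod_mono hsub3 subset_rfl)
  have hGu' : SmIK (Ico 0 t1) (Icc (1 / 8) 1) G := ContDiffOn.mono hGt (prod_mono hsub3 subset_rfl)
  have hPu : ∀ s ∈ Ico 0 t1, ∀ x ∈ Icc (1 / 8 : ℝ) 1, 0 < PP w s x := fun s hs => hPt s (hsub3 hs)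
  have hPu' : ∀ s ∈ Ico 0 t1, ∀ x ∈ Icc (1 / 8 : ℝ) 1, 0 < PP w' s x :=
    fun s hs x hx => hepos.trans_le (hP' s hs x hx)
  -- the difference of the inverses
  have hinv : OM (Ico 0 t1) (Icc (1 / 8) 1) 10
      (fun s x => 1 / PP w' s x - 1 / PP w s x) := by
    refine ⟨fun s x => -(x * (1 - x) * G s x) * (1 / PP w' s x) * (1 / PP w s x), ?_, ?_⟩
    · exact ((((contDiff_snd.contDiffOn.mul (contDiffOn_const.sub contDiff_snd.contDiffOn)).mul
        hGu').neg).mul (smI hwu' hPu')).mul (smI hwu hPu)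
    · intro s hs x hx
      have h1 := hdiff s (hsub3 hs) x hx
      have h2 := (hPu s hs x hx).ne'
      have h3 := (hPu' s hs x hx).ne'
      field_simp
      rw [h1]; ring
  have hphi : OM (Ico 0 t1) (Icc (1 / 8) 1) 10
      (fun s x => x * (1 - x) / PP w' s x - x * (1 - x) / PP w s x) := by
    obtain ⟨G1, hG1, hG1u⟩ := hinv
    refine ⟨fun s x => x * (1 - x) * G1 s x, ?_, ?_⟩
    · exact (contDiff_snd.contDiffOn.mul (contDiffOn_const.sub contDiff_snd.contDiffOn)).mul hG1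
    · intro s hs x hx
      have : 1 / PP w' s x - 1 / PP w s x = s ^ 10 * G1 s x := hG1u s hs x hx
      calc x * (1 - x) / PP w' s x - x * (1 - x) / PP w s x
          = x * (1 - x) * (1 / PP w' s x - 1 / PP w s x) := by ring
        _ = _ := by rw [this]; ring
  -- derivative in `x` of the difference
  have hphix : ∃ C : ℝ, 0 ≤ C ∧ ∀ s ∈ Icc 0 (t1 / 2), ∀ x ∈ Icc (1 / 8 : ℝ) 1,
      |dxK (Icc (1 / 8) 1) (fun s x => x * (1 - x) / PP w' s x) s x -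
        dxK (Icc (1 / 8) 1) (fun s x => x * (1 - x) / PP w s x) s x| ≤ C * s ^ 10 := by
    obtain ⟨G1, hG1, hG1u⟩ := hphi
    obtain ⟨C, hC0, hC⟩ := bound (smIK_dx ht1p hab hG1) (s2 := t1 / 2) (by linarith)
    refine ⟨C, hC0, fun s hs x hx => ?_⟩
    have hs' : s ∈ Ico 0 t1 := ⟨hs.1, hs.2.trans_lt (by linarith)⟩
    have d1 := hasDx hab (smphi hwu' hPu') hs' hx
    have d2 := hasDx hab (smphi hwu hPu) hs' hx
    have d3 := (hasDx hab hG1 hs' hx).const_mul (s ^ 10)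
    have d4 := d1.sub d2
    have d5 : HasDerivWithinAt (fun y => y * (1 - y) / PP w' s y - y * (1 - y) / PP w s y)
        (s ^ 10 * dxK (Icc (1 / 8) 1) G1 s x) (Icc (1 / 8) 1) x :=
      d3.congr (fun y hy => hG1u s hs' y hy) (hG1u s hs' x hx)
    have d6 := (uniqueDiffOn_Icc hab x hx).eq_deriv _ d4 d5
    rw [d6, abs_mul, abs_of_nonneg (pow_nonneg hs.1 10), mul_comm]
    exact mul_le_mul_of_nonneg_right (hC s hs x hx) (pow_nonneg hs.1 10)
  obtain ⟨CX, hCX0, hCX⟩ := hphix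
  obtain ⟨t2, ht2p, ht2l, ht2⟩ := om_small ht1p hab (n := 9) hinv
  set s3 := min (min t2 (t1 / 2)) (1 / (CX + 1)) with hs3
  have hs3p : 0 < s3 := lt_min (lt_min ht2p (by linarith)) (by positivity)
  have hs3a : s3 ≤ t2 := (min_le_left _ _).trans (min_le_left _ _)
  have hs3b : s3 ≤ t1 / 2 := (min_le_left _ _).trans (min_le_right _ _)
  have hs3c : s3 ≤ 1 / (CX + 1) := min_le_right _ _
  refine ⟨s3, hs3p, ?_, ?_, ?_⟩
  · calc s3 ≤ t1 / 2 := hs3b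
      _ ≤ t0 := by linarith
      _ ≤ s2 := min_le_right _ _
  · intro s hs x hx
    have hst1 : s ∈ Ico 0 t1 := ⟨hs.1, hs.2.trans_le (hs3b.trans (by linarith))⟩
    have hst0 : s ∈ Ico 0 t0 := hsub3 hst1
    have hsI : s ∈ Icc 0 (s1 / 2) := ⟨hst0.1, hst0.2.le.trans (min_le_left _ _)⟩
    have hp := hPu' s hst1 x hx
    refine ⟨hp, ?_, ?_, ?_⟩
    · rw [hc1]
      apply one_div_le_one_div_of_le hp
      rw [hdiff s hst0 x hx]
      have h1 := (abs_le.1 (hCP s hsI x hx)).2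
      have h2 := (abs_le.1 (hsm s hst1 x hx)).2
      have h3 : e ≤ 1 := by
        rw [he, div_le_one (by positivity)]; linarith
      linarith
    · have h1 : 1 / PP w' s x ≤ 1 / e := one_div_le_one_div_of_le hepos (hP' s hst1 x hx)
      have h2 : 1 / e = 2 * (CI + 1) := by rw [he]; field_simp
      rw [hC1]; linarith
    · have h1 := hCX s ⟨hs.1, hs.2.le.trans hs3b⟩ x hx
      have h2 := hCD s hsI x hx
      have h3 : CX * s ^ 10 ≤ 1 := by
        have hs1' : s ≤ 1 := hst1.2.le.trans ht1b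
        have h4 : s ^ 10 ≤ s := by
          have := pow_le_pow_of_le_one hs.1 hs1' (show 1 ≤ 10 by norm_num)
          simpa using this
        calc CX * s ^ 10 ≤ (CX + 1) * (1 / (CX + 1)) := by
              apply mul_le_mul (by linarith) (h4.trans (hs.2.le.trans hs3c))
                (pow_nonneg hs.1 _) (by linarith)
          _ = 1 := by field_simp
      have h5 := abs_le.1 h1
      have h6 := abs_le.1 h2
      rw [abs_le, hC1]
      constructor <;> linarith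
  · intro s hs x hx j hj
    have hst1 : s ∈ Ioo 0 t1 := ⟨hs.1, hs.2.trans_le (hs3b.trans (by linarith))⟩
    have hst0 : s ∈ Ico 0 t0 := hsub3 ⟨hst1.1.le, hst1.2⟩
    have e1 := iter_eq ht1p hab (smI hwu' hPu') hx j s hst1
    have e2 := iter_eq ht1p hab (smI hwu hPu) hx j s hst1
    have hb := hCJ j hj s ⟨hs.1, hst0.2.le.trans (min_le_left _ _)⟩ x hx
    have hd : SmIK (Ico 0 t1) (Icc (1 / 8) 1) (fun s x => 1 / PP w' s x - 1 / PP w s x) :=
      ContDiffOn.sub (smI hwu' hPu') (smI hwu hPu)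
    have e3 := iter_eq ht1p hab hd hx j s hst1
    have h9 := ht2 j hj s ⟨hs.1, hs.2.trans_le hs3a⟩ x hx
    have e4 : iteratedDeriv j (fun r => 1 / PP w' r x - 1 / PP w r x) s =
        iteratedDeriv j (fun r => 1 / PP w' r x) s - iteratedDeriv j (fun r => 1 / PP w r x) s := by
      have c1 : ContDiffAt ℝ j (fun r => 1 / PP w' r x) s := by
        have : ContDiffOn ℝ (⊤ : ℕ∞) (fun r => 1 / PP w' r x) (Ioo 0 t1) := by
          have hh := smI hwu' hPu'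
          exact ContDiffOn.comp (f := fun r : ℝ => (r, x)) hh
            (contDiff_id.prodMk contDiff_const).contDiffOn (fun r hr => ⟨⟨hr.1.le, hr.2⟩, hx⟩)
        exact ((this.contDiffAt (Ioo_mem_nhds hst1.1 hst1.2)).of_le (by exact_mod_cast le_top))
      have c2 : ContDiffAt ℝ j (fun r => 1 / PP w r x) s := by
        have : ContDiffOn ℝ (⊤ : ℕ∞) (fun r => 1 / PP w r x) (Ioo 0 t1) := by
          have hh := smI hwu hPu
          exact ContDiffOn.comp (f := fun r : ℝ => (r, x)) hh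
            (contDiff_id.prodMk contDiff_const).contDiffOn (fun r hr => ⟨⟨hr.1.le, hr.2⟩, hx⟩)
        exact ((this.contDiffAt (Ioo_mem_nhds hst1.1 hst1.2)).of_le (by exact_mod_cast le_top))
      exact iteratedDeriv_sub c1 c2
    rw [e4] at e3
    have e5 : iteratedDeriv j (fun r => 1 / PP w' r x) s =
        iteratedDeriv j (fun r => 1 / PP w r x) s +
          (ds^[j] (fun s x => 1 / PP w' s x - 1 / PP w s x)) s x := by linarith
    rw [e5, hC1]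
    have h10 := abs_add_le (iteratedDeriv j (fun r => 1 / PP w r x) s)
      ((ds^[j] (fun s x => 1 / PP w' s x - 1 / PP w s x)) s x)
    linarith

end Crest.Agent.R213.D
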