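import Crest.Agent.R213.D.Formal
import Crest.Agent.R213.D.Inner
import Crest.Agent.R213.D.OuterBd

/-!
# Row 213, part D: the glued approximate solution and its residual (helper430)
-/

set_option autoImplicit false

open Set Filter Topology

noncomputable section

namespace Crest.Agent.R213.D

/-! ### from `SmIK` (smooth up to `s = 0`) to the classes `Ord` -/

section smIK

variable {s1 s a b : ℝ} {u : ℝ → ℝ → ℝ}

lemma dxK_eq_dX {t x : ℝ} (hx : x ∈ Ioo a b) : dxK (Icc a b) u t x = dX u t x :=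
  derivWithin_of_mem_nhds (Icc_mem_nhds hx.1 hx.2)

lemma ds_eq_dt {t x : ℝ} (ht : 0 < t) : ds u t x = dt u t x :=
  derivWithin_of_mem_nhds (Ici_mem_nhds ht)

lemma smU_of_smIK (hs : s ≤ s1) (hu : SmIK (Ico 0 s1) (Icc a b) u) :
    SmU (Ioo 0 s ×ˢ Ioo a b) u :=
  ContDiffOn.mono hu (prod_mono (fun _ ht => ⟨ht.1.le, ht.2.trans_le hs⟩) Ioo_subset_Icc_self)

lemma smIK_X1 (hs1 : 0 < s1) (hab : a < b) (hu : SmIK (Ico 0 s1) (Icc a b) u) :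
    SmIK (Ico 0 s1) (Icc a b) (fun t x => t * ds u t x) :=
  contDiff_fst.contDiffOn.mul (OB.smIK_ds hs1 hab hu)

lemma bd0_of_smIK (hs : s < s1) (hu : SmIK (Ico 0 s1) (Icc a b) u) : Bd s (Ioo a b) 0 u := by
  obtain ⟨C, hC, h⟩ := OB.bound hu hs
  refine ⟨C, hC, fun t ht x hx => ?_⟩
  simpa using h t ⟨ht.1.le, ht.2.le⟩ x ⟨hx.1.le, hx.2.le⟩

lemma ordN0_of_smIK (hs1 : 0 < s1) (hs : s < s1) (hab : a < b) : ∀ (n : ℕ) {u : ℝ → ℝ → ℝ},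
    SmIK (Ico 0 s1) (Icc a b) u → OrdN s (Ioo a b) 0 n u
  | 0, _, hu => bd0_of_smIK hs hu
  | n + 1, u, hu => by
    refine ⟨bd0_of_smIK hs hu, ?_, ?_⟩
    · refine OrdN.congr isOpen_Ioo (ordN0_of_smIK hs1 hs hab n (smIK_X1 hs1 hab hu)) ?_
      rintro ⟨t, x⟩ hp
      simp only [X1]; rw [ds_eq_dt hp.1.1]
    · refine OrdN.congr isOpen_Ioo (ordN0_of_smIK hs1 hs hab n (OB.smIK_dx hs1 hab hu)) ?_
      rintro ⟨t, x⟩ hp
      exact dxK_eq_dX hp.2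

/-- functions smooth up to `s = 0` are in `Ord 0`. -/
theorem ord0_of_smIK (hs1 : 0 < s1) (hs : s < s1) (hab : a < b)
    (hu : SmIK (Ico 0 s1) (Icc a b) u) : Ord s (Ioo a b) 0 u :=
  ⟨smU_of_smIK hs.le hu, fun n => ordN0_of_smIK hs1 hs hab n hu⟩

lemma bd1_of_smIK (hs1 : 0 < s1) (hs : s < s1) (hab : a < b) (hu : SmIK (Ico 0 s1) (Icc a b) u)
    (h0 : ∀ x ∈ Icc a b, u 0 x = 0) : Bd s (Ioo a b) 1 u := by
  obtain ⟨C, hC, h⟩ := OB.bound (OB.smIK_ds hs1 hab hu) hs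
  refine ⟨C, hC, fun t ht x hx => ?_⟩
  have hxI : x ∈ Icc a b := ⟨hx.1.le, hx.2.le⟩
  have h1 : ‖u t x - u 0 x‖ ≤ C * ‖t - 0‖ := by
    refine Convex.norm_image_sub_le_of_norm_hasDerivWithin_le (s := Icc 0 t)
      (f := fun r => u r x) (f' := fun r => ds u r x)
      (fun y hy => ?_) (fun y hy => ?_) (convex_Icc 0 t)
      (left_mem_Icc.2 ht.1.le) (right_mem_Icc.2 ht.1.le)
    · exact (OB.hasDs' hu ⟨hy.1, (hy.2.trans_lt ht.2).trans hs⟩ hxI).mono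
        (fun z hz => mem_Ici.2 hz.1)
    · rw [Real.norm_eq_abs]
      exact h y ⟨hy.1, (hy.2.trans_lt ht.2).le⟩ x hxI
  rw [h0 x hxI, sub_zero, sub_zero, Real.norm_eq_abs, Real.norm_eq_abs, abs_of_pos ht.1] at h1
  simpa using h1

lemma ordN1_of_smIK (hs1 : 0 < s1) (hs : s < s1) (hab : a < b) : ∀ (n : ℕ) {u : ℝ → ℝ → ℝ},
    SmIK (Ico 0 s1) (Icc a b) u → (∀ x ∈ Icc a b, u 0 x = 0) → OrdN s (Ioo a b) 1 n u
  | 0, _, hu, h0 => bd1_of_smIK hs1 hs hab hu h0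
  | n + 1, u, hu, h0 => by
    refine ⟨bd1_of_smIK hs1 hs hab hu h0, ?_, ?_⟩
    · refine OrdN.congr isOpen_Ioo (ordN1_of_smIK hs1 hs hab n (smIK_X1 hs1 hab hu)
        (fun x _ => by simp)) ?_
      rintro ⟨t, x⟩ hp
      simp only [X1]; rw [ds_eq_dt hp.1.1]
    · refine OrdN.congr isOpen_Ioo (ordN1_of_smIK hs1 hs hab n (OB.smIK_dx hs1 hab hu) ?_) ?_
      · intro x hx
        show derivWithin (fun y => u 0 y) (Icc a b) x = 0
        rw [derivWithin_congr (f := fun _ => (0 : ℝ)) (fun y hy => h0 y hy) (h0 x hx)]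
        simp
      · rintro ⟨t, x⟩ hp
        exact dxK_eq_dX hp.2

/-- functions smooth up to `s = 0` and zero there are in `Ord 1`. -/
theorem ord1_of_smIK (hs1 : 0 < s1) (hs : s < s1) (hab : a < b)
    (hu : SmIK (Ico 0 s1) (Icc a b) u) (h0 : ∀ x ∈ Icc a b, u 0 x = 0) : Ord s (Ioo a b) 1 u :=
  ⟨smU_of_smIK hs.le hu, fun n => ordN1_of_smIK hs1 hs hab n hu h0⟩

/-- lower bound by compactness. -/
lemma low_of_smIK (hs : s < s1) (hs0 : 0 ≤ s) (hab : a ≤ b) (hu : SmIK (Ico 0 s1) (Icc a b) u)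
    (hpos : ∀ t ∈ Icc 0 s, ∀ x ∈ Icc a b, 0 < u t x) :
    ∃ c > 0, ∀ t ∈ Icc 0 s, ∀ x ∈ Icc a b, c ≤ u t x := by
  have hK : IsCompact (Icc 0 s ×ˢ Icc a b) := isCompact_Icc.prod isCompact_Icc
  have hc : ContinuousOn (fun p : ℝ × ℝ => u p.1 p.2) (Icc 0 s ×ˢ Icc a b) :=
    (ContDiffOn.continuousOn hu).mono
      (prod_mono (fun t ht => ⟨ht.1, lt_of_le_of_lt ht.2 hs⟩) subset_rfl)
  have hne : (Icc 0 s ×ˢ Icc a b).Nonempty :=
    ⟨(0, a), left_mem_Icc.2 hs0, left_mem_Icc.2 hab⟩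
  obtain ⟨p0, hp0, hmin⟩ := hK.exists_isMinOn hne hc
  exact ⟨u p0.1 p0.2, hpos _ hp0.1 _ hp0.2, fun t ht x hx => hmin (mk_mem_prod ht hx)⟩

end smIK

lemma Ord.iter_dt {s : ℝ} {I : Set ℝ} (hI : IsOpen I) : ∀ (j : ℕ) {k : ℕ} {F : ℝ → ℝ → ℝ},
    Ord s I (k + j) F → Ord s I k (R213.dt^[j] F)
  | 0, _, _, h => h
  | j + 1, k, F, h => by
    rw [Function.iterate_succ_apply]
    exact Ord.iter_dt hI j (Ord.dt hI (M := k + j) h)

lemma iter_dt_zero' {F : ℝ → ℝ → ℝ} {s x : ℝ} (h : ∀ t ∈ Ioo 0 s, F t x = 0) :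
    ∀ j : ℕ, ∀ t ∈ Ioo 0 s, (dt^[j] F) t x = 0 := by
  intro j
  induction j with
  | zero => exact h
  | succ j ih =>
    intro t ht
    rw [Function.iterate_succ_apply']
    have hev : (fun r => (dt^[j] F) r x) =ᶠ[𝓝 t] fun _ => 0 := by
      filter_upwards [Ioo_mem_nhds ht.1 ht.2] with r hr using ih r hr
    show deriv (fun r => (dt^[j] F) r x) t = 0
    rw [hev.deriv_eq]; simp

/-! ### the glued function -/

/-- packaged conclusion of `formal`. -/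
structure FormalSol (c : ℝ) (a : ℕ → ℝ → ℝ) : Prop where
  sm : ∀ j, ContDiff ℝ (⊤ : ℕ∞) (a j)
  supp : ∀ j x, x ∉ Icc (1 / 32 : ℝ) (3 / 4) → a j x = 0
  zero : ∀ x ∈ Icc (1 / 16 : ℝ) (1 / 2), a 0 x = 1 / (c * x) - 1 / x - 1 / (1 - x)
  pos : ∀ x, 0 < 1 + x * (1 - x) * a 0 x
  res : ∀ M : ℕ, ∃ s > 0, ∃ c1 > 0, (∀ t ∈ Ioo (-s) s, ∀ x, c1 ≤ Pw (wM a M) t x) ∧
    Ord s (Ioo (-1) 2) M (resid (wM a M))

theorem formalSol_exists {c : ℝ} (hc : 0 < c) : ∃ a : ℕ → ℝ → ℝ, FormalSol c a := by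
  obtain ⟨a, h1, h2, h3, h4, h5⟩ := formal hc
  exact ⟨a, h1, h2, h3, h4, h5⟩

/-- the glued approximate solution. -/
def gW (g χ : ℝ → ℝ) (a : ℕ → ℝ → ℝ) (M : ℕ) : ℝ → ℝ → ℝ := fun t x =>
  χ x * win g t x + (1 - χ x) * wM a M t x

/-- its domain. -/
def gU (g : ℝ → ℝ) (s1 : ℝ) : Set (ℝ × ℝ) :=
  {p | p.1 ∈ Ioo 0 s1 ∧ ((p.2 < 3 / 16 ∧ 0 < g (p.2 / √p.1)) ∨ (1 / 8 < p.2 ∧ p.2 < 2))}

variable {c A : ℝ} {g gh : ℝ → ℝ} {s1 : ℝ}

/-- inner piece of the domain. -/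
def gU1 (g : ℝ → ℝ) (s1 : ℝ) : Set (ℝ × ℝ) := Ug g ∩ Ioo 0 s1 ×ˢ Iio (3 / 16)

lemma gU_eq (g : ℝ → ℝ) (s1 : ℝ) : gU g s1 = gU1 g s1 ∪ Ioo 0 s1 ×ˢ Ioo (1 / 8) 2 := by
  ext p
  simp only [gU, gU1, Ug, mem_ofPred_eq, mem_union, mem_inter_iff, mem_prod, mem_Iio, mem_Ioo]
  constructor
  · rintro ⟨⟨h1, h2⟩, h3 | h3⟩
    · left; exact ⟨⟨h1, h3.1.trans (by norm_num), h3.2⟩, ⟨h1, h2⟩, h3.1⟩
    · right; exact ⟨⟨h1, h2⟩, h3⟩
  · rintro (⟨⟨h1, h2, h3⟩, ⟨h4, h5⟩, h6⟩ | ⟨h1, h2⟩)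
    · exact ⟨⟨h4, h5⟩, Or.inl ⟨h6, h3⟩⟩
    · exact ⟨h1, Or.inr h2⟩

lemma isOpen_gU1 (hg : Soliton c A g gh) : IsOpen (gU1 g s1) :=
  (isOpen_Ug hg).inter (isOpen_Ioo.prod isOpen_Iio)

theorem isOpen_gU (hg : Soliton c A g gh) : IsOpen (gU g s1) := by
  rw [gU_eq]
  exact (isOpen_gU1 hg).union (isOpen_Ioo.prod isOpen_Ioo)

theorem mem_gU (hg : Soliton c A g gh) {s x : ℝ} (hs : s ∈ Ioo 0 s1) (hx : x ∈ Icc (0 : ℝ) 1) :
    (s, x) ∈ gU g s1 := by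
  refine ⟨hs, ?_⟩
  rcases lt_or_ge x (3 / 16) with h | h
  · left; exact ⟨h, hg.pos _ (div_nonneg hx.1 (Real.sqrt_nonneg _))⟩
  · right; exact ⟨by simp only; linarith, by simp only; linarith [hx.2]⟩

lemma gW_inner {χ : ℝ → ℝ} (h1 : ∀ x, x ≤ 3 / 16 → χ x = 1) (a : ℕ → ℝ → ℝ) (M : ℕ) {t x : ℝ}
    (hx : x ≤ 3 / 16) : gW g χ a M t x = win g t x := by
  simp only [gW]; rw [h1 x hx]; ring

lemma gW_outer {χ : ℝ → ℝ} (h0 : ∀ x, 1 / 4 ≤ x → χ x = 0) (a : ℕ → ℝ → ℝ) (M : ℕ) {t x : ℝ}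
    (hx : 1 / 4 ≤ x) : gW g χ a M t x = wM a M t x := by
  simp only [gW]; rw [h0 x hx]; ring

/-- `Pw` of a convex combination. -/
lemma Pw_comb {w v : ℝ → ℝ → ℝ} {χ : ℝ → ℝ} {t x : ℝ} :
    Pw (fun t x => χ x * w t x + (1 - χ x) * v t x) t x =
      χ x * Pw w t x + (1 - χ x) * Pw v t x := by
  simp only [Pw]; ring

lemma comb_ge {l p q m : ℝ} (hl : l ∈ Icc (0 : ℝ) 1) (hp : m ≤ p) (hq : m ≤ q) :
    m ≤ l * p + (1 - l) * q := by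
  have h1 := mul_le_mul_of_nonneg_left hp hl.1
  have h2 := mul_le_mul_of_nonneg_left hq (sub_nonneg.2 hl.2)
  linarith

/-- everything in the gluing zone. -/
theorem glue_zone (hg : Soliton c A g gh) {χ : ℝ → ℝ} (hχ : ContDiff ℝ (⊤ : ℕ∞) χ)
    (h01 : ∀ x, χ x ∈ Icc (0 : ℝ) 1) {a : ℕ → ℝ → ℝ} (ha : FormalSol c a) (M : ℕ) {s c1 : ℝ}
    (hs : 0 < s) (hc1 : 0 < c1) (hP : ∀ t ∈ Ioo (-s) s, ∀ x, c1 ≤ Pw (wM a M) t x)
    (hR : Ord s (Ioo (-1) 2) M (resid (wM a M))) {s1 : ℝ} (hs1 : 0 < s1) (h1s : s1 < s) :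
    SmU (Ioo 0 s1 ×ˢ Ioo (1 / 8) (1 / 2)) (gW g χ a M) ∧
      (∀ p ∈ Ioo 0 s1 ×ˢ Ioo (1 / 8 : ℝ) (1 / 2), 0 < Pw (gW g χ a M) p.1 p.2) ∧
      Ord s1 (Ioo (1 / 8) (1 / 2)) M (resid (gW g χ a M)) := by
  set I : Set ℝ := Ioo (1 / 8) (1 / 2) with hIdef
  have hI : IsOpen I := isOpen_Ioo
  have hIb : I ⊆ Icc (1 / 8) (1 / 2) := Ioo_subset_Icc_self
  have hab : (1 / 8 : ℝ) < 1 / 2 := by norm_num
  have hsm := smIK_winh hg (a := 1 / 8) (b := 1 / 2) (by norm_num) (by norm_num)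
  have hsm' : SmIK (Ico 0 s) (Icc (1 / 8) (1 / 2)) (winh gh) :=
    ContDiffOn.mono hsm (prod_mono Ico_subset_Ici_self subset_rfl)
  have hwM : SmU univ (wM a M) := wM_sm ha.sm M
  have hwM' : SmIK (Ico 0 s) (Icc (1 / 8) (1 / 2)) (wM a M) := ContDiffOn.mono hwM (subset_univ _)
  -- `win = winh` on the domain
  have ew : ∀ p ∈ Ioo 0 s1 ×ˢ I, winh gh p.1 p.2 = win g p.1 p.2 := fun p hp =>
    (win_eq_winh hg hp.1.1 (lt_trans (by norm_num) hp.2.1)).symm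
  have ow : Ord s1 I 0 (win g) := (ord0_of_smIK hs h1s hab hsm').congr hI ew
  have ov : Ord s1 I 0 (wM a M) := ord0_of_smIK hs h1s hab hwM'
  have od : Ord s1 I 1 (fun t x => win g t x - wM a M t x) := by
    refine (ord1_of_smIK (u := fun t x => winh gh t x - wM a M t x) hs h1s hab
      (ContDiffOn.sub hsm' hwM') ?_).congr hI ?_
    · intro x hx
      have e1 : wM a M 0 x = a 0 x := by
        simp only [wM]
        rw [Finset.sum_eq_single 0]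
        · simp
        · intro j _ hj; simp [hj]
        · intro h; exact absurd (Finset.mem_range.2 (Nat.succ_pos M)) h
      rw [winh_zero hg, e1, ha.zero x ⟨by linarith [hx.1], hx.2⟩]
      have hx0 : x ≠ 0 := by have := hx.1; intro h; rw [h] at this; norm_num at this
      have hc := hg.c_pos.ne'
      field_simp
      ring
    · intro p hp; rw [ew p hp]
  -- positivity of `Pw win`
  have hPsm : SmIK (Ico 0 s) (Icc (1 / 8) (1 / 2)) (Pw (winh gh)) := SmU.Pw hsm'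
  obtain ⟨c2, hc2, hlow⟩ := low_of_smIK (s := s1) h1s hs1.le hab.le hPsm (by
    intro t ht x hx
    have hx0 : 0 < x := lt_of_lt_of_le (by norm_num) hx.1
    have hx1 : x < 1 := lt_of_le_of_lt hx.2 (by norm_num)
    have hgp : 0 < gh (t / x ^ 2) := gh_pos hg (div_nonneg ht.1 (sq_nonneg _))
    have e : Pw (winh gh) t x = (1 - x) / gh (t / x ^ 2) := by
      simp only [Pw, winh]
      have h1 : 1 - x ≠ 0 := by linarith
      field_simp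
      ring
    rw [e]
    exact div_pos (by linarith) hgp)
  have hPwin : ∀ t ∈ Ioo 0 s1, ∀ x ∈ I, min c1 c2 ≤ Pw (win g) t x := by
    intro t ht x hx
    have h1 := hlow t ⟨ht.1.le, ht.2.le⟩ x (hIb hx)
    have h2 : Pw (winh gh) t x = Pw (win g) t x := by
      simp only [Pw]; rw [ew (t, x) ⟨ht, hx⟩]
    rw [← h2]; exact (min_le_right _ _).trans h1
  have hPwM : ∀ t ∈ Ioo 0 s1, ∀ x ∈ I, min c1 c2 ≤ Pw (wM a M) t x := fun t ht x _ =>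
    (min_le_left _ _).trans (hP t ⟨by linarith [ht.1], ht.2.trans h1s⟩ x)
  have hm : 0 < min c1 c2 := lt_min hc1 hc2
  -- residuals
  have rwin : Ord s1 I M (resid (win g)) := by
    have hz : Ord s1 I M (fun _ _ => (0 : ℝ)) := by
      have := (ord_const (s := s1) hI 0).mul0 hI (ord_tpow (s := s1) hI M)
      exact this.congr hI (fun p _ => by simp)
    refine hz.congr hI ?_
    rintro ⟨t, x⟩ hp
    exact (resid_win hg hp.1.1 (le_trans (by norm_num) hp.2.1.le)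
      (lt_trans hp.2.2 (by norm_num))).symm
  have rwM : Ord s1 I M (resid (wM a M)) :=
    hR.mono_dom h1s.le (Ioo_subset_Ioo (by norm_num) (by norm_num))
  have hmatch := matching hI hIb ow ov hm hPwin hPwM od rwin rwM
  -- the glued function
  have oχ : Ord s1 I 0 (fun _ x => χ x) := ord_of_x' hχ
  have oW : Ord s1 I 0 (gW g χ a M) :=
    (oχ.mul0 hI ow).add hI (((ord_const hI 1).sub hI oχ).mul0 hI ov)
  have hPW : ∀ t ∈ Ioo 0 s1, ∀ x ∈ I, min c1 c2 ≤ Pw (gW g χ a M) t x := by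
    intro t ht x hx
    have e : Pw (gW g χ a M) t x = χ x * Pw (win g) t x + (1 - χ x) * Pw (wM a M) t x := Pw_comb
    rw [e]
    exact comb_ge (h01 x) (hPwin t ht x hx) (hPwM t ht x hx)
  have hdiff : Ord s1 I (M + 1) (fun t x => gW g χ a M t x - wM a M t x) := by
    refine (oχ.mul0 hI hmatch).congr hI ?_
    rintro ⟨t, x⟩ _
    simp only [gW]; ring
  have h1 := ord_dXdXSop_sub hI hIb oW ov hm hPW hPwM hdiff
  have h2 := hdiff.dt hI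
  refine ⟨oW.sm, fun p hp => hm.trans_le (hPW p.1 hp.1 p.2 hp.2), ?_⟩
  refine ((rwM.add hI h2).sub hI (h1.mono_M (Nat.le_succ M))).congr hI ?_
  rintro ⟨t, x⟩ hp
  simp only
  rw [dt_sub oW.sm ov.sm (isOpen_dom hI) hp]
  simp only [resid]; ring

/-- **the residual of the glued approximate solution.** -/
theorem glue_res (hg : Soliton c A g gh) {χ : ℝ → ℝ} (hχ : ContDiff ℝ (⊤ : ℕ∞) χ)
    (h1 : ∀ x, x ≤ 3 / 16 → χ x = 1) (h0 : ∀ x, 1 / 4 ≤ x → χ x = 0)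
    (h01 : ∀ x, χ x ∈ Icc (0 : ℝ) 1) {a : ℕ → ℝ → ℝ} (ha : FormalSol c a) (M : ℕ) :
    ∃ s0 > 0, ∀ s1, 0 < s1 → s1 ≤ s0 → SmU (gU g s1) (gW g χ a M) ∧
      (∀ p ∈ gU g s1, 0 < Pw (gW g χ a M) p.1 p.2) ∧
      (∀ p ∈ gU g s1, p.2 < 3 / 16 → gW g χ a M p.1 p.2 = win g p.1 p.2) ∧
      (∀ s ∈ Ioo 0 s1, ∀ x ∈ Ico (0 : ℝ) (3 / 16), resid (gW g χ a M) s x = 0) ∧
      (∀ s ∈ Ioo 0 s1, Sop (gW g χ a M) s 0 = 110 * A / √s) ∧
      (∀ j ≤ M, ∃ C, ∀ s ∈ Ioo 0 s1, ∀ x ∈ Icc (0 : ℝ) 1,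
        |(dt^[j] (resid (gW g χ a M))) s x| ≤ C * s ^ (M - j)) := by
  obtain ⟨s, hs, c1, hc1, hP, hR⟩ := ha.res M
  refine ⟨s / 2, by linarith, ?_⟩
  intro s1 hs1 hs1s
  have h1s : s1 < s := by linarith
  obtain ⟨z1, z2, z3⟩ := glue_zone hg hχ h01 ha M hs hc1 hP hR hs1 h1s
  have hwM : SmU univ (wM a M) := wM_sm ha.sm M
  have eI : ∀ p ∈ gU1 g s1, gW g χ a M p.1 p.2 = win g p.1 p.2 := fun p hp =>
    gW_inner h1 a M (le_of_lt hp.2.2)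
  have eO : ∀ p ∈ Ioo 0 s1 ×ˢ Ioo (1 / 4 : ℝ) 2, gW g χ a M p.1 p.2 = wM a M p.1 p.2 :=
    fun p hp => gW_outer h0 a M hp.2.1.le
  have sm1 : SmU (gU1 g s1) (gW g χ a M) := ((smU_win hg).mono inter_subset_left).congr eI
  have sm3 : SmU (Ioo 0 s1 ×ˢ Ioo (1 / 4 : ℝ) 2) (gW g χ a M) := (hwM.mono (subset_univ _)).congr eO
  have hcov : Ioo 0 s1 ×ˢ Ioo (1 / 8 : ℝ) 2 =
      Ioo 0 s1 ×ˢ Ioo (1 / 8 : ℝ) (1 / 2) ∪ Ioo 0 s1 ×ˢ Ioo (1 / 4 : ℝ) 2 := by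
    rw [← prod_union]
    congr 1
    ext x
    simp only [mem_union, mem_Ioo]
    constructor
    · intro h
      rcases lt_or_ge x (1 / 2) with h2 | h2
      · left; exact ⟨h.1, h2⟩
      · right; exact ⟨by linarith, h.2⟩
    · rintro (h | h)
      · exact ⟨h.1, by linarith [h.2]⟩
      · exact ⟨by linarith [h.1], h.2⟩
  have hinner : ∀ s ∈ Ioo 0 s1, ∀ x ∈ Ico (0 : ℝ) (3 / 16), resid (gW g χ a M) s x = 0 := by
    intro t ht x hx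
    have hp : (t, x) ∈ gU1 g s1 :=
      ⟨mem_Ug hg ht.1 hx.1 (lt_trans hx.2 (by norm_num)), ht, hx.2⟩
    rw [resid_congr (isOpen_gU1 hg) eI (t, x) hp]
    exact resid_win hg ht.1 hx.1 (lt_trans hx.2 (by norm_num))
  have hR3 : Ord s1 (Ioo (1 / 4) 2) M (resid (gW g χ a M)) := by
    refine (hR.mono_dom h1s.le (Ioo_subset_Ioo (by norm_num) le_rfl)).congr isOpen_Ioo ?_
    intro p hp
    exact (resid_congr (isOpen_Ioo.prod isOpen_Ioo) eO p hp).symm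
  refine ⟨?_, ?_, ?_, hinner, ?_, ?_⟩
  · rw [gU_eq, hcov]
    exact ContDiffOn.union_of_isOpen sm1
      (ContDiffOn.union_of_isOpen z1 sm3 (isOpen_Ioo.prod isOpen_Ioo) (isOpen_Ioo.prod isOpen_Ioo))
      (isOpen_gU1 hg) ((isOpen_Ioo.prod isOpen_Ioo).union (isOpen_Ioo.prod isOpen_Ioo))
  · intro p hp
    rw [gU_eq, hcov] at hp
    rcases hp with hp | hp | hp
    · have h2 := Pw_win_pos hg hp.1
      simp only [Pw] at h2 ⊢
      rw [eI p hp]; exact h2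
    · exact z2 p hp
    · have h2 := hP p.1 ⟨by linarith [hp.1.1], hp.1.2.trans h1s⟩ p.2
      simp only [Pw] at h2 ⊢
      rw [eO p hp]
      exact hc1.trans_le h2
  · intro p _ hp
    exact gW_inner h1 a M hp.le
  · intro t ht
    have hp : (t, (0 : ℝ)) ∈ gU1 g s1 :=
      ⟨mem_Ug hg ht.1 le_rfl (by norm_num), ht, by simp only [mem_Iio]; norm_num⟩
    rw [Sop_congr (isOpen_gU1 hg) eI (t, 0) hp]
    exact Sop_win_zero hg ht.1
  · intro j hj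
    have hMj : M - j + j = M := by omega
    have q2 : Ord s1 (Ioo (1 / 8) (1 / 2)) (M - j) (dt^[j] (resid (gW g χ a M))) :=
      Ord.iter_dt isOpen_Ioo j (by rw [hMj]; exact z3)
    have q3 : Ord s1 (Ioo (1 / 4) 2) (M - j) (dt^[j] (resid (gW g χ a M))) :=
      Ord.iter_dt isOpen_Ioo j (by rw [hMj]; exact hR3)
    obtain ⟨C2, hC2, b2⟩ := q2.bd 0
    obtain ⟨C3, hC3, b3⟩ := q3.bd 0
    refine ⟨C2 + C3, fun t ht x hx => ?_⟩
    have htp : 0 ≤ t ^ (M - j) := pow_nonneg ht.1.le _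
    have e2 : 0 ≤ C2 * t ^ (M - j) := mul_nonneg hC2 htp
    have e3 : 0 ≤ C3 * t ^ (M - j) := mul_nonneg hC3 htp
    rcases lt_or_ge x (3 / 16) with h | h
    · rw [iter_dt_zero' (fun r hr => hinner r hr x ⟨hx.1, h⟩) j t ht, abs_zero, add_mul]
      exact add_nonneg e2 e3
    · rcases lt_or_ge x (1 / 2) with h' | h'
      · have := b2 t ht x ⟨by linarith, h'⟩
        rw [add_mul]; linarith
      · have := b3 t ht x ⟨by linarith, by linarith [hx.2]⟩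
        rw [add_mul]; linarith

end Crest.Agent.R213.D
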