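import Crest.Agent.R213.D.DDefs

/-!
# Row 213, part D, D1b: bounds for the self-similar profile (helper690)
-/

set_option autoImplicit false

open Set MeasureTheory Filter Topology

noncomputable section

namespace Crest.Agent.R213.D

variable {c A : ℝ} {g gh : ℝ → ℝ}

/-- all derivatives from a chain of `HasDerivAt`s on an open set -/
theorem iteratedDeriv_chain {U : Set ℝ} (hU : IsOpen U) {u : ℝ → ℝ} {F : ℕ → ℝ → ℝ}
    (h0 : ∀ r ∈ U, u r = F 0 r) (h : ∀ j, ∀ r ∈ U, HasDerivAt (F j) (F (j + 1) r) r) (j : ℕ) :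
    ∀ r ∈ U, iteratedDeriv j u r = F j r := by
  induction j with
  | zero => intro r hr; rw [iteratedDeriv_zero]; exact h0 r hr
  | succ j ih =>
    intro r hr
    rw [iteratedDeriv_succ]
    have : iteratedDeriv j u =ᶠ[𝓝 r] F j := by
      filter_upwards [hU.mem_nhds hr] with z hz using ih z hz
    rw [this.deriv_eq]
    exact (h j r hr).deriv

theorem gh_pos' (hg : Soliton c A g gh) {z : ℝ} (hz : 0 ≤ z) : 0 < gh z := by
  rcases hz.eq_or_lt with h | h
  · rw [← h, hg.gh_zero]; exact hg.c_pos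
  · have hs : 0 < √z := Real.sqrt_pos.2 h
    have h1 := hg.link (1 / √z) (by positivity)
    have h2 : 1 / (1 / √z) ^ 2 = z := by
      rw [div_pow, one_pow, Real.sq_sqrt h.le, one_div_one_div]
    rw [h2] at h1
    rw [← h1]
    exact hg.pos _ (by positivity)

/-- a continuous function on `[0,1]` is bounded -/
theorem bdd_Icc {F : ℝ → ℝ} (hF : ContinuousOn F (Icc 0 1)) :
    ∃ C : ℝ, 0 ≤ C ∧ ∀ y ∈ Icc (0 : ℝ) 1, |F y| ≤ C := by
  obtain ⟨C, hC⟩ := isCompact_Icc.exists_bound_of_continuousOn hF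
  refine ⟨C, (norm_nonneg _).trans (hC 0 ⟨le_rfl, zero_le_one⟩), fun y hy => ?_⟩
  rw [← Real.norm_eq_abs]
  exact hC y hy

theorem low_Icc {F : ℝ → ℝ} (hF : ContinuousOn F (Icc 0 1)) (hp : ∀ y ∈ Icc (0 : ℝ) 1, 0 < F y) :
    ∃ m : ℝ, 0 < m ∧ ∀ y ∈ Icc (0 : ℝ) 1, m ≤ F y := by
  obtain ⟨y0, hy0, hmin⟩ := isCompact_Icc.exists_isMinOn ⟨0, ⟨le_rfl, zero_le_one⟩⟩ hF
  exact ⟨F y0, hp y0 hy0, fun y hy => hmin hy⟩

theorem prof_exists (hg : Soliton c A g gh) : ∃ c0 C0 : ℝ, Prof c0 C0 g := by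
  have hgc : Continuous g := hg.smooth.continuous
  have hghc : ContinuousOn gh (Ici 0) := hg.smooth_inf.continuousOn
  have hsub : Icc (0 : ℝ) 1 ⊆ Ici 0 := fun y hy => hy.1
  have hdg : Continuous (deriv g) := hg.smooth.continuous_deriv (by simp)
  have hud : UniqueDiffOn ℝ (Ici (0 : ℝ)) := uniqueDiffOn_Ici 0
  have hdgh : ContinuousOn (derivWithin gh (Ici 0)) (Ici 0) :=
    hg.smooth_inf.continuousOn_derivWithin hud (by simp)
  obtain ⟨m1, hm1, hm1'⟩ := low_Icc hgc.continuousOn fun y hy => hg.pos y hy.1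
  obtain ⟨m2, hm2, hm2'⟩ := low_Icc (hghc.mono hsub) fun y hy => gh_pos' hg hy.1
  obtain ⟨B1, hB1, hB1'⟩ := bdd_Icc hgc.continuousOn
  obtain ⟨B2, hB2, hB2'⟩ := bdd_Icc (hghc.mono hsub)
  obtain ⟨B3, hB3, hB3'⟩ := bdd_Icc hdg.continuousOn
  obtain ⟨B4, hB4, hB4'⟩ := bdd_Icc (hdgh.mono hsub)
  have hz : ∀ y : ℝ, 1 ≤ y → 1 / y ^ 2 ∈ Icc (0 : ℝ) 1 := by
    intro y hy
    refine ⟨by positivity, ?_⟩
    rw [div_le_one (by positivity)]
    exact one_le_pow₀ hy
  refine ⟨min m1 m2, B1 + B2 + B3 + 2 * B4, ⟨lt_min hm1 hm2, hg.smooth, ?_, ?_, ?_⟩⟩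
  · intro y hy
    rcases le_total y 1 with h | h
    · exact (min_le_left _ _).trans (hm1' y ⟨hy, h⟩)
    · rw [hg.link y (by linarith)]
      exact (min_le_right _ _).trans (hm2' _ (hz y h))
  · intro y hy
    rcases le_total y 1 with h | h
    · have := (abs_le.1 (hB1' y ⟨hy, h⟩)).2
      linarith
    · rw [hg.link y (by linarith)]
      have := (abs_le.1 (hB2' _ (hz y h))).2
      linarith
  · intro y hy
    have hd : HasDerivAt g (deriv g y) y :=
      (hg.smooth.differentiable (by simp) y).hasDerivAt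
    have e1 : deriv (fun z => z * g z) y = g y + y * deriv g y := by
      have e0 : HasDerivAt (fun z => z * g z) (1 * g y + y * deriv g y) y :=
        (hasDerivAt_id y).mul hd
      rw [e0.deriv, one_mul]
    rw [e1]
    refine (abs_add_le _ _).trans ?_
    rw [abs_mul, abs_of_nonneg hy]
    rcases le_total y 1 with h | h
    · have h1 := hB1' y ⟨hy, h⟩
      have h2 := hB3' y ⟨hy, h⟩
      have h3 : y * |deriv g y| ≤ 1 * B3 := mul_le_mul h h2 (abs_nonneg _) zero_le_one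
      linarith
    · have hy0 : 0 < y := by linarith
      have h1 := hB2' _ (hz y h)
      have h2 := hB4' _ (hz y h)
      rw [← hg.link y hy0] at h1
      -- derivative of `g` through `gh`
      have hzp : 0 < 1 / y ^ 2 := by positivity
      have h3 : HasDerivAt gh (derivWithin gh (Ici 0) (1 / y ^ 2)) (1 / y ^ 2) :=
        ((hg.smooth_inf.differentiableOn (by simp) (1 / y ^ 2) hzp.le).hasDerivWithinAt).hasDerivAt
          (Ici_mem_nhds hzp)
      have h4 : HasDerivAt (fun z : ℝ => 1 / z ^ 2) (-2 / y ^ 3) y := by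
        have h5 := ((hasDerivAt_pow 2 y).inv (by positivity))
        have e2 : (fun z : ℝ => 1 / z ^ 2) = fun z => (z ^ 2)⁻¹ := by
          funext z; rw [one_div]
        rw [e2]
        refine h5.congr_deriv ?_
        field_simp
        norm_num
        ring
      have h5 : HasDerivAt g (derivWithin gh (Ici 0) (1 / y ^ 2) * (-2 / y ^ 3)) y := by
        refine (h3.comp y h4).congr_of_eventuallyEq ?_
        filter_upwards [lt_mem_nhds hy0] with z hz' using hg.link z hz'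
      rw [h5.deriv]
      have h6 : y * |derivWithin gh (Ici 0) (1 / y ^ 2) * (-2 / y ^ 3)| =
          |derivWithin gh (Ici 0) (1 / y ^ 2)| * (2 / y ^ 2) := by
        rw [abs_mul, abs_div, abs_neg, abs_of_pos (two_pos : (0 : ℝ) < 2),
          abs_of_pos (pow_pos hy0 3)]
        field_simp
      rw [h6]
      have h7 : 2 / y ^ 2 ≤ 2 := by
        rw [div_le_iff₀ (by positivity)]
        have := one_le_pow₀ (n := 2) h
        linarith
      have h8 : |derivWithin gh (Ici 0) (1 / y ^ 2)| * (2 / y ^ 2) ≤ B4 * 2 :=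
        mul_le_mul h2 h7 (by positivity) hB4
      linarith

/-- `F_0 = g`, `F_{j+1} = -j F_j - (y/2) F_j'` -/
def Fin_ (g : ℝ → ℝ) : ℕ → ℝ → ℝ
  | 0 => g
  | j + 1 => fun y => -(j : ℝ) * Fin_ g j y - y / 2 * deriv (Fin_ g j) y

theorem Fin_smooth (hg : ContDiff ℝ (⊤ : ℕ∞) g) (j : ℕ) : ContDiff ℝ (⊤ : ℕ∞) (Fin_ g j) := by
  induction j with
  | zero => exact hg
  | succ j ih =>
    have h1 : ContDiff ℝ (⊤ : ℕ∞) (deriv (Fin_ g j)) := (contDiff_infty_iff_deriv.1 ih).2
    unfold Fin_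
    exact (contDiff_const.mul ih).sub ((contDiff_id.div_const 2).mul h1)

theorem hasDerivAt_div_sqrt (x : ℝ) {s : ℝ} (hs : 0 < s) :
    HasDerivAt (fun r => x / √r) (-(x / √s) / (2 * s)) s := by
  have h1 := ((Real.hasDerivAt_sqrt hs.ne').inv (Real.sqrt_pos.2 hs).ne').const_mul x
  have e : (fun r => x / √r) = fun r => x * (√r)⁻¹ := by
    funext r; rw [div_eq_mul_inv]
  rw [e]
  refine h1.congr_deriv ?_
  have h2 : √s ^ 2 = s := Real.sq_sqrt hs.le
  have h3 : √s ≠ 0 := (Real.sqrt_pos.2 hs).ne'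
  rw [h2]
  field_simp

theorem inner_iter (hg : ContDiff ℝ (⊤ : ℕ∞) g) (x : ℝ) (j : ℕ) {s : ℝ} (hs : 0 < s) :
    iteratedDeriv j (fun r => g (x / √r)) s = s⁻¹ ^ j * Fin_ g j (x / √s) := by
  refine iteratedDeriv_chain (U := Ioi 0) isOpen_Ioi (F := fun j s => s⁻¹ ^ j * Fin_ g j (x / √s))
    ?_ ?_ j s hs
  · intro r _
    simp [Fin_]
  · intro j r hr
    have hr : 0 < r := hr
    have h1 : HasDerivAt (Fin_ g j) (deriv (Fin_ g j) (x / √r)) (x / √r) :=
      ((Fin_smooth hg j).differentiable (by simp) _).hasDerivAt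
    have h2 := h1.comp r (hasDerivAt_div_sqrt x hr)
    have h3 := ((hasDerivAt_inv hr.ne').pow j).mul h2
    refine h3.congr_deriv ?_
    simp only [Fin_, Function.comp, Pi.pow_apply]
    rcases j with _ | j
    · simp
      field_simp
    · rw [Nat.add_sub_cancel]
      push_cast
      have hr' := hr.ne'
      have a1 : (r ^ 2)⁻¹ = r⁻¹ ^ 2 := (inv_pow r 2).symm
      have a2 : -(x / √r) / (2 * r) = -(x / √r) / 2 * r⁻¹ := by
        rw [div_mul_eq_div_div, div_eq_mul_inv _ r]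
      rw [a1, a2]
      ring

/-- derivatives of `gh (r / x²)` -/
theorem outer_iter (hgh : ContDiffOn ℝ (⊤ : ℕ∞) gh (Ici 0)) {x : ℝ} (hx : 0 < x) (j : ℕ) {s : ℝ}
    (hs : 0 < s) : iteratedDeriv j (fun r => gh (r / x ^ 2)) s =
      (x ^ 2)⁻¹ ^ j * iteratedDerivWithin j gh (Ici 0) (s / x ^ 2) := by
  refine iteratedDeriv_chain (U := Ioi 0) isOpen_Ioi
    (F := fun j s => (x ^ 2)⁻¹ ^ j * iteratedDerivWithin j gh (Ici 0) (s / x ^ 2)) ?_ ?_ j s hs
  · intro r _
    simp
  · intro j r hr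
    have hr : 0 < r := hr
    have hz : 0 < r / x ^ 2 := by positivity
    have hud : UniqueDiffOn ℝ (Ici (0 : ℝ)) := uniqueDiffOn_Ici 0
    have h1 : HasDerivAt (iteratedDerivWithin j gh (Ici 0))
        (iteratedDerivWithin (j + 1) gh (Ici 0) (r / x ^ 2)) (r / x ^ 2) := by
      rw [iteratedDerivWithin_succ]
      exact ((hgh.differentiableOn_iteratedDerivWithin (m := j)
        (WithTop.coe_lt_coe.2 (ENat.natCast_lt_top j)) hud
        (r / x ^ 2) hz.le).hasDerivWithinAt).hasDerivAt (Ici_mem_nhds hz)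
    have h2 : HasDerivAt (fun r : ℝ => r / x ^ 2) ((x ^ 2)⁻¹) r := by
      have := (hasDerivAt_id r).div_const (x ^ 2)
      simpa using this
    have h3 := (h1.comp r h2).const_mul ((x ^ 2)⁻¹ ^ j)
    refine h3.congr_deriv ?_
    rw [pow_succ]
    ring

theorem inner_dt_bd (hg : Soliton c A g gh) (J : ℕ) : ∃ C : ℝ, ∀ j ≤ J, ∀ s : ℝ, 0 < s →
    ∀ x : ℝ, 0 ≤ x → (x ^ 2 + s) ^ j * |iteratedDeriv j (fun r => g (x / √r)) s| ≤ C := by
  have hsub : Icc (0 : ℝ) 1 ⊆ Ici 0 := fun y hy => hy.1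
  have hud : UniqueDiffOn ℝ (Ici (0 : ℝ)) := uniqueDiffOn_Ici 0
  have key : ∀ j : ℕ, ∃ C : ℝ, 0 ≤ C ∧ ∀ s : ℝ, 0 < s →
      ∀ x : ℝ, 0 ≤ x → (x ^ 2 + s) ^ j * |iteratedDeriv j (fun r => g (x / √r)) s| ≤ C := by
    intro j
    obtain ⟨C1, hC1, hC1'⟩ := bdd_Icc (Fin_smooth hg.smooth j).continuous.continuousOn
    obtain ⟨C2, hC2, hC2'⟩ := bdd_Icc
      ((hg.smooth_inf.continuousOn_iteratedDerivWithin (m := j) (by exact_mod_cast le_top)
        hud).mono hsub)
    refine ⟨2 ^ j * (C1 + C2), by positivity, fun s hs x hx => ?_⟩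
    rcases le_total (x ^ 2) s with h | h
    · rw [inner_iter hg.smooth x j hs]
      have hy : x / √s ∈ Icc (0 : ℝ) 1 := by
        refine ⟨by positivity, ?_⟩
        rw [div_le_one (Real.sqrt_pos.2 hs)]
        exact Real.le_sqrt_of_sq_le h
      have h1 := hC1' _ hy
      rw [abs_mul, abs_of_nonneg (by positivity : 0 ≤ s⁻¹ ^ j), ← mul_assoc, ← mul_pow]
      have h2 : ((x ^ 2 + s) * s⁻¹) ^ j ≤ 2 ^ j := by
        apply pow_le_pow_left₀ (by positivity)
        rw [← div_eq_mul_inv, div_le_iff₀ hs]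
        linarith
      calc _ ≤ 2 ^ j * C1 := mul_le_mul h2 h1 (abs_nonneg _) (by positivity)
        _ ≤ _ := by
          apply mul_le_mul_of_nonneg_left _ (by positivity)
          linarith
    · have hx0 : 0 < x := by
        rcases hx.eq_or_lt with h' | h'
        · exfalso; rw [← h'] at h; norm_num at h; linarith
        · exact h'
      have e : iteratedDeriv j (fun r => g (x / √r)) s =
          iteratedDeriv j (fun r => gh (r / x ^ 2)) s := by
        have : (fun r => g (x / √r)) =ᶠ[𝓝 s] fun r => gh (r / x ^ 2) := by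
          filter_upwards [lt_mem_nhds hs] with r hr
          have hr' : 0 < √r := Real.sqrt_pos.2 hr
          rw [hg.link (x / √r) (by positivity)]
          congr 1
          rw [div_pow, Real.sq_sqrt hr.le, one_div_div]
        exact this.iteratedDeriv_eq j
      rw [e, outer_iter hg.smooth_inf hx0 j hs]
      have hz : s / x ^ 2 ∈ Icc (0 : ℝ) 1 := by
        refine ⟨by positivity, ?_⟩
        rw [div_le_one (by positivity)]
        exact h
      have h1 := hC2' _ hz
      rw [abs_mul, abs_of_nonneg (by positivity : 0 ≤ (x ^ 2)⁻¹ ^ j), ← mul_assoc, ← mul_pow]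
      have h2 : ((x ^ 2 + s) * (x ^ 2)⁻¹) ^ j ≤ 2 ^ j := by
        apply pow_le_pow_left₀ (by positivity)
        rw [← div_eq_mul_inv, div_le_iff₀ (by positivity)]
        linarith
      calc _ ≤ 2 ^ j * C2 := mul_le_mul h2 h1 (abs_nonneg _) (by positivity)
        _ ≤ _ := by
          apply mul_le_mul_of_nonneg_left _ (by positivity)
          linarith
  choose C hC hC' using key
  refine ⟨∑ j ∈ Finset.range (J + 1), C j, fun j hj s hs x hx => (hC' j s hs x hx).trans ?_⟩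
  exact Finset.single_le_sum (f := C) (fun i _ => hC i) (Finset.mem_range.2 (by omega))

end Crest.Agent.R213.D
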