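import Crest.Agent.R213.Defs

/-!
# Row 213, part D: the classes `Ord s I M`

`F ∈ Ord s I M` : `F` is smooth on the open set `(0,s) × I` and every word in the two derivations
`X1 = t ∂_t`, `X2 = ∂_x` applied to `F` is `≤ C t^M` there.
-/

set_option autoImplicit false

open Set Filter Topology

noncomputable section

namespace Crest.Agent.R213.D

/-- `∂_x` (two-sided derivative; used on open sets only). -/
def dX (F : ℝ → ℝ → ℝ) : ℝ → ℝ → ℝ := fun t x => deriv (fun y => F t y) x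

/-- `t ∂_t` -/
def X1 (F : ℝ → ℝ → ℝ) : ℝ → ℝ → ℝ := fun t x => t * dt F t x

/-- smooth on `U ⊆ ℝ × ℝ`. -/
def SmU (U : Set (ℝ × ℝ)) (F : ℝ → ℝ → ℝ) : Prop :=
  ContDiffOn ℝ (⊤ : ℕ∞) (fun p : ℝ × ℝ => F p.1 p.2) U

section smooth

variable {U : Set (ℝ × ℝ)} {F G : ℝ → ℝ → ℝ}

lemma SmU.mono {V : Set (ℝ × ℝ)} (h : SmU U F) (hVU : V ⊆ U) : SmU V F := ContDiffOn.mono h hVU

lemma SmU.congr (h : SmU U F) (hFG : ∀ p ∈ U, G p.1 p.2 = F p.1 p.2) : SmU U G :=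
  ContDiffOn.congr h hFG

lemma SmU.contDiffAt (h : SmU U F) (hU : IsOpen U) {p : ℝ × ℝ} (hp : p ∈ U) :
    ContDiffAt ℝ (⊤ : ℕ∞) (fun p : ℝ × ℝ => F p.1 p.2) p :=
  ContDiffOn.contDiffAt h (hU.mem_nhds hp)

lemma SmU.differentiableAt (h : SmU U F) (hU : IsOpen U) {p : ℝ × ℝ} (hp : p ∈ U) :
    DifferentiableAt ℝ (fun p : ℝ × ℝ => F p.1 p.2) p :=
  (h.contDiffAt hU hp).differentiableAt (by simp)

lemma SmU.hasDerivAt_dt (h : SmU U F) (hU : IsOpen U) {t x : ℝ} (hp : (t, x) ∈ U) :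
    HasDerivAt (fun r => F r x) (fderiv ℝ (fun p : ℝ × ℝ => F p.1 p.2) (t, x) (1, 0)) t := by
  have h1 := (h.differentiableAt hU hp).hasFDerivAt
  have h2 : HasDerivAt (fun r : ℝ => (r, x)) ((1 : ℝ), (0 : ℝ)) t :=
    (hasDerivAt_id t).prodMk (hasDerivAt_const t x)
  exact h1.comp_hasDerivAt t h2

lemma SmU.hasDerivAt_dX (h : SmU U F) (hU : IsOpen U) {t x : ℝ} (hp : (t, x) ∈ U) :
    HasDerivAt (fun y => F t y) (fderiv ℝ (fun p : ℝ × ℝ => F p.1 p.2) (t, x) (0, 1)) x := by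
  have h1 := (h.differentiableAt hU hp).hasFDerivAt
  have h2 : HasDerivAt (fun y : ℝ => (t, y)) ((0 : ℝ), (1 : ℝ)) x :=
    (hasDerivAt_const x t).prodMk (hasDerivAt_id x)
  exact h1.comp_hasDerivAt x h2

lemma SmU.dt_eq (h : SmU U F) (hU : IsOpen U) {t x : ℝ} (hp : (t, x) ∈ U) :
    dt F t x = fderiv ℝ (fun p : ℝ × ℝ => F p.1 p.2) (t, x) (1, 0) :=
  (h.hasDerivAt_dt hU hp).deriv

lemma SmU.dX_eq (h : SmU U F) (hU : IsOpen U) {t x : ℝ} (hp : (t, x) ∈ U) :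
    dX F t x = fderiv ℝ (fun p : ℝ × ℝ => F p.1 p.2) (t, x) (0, 1) :=
  (h.hasDerivAt_dX hU hp).deriv

lemma SmU.hdt (h : SmU U F) (hU : IsOpen U) {t x : ℝ} (hp : (t, x) ∈ U) :
    HasDerivAt (fun r => F r x) (dt F t x) t := by
  rw [h.dt_eq hU hp]; exact h.hasDerivAt_dt hU hp

lemma SmU.hdX (h : SmU U F) (hU : IsOpen U) {t x : ℝ} (hp : (t, x) ∈ U) :
    HasDerivAt (fun y => F t y) (dX F t x) x := by
  rw [h.dX_eq hU hp]; exact h.hasDerivAt_dX hU hp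

lemma SmU.fderiv_apply (h : SmU U F) (hU : IsOpen U) (v : ℝ × ℝ) :
    ContDiffOn ℝ (⊤ : ℕ∞) (fun p => fderiv ℝ (fun p : ℝ × ℝ => F p.1 p.2) p v) U := by
  have h1 : ContDiffOn ℝ (⊤ : ℕ∞) (fderiv ℝ (fun p : ℝ × ℝ => F p.1 p.2)) U :=
    ContDiffOn.fderiv_of_isOpen h hU (by simp)
  exact h1.clm_apply contDiffOn_const

lemma SmU.dt (h : SmU U F) (hU : IsOpen U) : SmU U (dt F) :=
  (h.fderiv_apply hU (1, 0)).congr fun p hp => h.dt_eq hU (t := p.1) (x := p.2) hp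

lemma SmU.dX (h : SmU U F) (hU : IsOpen U) : SmU U (dX F) :=
  (h.fderiv_apply hU (0, 1)).congr fun p hp => h.dX_eq hU (t := p.1) (x := p.2) hp

lemma SmU.add (hF : SmU U F) (hG : SmU U G) : SmU U (fun t x => F t x + G t x) :=
  ContDiffOn.add hF hG

lemma SmU.sub (hF : SmU U F) (hG : SmU U G) : SmU U (fun t x => F t x - G t x) :=
  ContDiffOn.sub hF hG

lemma SmU.neg (hF : SmU U F) : SmU U (fun t x => - F t x) := ContDiffOn.neg hF

lemma SmU.mul (hF : SmU U F) (hG : SmU U G) : SmU U (fun t x => F t x * G t x) :=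
  ContDiffOn.mul hF hG

lemma SmU.inv (hF : SmU U F) (h0 : ∀ p ∈ U, F p.1 p.2 ≠ 0) : SmU U (fun t x => (F t x)⁻¹) :=
  ContDiffOn.inv hF h0

lemma smU_const (c : ℝ) : SmU U (fun _ _ => c) := contDiffOn_const

lemma smU_t : SmU U (fun t _ => t) := contDiff_fst.contDiffOn

lemma smU_x : SmU U (fun _ x => x) := contDiff_snd.contDiffOn

lemma smU_tpow (k : ℕ) : SmU U (fun t _ => t ^ k) := (contDiff_fst.pow k).contDiffOn

lemma smU_of_x {f : ℝ → ℝ} (hf : ContDiff ℝ (⊤ : ℕ∞) f) : SmU U (fun _ x => f x) :=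
  (hf.comp contDiff_snd).contDiffOn

lemma SmU.X1 (h : SmU U F) (hU : IsOpen U) : SmU U (X1 F) := smU_t.mul (h.dt hU)

/-- mixed partial derivatives commute. -/
lemma dt_dX_comm (h : SmU U F) (hU : IsOpen U) {t x : ℝ} (hp : (t, x) ∈ U) :
    dt (D.dX F) t x = D.dX (R213.dt F) t x := by
  set f : ℝ × ℝ → ℝ := fun p => F p.1 p.2 with hf
  have hc : ContDiffAt ℝ (⊤ : ℕ∞) f (t, x) := h.contDiffAt hU hp
  have hfd : DifferentiableAt ℝ (fderiv ℝ f) (t, x) := by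
    have h1 : ContDiffOn ℝ (⊤ : ℕ∞) (fderiv ℝ f) U := ContDiffOn.fderiv_of_isOpen h hU (by simp)
    exact (h1.contDiffAt (hU.mem_nhds hp)).differentiableAt (by simp)
  have e1 : dt (D.dX F) t x = fderiv ℝ (fderiv ℝ f) (t, x) (1, 0) (0, 1) := by
    rw [(h.dX hU).dt_eq hU hp]
    have : (fun p : ℝ × ℝ => D.dX F p.1 p.2) =ᶠ[𝓝 (t, x)] fun p => fderiv ℝ f p (0, 1) := by
      filter_upwards [hU.mem_nhds hp] with p hp'
      exact h.dX_eq hU (t := p.1) (x := p.2) hp'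
    rw [this.fderiv_eq]
    rw [fderiv_clm_apply hfd (differentiableAt_const _)]
    simp
  have e2 : D.dX (R213.dt F) t x = fderiv ℝ (fderiv ℝ f) (t, x) (0, 1) (1, 0) := by
    rw [(h.dt hU).dX_eq hU hp]
    have : (fun p : ℝ × ℝ => R213.dt F p.1 p.2) =ᶠ[𝓝 (t, x)] fun p => fderiv ℝ f p (1, 0) := by
      filter_upwards [hU.mem_nhds hp] with p hp'
      exact h.dt_eq hU (t := p.1) (x := p.2) hp'
    rw [this.fderiv_eq]
    rw [fderiv_clm_apply hfd (differentiableAt_const _)]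
    simp
  rw [e1, e2]
  have hs : IsSymmSndFDerivAt ℝ f (t, x) :=
    hc.isSymmSndFDerivAt (by
      simp only [minSmoothness_of_isRCLikeNormedField]
      exact WithTop.coe_le_coe.2 (le_top : (2 : ℕ∞) ≤ ⊤))
  exact hs.eq _ _

end smooth

/-! ### algebra of `dt`, `dX` -/

section alg

variable {U : Set (ℝ × ℝ)} {F G : ℝ → ℝ → ℝ} {t x : ℝ}

lemma dt_add (hF : SmU U F) (hG : SmU U G) (hU : IsOpen U) (hp : (t, x) ∈ U) :
    dt (fun t x => F t x + G t x) t x = dt F t x + dt G t x :=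
  ((hF.hdt hU hp).add (hG.hdt hU hp)).deriv

lemma dX_add (hF : SmU U F) (hG : SmU U G) (hU : IsOpen U) (hp : (t, x) ∈ U) :
    dX (fun t x => F t x + G t x) t x = dX F t x + dX G t x :=
  ((hF.hdX hU hp).add (hG.hdX hU hp)).deriv

lemma dt_sub (hF : SmU U F) (hG : SmU U G) (hU : IsOpen U) (hp : (t, x) ∈ U) :
    dt (fun t x => F t x - G t x) t x = dt F t x - dt G t x :=
  ((hF.hdt hU hp).sub (hG.hdt hU hp)).deriv

lemma dX_sub (hF : SmU U F) (hG : SmU U G) (hU : IsOpen U) (hp : (t, x) ∈ U) :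
    dX (fun t x => F t x - G t x) t x = dX F t x - dX G t x :=
  ((hF.hdX hU hp).sub (hG.hdX hU hp)).deriv

lemma dt_neg (hF : SmU U F) (hU : IsOpen U) (hp : (t, x) ∈ U) :
    dt (fun t x => - F t x) t x = - dt F t x :=
  ((hF.hdt hU hp).neg).deriv

lemma dX_neg (hF : SmU U F) (hU : IsOpen U) (hp : (t, x) ∈ U) :
    dX (fun t x => - F t x) t x = - dX F t x :=
  ((hF.hdX hU hp).neg).deriv

lemma dt_mul (hF : SmU U F) (hG : SmU U G) (hU : IsOpen U) (hp : (t, x) ∈ U) :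
    dt (fun t x => F t x * G t x) t x = dt F t x * G t x + F t x * dt G t x :=
  ((hF.hdt hU hp).mul (hG.hdt hU hp)).deriv

lemma dX_mul (hF : SmU U F) (hG : SmU U G) (hU : IsOpen U) (hp : (t, x) ∈ U) :
    dX (fun t x => F t x * G t x) t x = dX F t x * G t x + F t x * dX G t x :=
  ((hF.hdX hU hp).mul (hG.hdX hU hp)).deriv

lemma dt_inv (hF : SmU U F) (hU : IsOpen U) (hp : (t, x) ∈ U) (h0 : F t x ≠ 0) :
    dt (fun t x => (F t x)⁻¹) t x = - (dt F t x * ((F t x)⁻¹ * (F t x)⁻¹)) := by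
  have h1 := ((hF.hdt hU hp).inv h0).deriv
  have h2 : dt (fun t x => (F t x)⁻¹) t x = - dt F t x / F t x ^ 2 := h1
  rw [h2]; field_simp

lemma dX_inv (hF : SmU U F) (hU : IsOpen U) (hp : (t, x) ∈ U) (h0 : F t x ≠ 0) :
    dX (fun t x => (F t x)⁻¹) t x = - (dX F t x * ((F t x)⁻¹ * (F t x)⁻¹)) := by
  have h1 := ((hF.hdX hU hp).inv h0).deriv
  have h2 : dX (fun t x => (F t x)⁻¹) t x = - dX F t x / F t x ^ 2 := h1
  rw [h2]; field_simp

lemma dt_congr (hU : IsOpen U) (hFG : ∀ p ∈ U, F p.1 p.2 = G p.1 p.2) (hp : (t, x) ∈ U) :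
    dt F t x = dt G t x := by
  have hev : (fun r => F r x) =ᶠ[𝓝 t] fun r => G r x := by
    have hc : Continuous fun r : ℝ => (r, x) := by fun_prop
    filter_upwards [(hU.preimage hc).mem_nhds hp] with r hr
    exact hFG (r, x) hr
  exact hev.deriv_eq

lemma dX_congr (hU : IsOpen U) (hFG : ∀ p ∈ U, F p.1 p.2 = G p.1 p.2) (hp : (t, x) ∈ U) :
    dX F t x = dX G t x := by
  have hev : (fun y => F t y) =ᶠ[𝓝 x] fun y => G t y := by
    have hc : Continuous fun y : ℝ => (t, y) := by fun_prop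
    filter_upwards [(hU.preimage hc).mem_nhds hp] with r hr
    exact hFG (t, r) hr
  exact hev.deriv_eq

end alg

/-! ### the classes -/

/-- sup bound on `(0,s) × I`. -/
def Bd (s : ℝ) (I : Set ℝ) (M : ℕ) (F : ℝ → ℝ → ℝ) : Prop :=
  ∃ C : ℝ, 0 ≤ C ∧ ∀ t ∈ Ioo 0 s, ∀ x ∈ I, |F t x| ≤ C * t ^ M

/-- words of length `≤ n`. -/
def OrdN (s : ℝ) (I : Set ℝ) (M : ℕ) : ℕ → (ℝ → ℝ → ℝ) → Prop
  | 0, F => Bd s I M F
  | n + 1, F => Bd s I M F ∧ OrdN s I M n (X1 F) ∧ OrdN s I M n (dX F)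

/-- the class `𝒪(M)` on `(0,s) × I`. -/
structure Ord (s : ℝ) (I : Set ℝ) (M : ℕ) (F : ℝ → ℝ → ℝ) : Prop where
  sm : SmU (Ioo 0 s ×ˢ I) F
  bd : ∀ n, OrdN s I M n F

section ord

variable {s : ℝ} {I : Set ℝ} {M N n : ℕ} {F G : ℝ → ℝ → ℝ}

lemma isOpen_dom (hI : IsOpen I) : IsOpen (Ioo 0 s ×ˢ I) := isOpen_Ioo.prod hI

lemma Bd.congr (h : Bd s I M F) (hFG : ∀ p ∈ Ioo 0 s ×ˢ I, F p.1 p.2 = G p.1 p.2) :
    Bd s I M G := by
  obtain ⟨C, hC, h⟩ := h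
  refine ⟨C, hC, fun t ht x hx => ?_⟩
  rw [← hFG (t, x) ⟨ht, hx⟩]
  exact h t ht x hx

lemma OrdN.bd0 (h : OrdN s I M n F) : Bd s I M F := by
  cases n with
  | zero => exact h
  | succ n => exact h.1

lemma OrdN.congr (hI : IsOpen I) : ∀ {n : ℕ} {F G : ℝ → ℝ → ℝ}, OrdN s I M n F →
    (∀ p ∈ Ioo 0 s ×ˢ I, F p.1 p.2 = G p.1 p.2) → OrdN s I M n G
  | 0, _, _, h, hFG => Bd.congr h hFG
  | n + 1, F, G, h, hFG => by
    refine ⟨Bd.congr h.1 hFG, OrdN.congr hI h.2.1 ?_, OrdN.congr hI h.2.2 ?_⟩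
    · rintro ⟨t, x⟩ hp
      simp only [X1]
      rw [dt_congr (isOpen_dom hI) hFG hp]
    · rintro ⟨t, x⟩ hp
      exact dX_congr (isOpen_dom hI) hFG hp

lemma OrdN.le {n m : ℕ} (h : OrdN s I M n F) (hm : m ≤ n) : OrdN s I M m F := by
  induction n generalizing m F with
  | zero => obtain rfl : m = 0 := by omega
            exact h
  | succ n ih =>
    cases m with
    | zero => exact h.1
    | succ m => exact ⟨h.1, ih h.2.1 (by omega), ih h.2.2 (by omega)⟩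

lemma Ord.congr (hI : IsOpen I) (h : Ord s I M F)
    (hFG : ∀ p ∈ Ioo 0 s ×ˢ I, F p.1 p.2 = G p.1 p.2) : Ord s I M G :=
  ⟨h.sm.congr fun p hp => (hFG p hp).symm, fun n => (h.bd n).congr hI hFG⟩

lemma Bd.add (hF : Bd s I M F) (hG : Bd s I M G) : Bd s I M (fun t x => F t x + G t x) := by
  obtain ⟨C, hC, hF⟩ := hF
  obtain ⟨D, hD, hG⟩ := hG
  refine ⟨C + D, by positivity, fun t ht x hx => ?_⟩
  calc |F t x + G t x| ≤ |F t x| + |G t x| := abs_add_le _ _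
    _ ≤ C * t ^ M + D * t ^ M := add_le_add (hF t ht x hx) (hG t ht x hx)
    _ = (C + D) * t ^ M := by ring

lemma Bd.neg (hF : Bd s I M F) : Bd s I M (fun t x => - F t x) := by
  obtain ⟨C, hC, hF⟩ := hF
  exact ⟨C, hC, fun t ht x hx => by rw [abs_neg]; exact hF t ht x hx⟩

lemma Bd.mul (hF : Bd s I M F) (hG : Bd s I N G) : Bd s I (M + N) (fun t x => F t x * G t x) := by
  obtain ⟨C, hC, hF⟩ := hF
  obtain ⟨D, hD, hG⟩ := hG
  refine ⟨C * D, by positivity, fun t ht x hx => ?_⟩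
  have h1 := hF t ht x hx
  have h2 := hG t ht x hx
  rw [abs_mul, pow_add]
  calc |F t x| * |G t x| ≤ (C * t ^ M) * (D * t ^ N) :=
        mul_le_mul h1 h2 (abs_nonneg _) ((abs_nonneg _).trans h1)
    _ = C * D * (t ^ M * t ^ N) := by ring

lemma Bd.mono_M (hF : Bd s I M F) (h : N ≤ M) : Bd s I N F := by
  obtain ⟨C, hC, hF⟩ := hF
  refine ⟨C * max 1 s ^ (M - N), by positivity, fun t ht x hx => (hF t ht x hx).trans ?_⟩
  have e : t ^ M = t ^ (M - N) * t ^ N := by rw [← pow_add]; congr 1; omega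
  rw [e]
  have h1 : t ^ (M - N) ≤ max 1 s ^ (M - N) :=
    pow_le_pow_left₀ ht.1.le (ht.2.le.trans (le_max_right _ _)) _
  have h2 : 0 ≤ t ^ N := pow_nonneg ht.1.le _
  calc C * (t ^ (M - N) * t ^ N) = C * t ^ (M - N) * t ^ N := by ring
    _ ≤ C * max 1 s ^ (M - N) * t ^ N := by gcongr

lemma Bd.mono_dom {s' : ℝ} {I' : Set ℝ} (hF : Bd s I M F) (hs : s' ≤ s) (hI : I' ⊆ I) :
    Bd s' I' M F := by
  obtain ⟨C, hC, hF⟩ := hF
  exact ⟨C, hC, fun t ht x hx => hF t ⟨ht.1, ht.2.trans_le hs⟩ x (hI hx)⟩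

lemma OrdN.mono_dom {s' : ℝ} {I' : Set ℝ} (hs : s' ≤ s) (hI : I' ⊆ I) :
    ∀ {n : ℕ} {F : ℝ → ℝ → ℝ}, OrdN s I M n F → OrdN s' I' M n F
  | 0, _, h => Bd.mono_dom h hs hI
  | n + 1, _, h => ⟨Bd.mono_dom h.1 hs hI, OrdN.mono_dom hs hI h.2.1, OrdN.mono_dom hs hI h.2.2⟩

lemma Ord.mono_dom {s' : ℝ} {I' : Set ℝ} (h : Ord s I M F) (hs : s' ≤ s) (hI : I' ⊆ I) :
    Ord s' I' M F :=
  ⟨h.sm.mono (prod_mono (Ioo_subset_Ioo_right hs) hI), fun n => (h.bd n).mono_dom hs hI⟩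

lemma OrdN.mono_M (hNM : N ≤ M) :
    ∀ {n : ℕ} {F : ℝ → ℝ → ℝ}, OrdN s I M n F → OrdN s I N n F
  | 0, _, h => Bd.mono_M h hNM
  | n + 1, _, h => ⟨Bd.mono_M h.1 hNM, OrdN.mono_M hNM h.2.1, OrdN.mono_M hNM h.2.2⟩

lemma Ord.mono_M (h : Ord s I M F) (hNM : N ≤ M) : Ord s I N F := ⟨h.sm, fun n => (h.bd n).mono_M hNM⟩

lemma OrdN.add (hI : IsOpen I) : ∀ {n : ℕ} {F G : ℝ → ℝ → ℝ},
    SmU (Ioo 0 s ×ˢ I) F → SmU (Ioo 0 s ×ˢ I) G →
    OrdN s I M n F → OrdN s I M n G → OrdN s I M n (fun t x => F t x + G t x)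
  | 0, _, _, _, _, hF, hG => Bd.add hF hG
  | n + 1, F, G, sF, sG, hF, hG => by
    have hU := isOpen_dom (s := s) hI
    refine ⟨Bd.add hF.1 hG.1, ?_, ?_⟩
    · refine (OrdN.add hI (sF.X1 hU) (sG.X1 hU) hF.2.1 hG.2.1).congr hI ?_
      rintro ⟨t, x⟩ hp
      simp only [X1]
      rw [dt_add sF sG hU hp]; ring
    · refine (OrdN.add hI (sF.dX hU) (sG.dX hU) hF.2.2 hG.2.2).congr hI ?_
      rintro ⟨t, x⟩ hp
      exact (dX_add sF sG hU hp).symm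

lemma OrdN.neg (hI : IsOpen I) : ∀ {n : ℕ} {F : ℝ → ℝ → ℝ},
    SmU (Ioo 0 s ×ˢ I) F → OrdN s I M n F → OrdN s I M n (fun t x => - F t x)
  | 0, _, _, hF => Bd.neg hF
  | n + 1, F, sF, hF => by
    have hU := isOpen_dom (s := s) hI
    refine ⟨Bd.neg hF.1, ?_, ?_⟩
    · refine (OrdN.neg hI (sF.X1 hU) hF.2.1).congr hI ?_
      rintro ⟨t, x⟩ hp
      simp only [X1]
      rw [dt_neg sF hU hp]; ring
    · refine (OrdN.neg hI (sF.dX hU) hF.2.2).congr hI ?_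
      rintro ⟨t, x⟩ hp
      exact (dX_neg sF hU hp).symm

lemma OrdN.mul (hI : IsOpen I) : ∀ {n : ℕ} {F G : ℝ → ℝ → ℝ},
    SmU (Ioo 0 s ×ˢ I) F → SmU (Ioo 0 s ×ˢ I) G →
    OrdN s I M n F → OrdN s I N n G → OrdN s I (M + N) n (fun t x => F t x * G t x)
  | 0, _, _, _, _, hF, hG => Bd.mul hF hG
  | n + 1, F, G, sF, sG, hF, hG => by
    have hU := isOpen_dom (s := s) hI
    refine ⟨Bd.mul hF.1 hG.1, ?_, ?_⟩
    · have h1 := OrdN.mul hI (sF.X1 hU) sG hF.2.1 (hG.le (Nat.le_succ n))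
      have h2 := OrdN.mul hI sF (sG.X1 hU) (hF.le (Nat.le_succ n)) hG.2.1
      refine (OrdN.add hI ((sF.X1 hU).mul sG) (sF.mul (sG.X1 hU)) h1 h2).congr hI ?_
      rintro ⟨t, x⟩ hp
      simp only [X1]
      rw [dt_mul sF sG hU hp]; ring
    · have h1 := OrdN.mul hI (sF.dX hU) sG hF.2.2 (hG.le (Nat.le_succ n))
      have h2 := OrdN.mul hI sF (sG.dX hU) (hF.le (Nat.le_succ n)) hG.2.2
      refine (OrdN.add hI ((sF.dX hU).mul sG) (sF.mul (sG.dX hU)) h1 h2).congr hI ?_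
      rintro ⟨t, x⟩ hp
      exact (dX_mul sF sG hU hp).symm

lemma Ord.add (hI : IsOpen I) (hF : Ord s I M F) (hG : Ord s I M G) :
    Ord s I M (fun t x => F t x + G t x) :=
  ⟨hF.sm.add hG.sm, fun n => OrdN.add hI hF.sm hG.sm (hF.bd n) (hG.bd n)⟩

lemma Ord.neg (hI : IsOpen I) (hF : Ord s I M F) : Ord s I M (fun t x => - F t x) :=
  ⟨hF.sm.neg, fun n => OrdN.neg hI hF.sm (hF.bd n)⟩

lemma Ord.sub (hI : IsOpen I) (hF : Ord s I M F) (hG : Ord s I M G) :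
    Ord s I M (fun t x => F t x - G t x) :=
  (hF.add hI (hG.neg hI)).congr hI fun _ _ => (sub_eq_add_neg _ _).symm

lemma Ord.mul (hI : IsOpen I) (hF : Ord s I M F) (hG : Ord s I N G) :
    Ord s I (M + N) (fun t x => F t x * G t x) :=
  ⟨hF.sm.mul hG.sm, fun n => OrdN.mul hI hF.sm hG.sm (hF.bd n) (hG.bd n)⟩

lemma Ord.mul0 (hI : IsOpen I) (hF : Ord s I 0 F) (hG : Ord s I N G) :
    Ord s I N (fun t x => F t x * G t x) := by
  have := hF.mul hI hG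
  rwa [zero_add] at this

lemma Ord.X1 (hI : IsOpen I) (hF : Ord s I M F) : Ord s I M (X1 F) :=
  ⟨hF.sm.X1 (isOpen_dom hI), fun n => (hF.bd (n + 1)).2.1⟩

lemma Ord.dX (hI : IsOpen I) (hF : Ord s I M F) : Ord s I M (dX F) :=
  ⟨hF.sm.dX (isOpen_dom hI), fun n => (hF.bd (n + 1)).2.2⟩

/-! ### basic members -/

lemma bd_zero_of_forall (h : ∀ p ∈ Ioo 0 s ×ˢ I, F p.1 p.2 = 0) : Bd s I M F :=
  ⟨0, le_rfl, fun t ht x hx => by rw [h (t, x) ⟨ht, hx⟩]; simp⟩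

lemma ordN_zero (hI : IsOpen I) : ∀ {n : ℕ} {F : ℝ → ℝ → ℝ},
    (∀ p ∈ Ioo 0 s ×ˢ I, F p.1 p.2 = 0) → OrdN s I M n F
  | 0, _, h => bd_zero_of_forall h
  | _ + 1, F, h => by
    have hU := isOpen_dom (s := s) hI
    refine ⟨bd_zero_of_forall h, ordN_zero hI ?_, ordN_zero hI ?_⟩
    · rintro ⟨t, x⟩ hp
      simp only [X1]
      rw [dt_congr (F := F) (G := fun _ _ => 0) hU (fun p hp => h p hp) hp]
      simp [dt]
    · rintro ⟨t, x⟩ hp
      simp only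
      rw [dX_congr (F := F) (G := fun _ _ => 0) hU (fun p hp => h p hp) hp]
      simp [D.dX]

lemma ord_const (hI : IsOpen I) (c : ℝ) : Ord s I 0 (fun _ _ => c) := by
  refine ⟨smU_const c, fun n => ?_⟩
  have hb : Bd s I 0 (fun _ _ => c) := ⟨|c|, abs_nonneg _, fun t _ x _ => by simp⟩
  cases n with
  | zero => exact hb
  | succ n =>
    refine ⟨hb, ordN_zero hI ?_, ordN_zero hI ?_⟩
    · rintro ⟨t, x⟩ _; simp [D.X1, dt]
    · rintro ⟨t, x⟩ _; simp [D.dX]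

lemma bd_tpow (k : ℕ) : Bd s I k (fun t _ => t ^ k) :=
  ⟨1, zero_le_one, fun t ht x _ => by rw [abs_of_nonneg (pow_nonneg ht.1.le _), one_mul]⟩

lemma Bd.const_mul (c : ℝ) (hF : Bd s I M F) : Bd s I M (fun t x => c * F t x) := by
  obtain ⟨C, hC, hF⟩ := hF
  refine ⟨|c| * C, by positivity, fun t ht x hx => ?_⟩
  rw [abs_mul, mul_assoc]
  exact mul_le_mul_of_nonneg_left (hF t ht x hx) (abs_nonneg _)

lemma ordN_tpow (hI : IsOpen I) (c : ℝ) (k : ℕ) : ∀ n : ℕ, OrdN s I k n (fun t _ => c * t ^ k)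
  | 0 => (bd_tpow k).const_mul c
  | n + 1 => by
    refine ⟨(bd_tpow k).const_mul c, ?_, ordN_zero hI ?_⟩
    · refine (ordN_tpow hI (c * k) k n).congr hI ?_
      rintro ⟨t, x⟩ _
      simp only [D.X1, dt]
      rw [deriv_const_mul _ (by fun_prop), deriv_pow_field]
      rcases k with _ | k
      · simp
      · simp only [Nat.add_sub_cancel]; push_cast; ring
    · rintro ⟨t, x⟩ _; simp [D.dX]

lemma ord_tpow (hI : IsOpen I) (k : ℕ) : Ord s I k (fun t _ => t ^ k) :=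
  ⟨smU_tpow k, fun n => (ordN_tpow hI 1 k n).congr hI fun _ _ => one_mul _⟩

lemma ord_t (hI : IsOpen I) : Ord s I 1 (fun t _ => t) :=
  (ord_tpow hI 1).congr hI fun _ _ => pow_one _

/-- functions of `x` which are smooth on a neighbourhood of the (relatively compact) `I`. -/
lemma ordN_of_x (hI : IsOpen I) {J K : Set ℝ} (hJ : IsOpen J) (hK : IsCompact K) (hIK : I ⊆ K)
    (hKJ : K ⊆ J) : ∀ (n : ℕ) {f : ℝ → ℝ}, ContDiffOn ℝ (⊤ : ℕ∞) f J →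
      OrdN s I 0 n (fun _ x => f x)
  | 0, f, hf => by
    obtain ⟨C, hC⟩ := hK.exists_bound_of_continuousOn (hf.continuousOn.mono hKJ)
    refine ⟨|C|, abs_nonneg _, fun t _ x hx => ?_⟩
    have := hC x (hIK hx)
    rw [Real.norm_eq_abs] at this
    simpa using this.trans (le_abs_self C)
  | n + 1, f, hf => by
    refine ⟨(ordN_of_x hI hJ hK hIK hKJ 0 hf), ordN_zero hI ?_, ?_⟩
    · rintro ⟨t, x⟩ _; simp [D.X1, dt]
    · have h1 : ContDiffOn ℝ (⊤ : ℕ∞) (deriv f) J := hf.deriv_of_isOpen hJ (by simp)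
      exact (ordN_of_x hI hJ hK hIK hKJ n h1)

lemma ord_of_x (hI : IsOpen I) {J K : Set ℝ} (hJ : IsOpen J) (hK : IsCompact K) (hIK : I ⊆ K)
    (hKJ : K ⊆ J) {f : ℝ → ℝ} (hf : ContDiffOn ℝ (⊤ : ℕ∞) f J) : Ord s I 0 (fun _ x => f x) := by
  refine ⟨?_, fun n => ordN_of_x hI hJ hK hIK hKJ n hf⟩
  refine hf.comp contDiff_snd.contDiffOn ?_
  rintro ⟨t, x⟩ hp
  exact hKJ (hIK hp.2)

/-- globally smooth functions of `x`, `I` bounded. -/
lemma ord_of_x' {a b : ℝ} {f : ℝ → ℝ} (hf : ContDiff ℝ (⊤ : ℕ∞) f) :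
    Ord s (Ioo a b) 0 (fun _ x => f x) :=
  ord_of_x isOpen_Ioo isOpen_univ (isCompact_Icc (a := a) (b := b)) Ioo_subset_Icc_self
    (subset_univ _) hf.contDiffOn

/-! ### inverse -/

lemma OrdN.inv (hI : IsOpen I) {c : ℝ} (hc : 0 < c) (sF : SmU (Ioo 0 s ×ˢ I) F)
    (hF : ∀ n, OrdN s I 0 n F) (hb : ∀ p ∈ Ioo 0 s ×ˢ I, c ≤ |F p.1 p.2|) :
    ∀ n, OrdN s I 0 n (fun t x => (F t x)⁻¹) := by
  have hU := isOpen_dom (s := s) hI
  have h0 : ∀ p ∈ Ioo 0 s ×ˢ I, F p.1 p.2 ≠ 0 := fun p hp h => by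
    have := hb p hp
    rw [h, abs_zero] at this; linarith
  have sI : SmU (Ioo 0 s ×ˢ I) (fun t x => (F t x)⁻¹) := sF.inv h0
  have hb0 : Bd s I 0 (fun t x => (F t x)⁻¹) := by
    refine ⟨c⁻¹, by positivity, fun t ht x hx => ?_⟩
    rw [abs_inv, pow_zero, mul_one]
    exact inv_anti₀ hc (hb (t, x) ⟨ht, hx⟩)
  intro n
  induction n with
  | zero => exact hb0
  | succ n ih =>
    have h2 : OrdN s I 0 n (fun t x => (F t x)⁻¹ * (F t x)⁻¹) := by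
      simpa using OrdN.mul hI sI sI ih ih
    refine ⟨hb0, ?_, ?_⟩
    · have h3 := OrdN.neg hI ((sF.X1 hU).mul (sI.mul sI))
        (OrdN.mul hI (sF.X1 hU) (sI.mul sI) (hF (n + 1)).2.1 h2)
      refine OrdN.congr hI h3 ?_
      rintro ⟨t, x⟩ hp
      simp only [D.X1]
      rw [dt_inv sF hU hp (h0 _ hp)]; ring
    · have h3 := OrdN.neg hI ((sF.dX hU).mul (sI.mul sI))
        (OrdN.mul hI (sF.dX hU) (sI.mul sI) (hF (n + 1)).2.2 h2)
      refine OrdN.congr hI h3 ?_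
      rintro ⟨t, x⟩ hp
      exact (dX_inv sF hU hp (h0 _ hp)).symm

lemma Ord.inv (hI : IsOpen I) {c : ℝ} (hc : 0 < c) (hF : Ord s I 0 F)
    (hb : ∀ p ∈ Ioo 0 s ×ˢ I, c ≤ |F p.1 p.2|) : Ord s I 0 (fun t x => (F t x)⁻¹) := by
  refine ⟨hF.sm.inv fun p hp h => ?_, OrdN.inv hI hc hF.sm hF.bd hb⟩
  have := hb p hp
  rw [h, abs_zero] at this; linarith

/-! ### division by `t` and integration -/

lemma Bd.div_t (hF : Bd s I (M + 1) F) : Bd s I M (fun t x => t⁻¹ * F t x) := by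
  obtain ⟨C, hC, hF⟩ := hF
  refine ⟨C, hC, fun t ht x hx => ?_⟩
  have h1 := hF t ht x hx
  rw [abs_mul, abs_of_pos (inv_pos.2 ht.1), inv_mul_le_iff₀ ht.1]
  calc |F t x| ≤ C * t ^ (M + 1) := h1
    _ = t * (C * t ^ M) := by ring

lemma smU_tinv : SmU (Ioo 0 s ×ˢ I) (fun t _ => t⁻¹) :=
  smU_t.inv fun p hp => hp.1.1.ne'

lemma OrdN.div_t (hI : IsOpen I) : ∀ {n : ℕ} {F : ℝ → ℝ → ℝ},
    SmU (Ioo 0 s ×ˢ I) F → OrdN s I (M + 1) n F → OrdN s I M n (fun t x => t⁻¹ * F t x)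
  | 0, _, _, h => Bd.div_t h
  | n + 1, F, sF, h => by
    have hU := isOpen_dom (s := s) hI
    refine ⟨Bd.div_t h.1, ?_, ?_⟩
    · have h1 := OrdN.div_t hI (sF.X1 hU) h.2.1
      have h2 := OrdN.neg hI (smU_tinv.mul sF) (OrdN.div_t hI sF (h.le (Nat.le_succ n)))
      refine (OrdN.add hI (smU_tinv.mul (sF.X1 hU)) (smU_tinv.mul sF).neg h1 h2).congr hI ?_
      rintro ⟨t, x⟩ hp
      have ht : t ≠ 0 := hp.1.1.ne'
      simp only [D.X1]
      rw [dt_mul smU_tinv sF hU hp]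
      have : dt (fun t _ => t⁻¹) t x = - (t ^ 2)⁻¹ := by
        simp [dt]
      rw [this]; field_simp; ring
    · refine (OrdN.div_t hI (sF.dX hU) h.2.2).congr hI ?_
      rintro ⟨t, x⟩ hp
      simp only [D.dX]
      rw [deriv_const_mul_field]

lemma Ord.div_t (hI : IsOpen I) (hF : Ord s I (M + 1) F) : Ord s I M (fun t x => t⁻¹ * F t x) :=
  ⟨smU_tinv.mul hF.sm, fun n => OrdN.div_t hI hF.sm (hF.bd n)⟩

lemma Ord.dt (hI : IsOpen I) (hF : Ord s I (M + 1) F) : Ord s I M (dt F) := by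
  refine ((hF.X1 hI).div_t hI).congr hI ?_
  rintro ⟨t, x⟩ hp
  have ht : t ≠ 0 := hp.1.1.ne'
  simp only [D.X1]
  field_simp

/-- one-dimensional integration lemma. -/
lemma bd_of_deriv {f : ℝ → ℝ} {f' : ℝ → ℝ} {C C1 : ℝ} (hC : 0 ≤ C)
    (hd : ∀ t ∈ Ioo 0 s, HasDerivAt f (f' t) t) (hf' : ∀ t ∈ Ioo 0 s, |f' t| ≤ C * t ^ M)
    (h0 : ∀ t ∈ Ioo 0 s, |f t| ≤ C1 * t) : ∀ t ∈ Ioo 0 s, |f t| ≤ C * t ^ (M + 1) := by
  intro t ht
  have key : ∀ r ∈ Ioo 0 t, |f t| ≤ C * t ^ (M + 1) + C1 * r := by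
    intro r hr
    have hsub : Icc r t ⊆ Ioo 0 s := fun y hy => ⟨hr.1.trans_le hy.1, hy.2.trans_lt ht.2⟩
    have h1 : ‖f t - f r‖ ≤ C * t ^ M * ‖t - r‖ := by
      refine Convex.norm_image_sub_le_of_norm_hasDerivWithin_le (s := Icc r t) (f' := f')
        (fun y hy => (hd y (hsub hy)).hasDerivWithinAt) (fun y hy => ?_) (convex_Icc r t)
        (left_mem_Icc.2 hr.2.le) (right_mem_Icc.2 hr.2.le)
      rw [Real.norm_eq_abs]
      refine (hf' y (hsub hy)).trans ?_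
      gcongr
      · exact (hsub hy).1.le
      · exact hy.2
    rw [Real.norm_eq_abs, Real.norm_eq_abs, abs_of_pos (sub_pos.2 hr.2)] at h1
    have h2 : |f t| ≤ |f t - f r| + |f r| := by
      have := abs_add_le (f t - f r) (f r); simpa using this
    have h3 := h0 r (hsub ⟨le_rfl, hr.2.le⟩)
    have h4 : C * t ^ M * (t - r) ≤ C * t ^ M * t := by
      have : 0 ≤ C * t ^ M := mul_nonneg hC (pow_nonneg ht.1.le _)
      have hr0 := hr.1
      nlinarith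
    calc |f t| ≤ |f t - f r| + |f r| := h2
      _ ≤ C * t ^ M * t + C1 * r := by linarith
      _ = C * t ^ (M + 1) + C1 * r := by ring
  have hlim : Tendsto (fun r : ℝ => C * t ^ (M + 1) + C1 * r) (𝓝[>] 0) (𝓝 (C * t ^ (M + 1) + C1 * 0)) := by
    have : Continuous fun r : ℝ => C * t ^ (M + 1) + C1 * r := by fun_prop
    exact (this.tendsto 0).mono_left nhdsWithin_le_nhds
  have := ge_of_tendsto hlim (by
    filter_upwards [Ioo_mem_nhdsGT ht.1] with r hr using key r hr)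
  simpa using this

/-- pure `x`-words. -/
lemma iter_dX_sm (hI : IsOpen I) (sF : SmU (Ioo 0 s ×ˢ I) F) :
    ∀ k : ℕ, SmU (Ioo 0 s ×ˢ I) (D.dX^[k] F)
  | 0 => sF
  | k + 1 => by
    rw [Function.iterate_succ_apply']
    exact (iter_dX_sm hI sF k).dX (isOpen_dom hI)

/-- **INT**: `F ∈ 𝒪(1)`, `∂_t F ∈ 𝒪(M)` imply `F ∈ 𝒪(M+1)`. -/
lemma OrdN.int (hI : IsOpen I) : ∀ {n : ℕ} {F : ℝ → ℝ → ℝ}, SmU (Ioo 0 s ×ˢ I) F →
    OrdN s I 1 n F → OrdN s I M n (R213.dt F) → OrdN s I (M + 1) n F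
  | 0, F, sF, h1, h2 => by
    obtain ⟨C1, hC1, h1⟩ := h1
    obtain ⟨C, hC, h2⟩ := h2
    have hU := isOpen_dom (s := s) hI
    refine ⟨C, hC, fun t ht x hx => ?_⟩
    refine bd_of_deriv (f := fun r => F r x) (f' := fun r => R213.dt F r x) (C1 := C1) hC
      (fun r hr => sF.hdt hU (t := r) (x := x) ⟨hr, hx⟩) (fun r hr => h2 r hr x hx)
      (fun r hr => by simpa using h1 r hr x hx) t ht
  | n + 1, F, sF, h1, h2 => by
    have hU := isOpen_dom (s := s) hI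
    refine ⟨(OrdN.int hI (n := 0) sF h1.1 h2.1), ?_, ?_⟩
    · -- `X1 F = t * dt F`
      have ht := (ord_t (s := s) hI)
      have h3 := OrdN.mul hI (sF.dt hU) smU_t (h2.le (Nat.le_succ n)) (ht.bd n)
      refine OrdN.congr hI h3 ?_
      rintro ⟨t, x⟩ hp
      simp only [D.X1]; ring
    · refine OrdN.int hI (sF.dX hU) h1.2.2 ?_
      refine OrdN.congr hI h2.2.2 ?_
      rintro ⟨t, x⟩ hp
      exact (dt_dX_comm sF hU hp).symm

lemma Ord.int (hI : IsOpen I) (h1 : Ord s I 1 F) (h2 : Ord s I M (R213.dt F)) :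
    Ord s I (M + 1) F :=
  ⟨h1.sm, fun n => OrdN.int hI h1.sm (h1.bd n) (h2.bd n)⟩

end ord

end Crest.Agent.R213.D
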