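import Crest.Agent.R213.D.DDefs
import Crest.Agent.R213.J0
import Crest.Agent.R213.J310

/-!
# Row 213, part D, block D3b: the error `E` from the residual (double primitive), with bounds
-/

set_option autoImplicit false

open Set MeasureTheory Filter Topology

noncomputable section

namespace Crest.Agent.R213.D

open Crest.Agent.R213

namespace ResBd

/-- one-sided `s`-derivative of a function smooth on `[0,s1) × K`, again smooth. -/
theorem exists_ds {s1 a b : ℝ} (_ : 0 < s1) (hab : a < b) {G : ℝ → ℝ → ℝ}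
    (hG : SmIK (Ico 0 s1) (Icc a b) G) :
    ∃ G' : ℝ → ℝ → ℝ, SmIK (Ico 0 s1) (Icc a b) G' ∧
      ∀ s ∈ Ioo 0 s1, ∀ x ∈ Icc a b, HasDerivAt (fun r => G r x) (G' s x) s := by
  set D := Ico 0 s1 ×ˢ Icc a b with hD
  have hU : UniqueDiffOn ℝ D := (uniqueDiffOn_Ico 0 s1).prod (uniqueDiffOn_Icc hab)
  refine ⟨fun s x => fderivWithin ℝ (fun p : ℝ × ℝ => G p.1 p.2) D (s, x) (1, 0), ?_, ?_⟩
  · have h1 : ContDiffOn ℝ (⊤ : ℕ∞)
        (fun p => fderivWithin ℝ (fun p : ℝ × ℝ => G p.1 p.2) D p (1, 0)) D :=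
      (ContDiffOn.fderivWithin hG hU (by simp)).clm_apply contDiffOn_const
    exact h1
  · intro s hs x hx
    have hsI : s ∈ Ico 0 s1 := ⟨hs.1.le, hs.2⟩
    have hd : DifferentiableWithinAt ℝ (fun p : ℝ × ℝ => G p.1 p.2) D (s, x) :=
      (ContDiffOn.differentiableOn hG (by simp)) (s, x) ⟨hsI, hx⟩
    have h1 : HasDerivWithinAt (fun r : ℝ => (r, x)) ((1 : ℝ), (0 : ℝ)) (Ico 0 s1) s :=
      (hasDerivWithinAt_id s _).prodMk (hasDerivWithinAt_const s _ x)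
    have h2 := hd.hasFDerivWithinAt.comp_hasDerivWithinAt s h1
      (fun y hy => Set.mk_mem_prod hy hx)
    exact h2.hasDerivAt (mem_of_superset (Ioo_mem_nhds hs.1 hs.2) Ioo_subset_Ico_self)

/-- iterated `s`-derivatives of an element of the class `O(M)`. -/
theorem dt_iter_OM {s1 a b : ℝ} (hs1 : 0 < s1) (hab : a < b) {M : ℕ} {r : ℝ → ℝ → ℝ}
    (hOM : OM (Ico 0 s1) (Icc a b) M r) (j : ℕ) (hj : j ≤ M) :
    ∃ G : ℝ → ℝ → ℝ, SmIK (Ico 0 s1) (Icc a b) G ∧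
      ∀ s ∈ Ioo 0 s1, ∀ x ∈ Icc a b, (dt^[j] r) s x = s ^ (M - j) * G s x := by
  induction j with
  | zero =>
    obtain ⟨G, hG, h⟩ := hOM
    exact ⟨G, hG, fun s hs x hx => h s ⟨hs.1.le, hs.2⟩ x hx⟩
  | succ j ih =>
    obtain ⟨G, hG, h⟩ := ih (by omega)
    obtain ⟨G', hG', h'⟩ := exists_ds hs1 hab hG
    refine ⟨fun s x => ((M - j : ℕ) : ℝ) * G s x + s * G' s x, ?_, ?_⟩
    · exact ContDiffOn.add (contDiffOn_const.mul hG) (contDiff_fst.contDiffOn.mul hG')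
    · intro s hs x hx
      rw [Function.iterate_succ_apply']
      obtain ⟨k, hk⟩ : ∃ k, M - j = k + 1 := ⟨M - j - 1, by omega⟩
      have hk' : M - (j + 1) = k := by omega
      have h1 : HasDerivAt (fun ρ => ρ ^ (M - j) * G ρ x)
          (((M - j : ℕ) : ℝ) * s ^ (M - j - 1) * G s x + s ^ (M - j) * G' s x) s :=
        (hasDerivAt_pow (M - j) s).mul (h' s hs x hx)
      have h2 : (fun ρ => (dt^[j] r) ρ x) =ᶠ[𝓝 s] fun ρ => ρ ^ (M - j) * G ρ x := by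
        filter_upwards [Ioo_mem_nhds hs.1 hs.2] with ρ hρ
        exact h ρ hρ x hx
      rw [show dt (dt^[j] r) s x = _ from (h1.congr_of_eventuallyEq h2).deriv]
      rw [hk', hk, Nat.add_sub_cancel]
      ring

theorem SmIK_bdd {s1 a b : ℝ} (hs1 : 0 < s1) {G : ℝ → ℝ → ℝ}
    (hG : SmIK (Ico 0 s1) (Icc a b) G) :
    ∃ C : ℝ, 0 ≤ C ∧ ∀ s ∈ Ioo 0 (s1 / 2), ∀ x ∈ Icc a b, |G s x| ≤ C := by
  have hc : IsCompact (Icc 0 (s1 / 2) ×ˢ Icc a b) := isCompact_Icc.prod isCompact_Icc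
  have hcont : ContinuousOn (fun p : ℝ × ℝ => G p.1 p.2) (Icc 0 (s1 / 2) ×ˢ Icc a b) :=
    (ContDiffOn.continuousOn hG).mono (Set.prod_mono
      (fun s hs => ⟨hs.1, by linarith [hs.2]⟩) subset_rfl)
  obtain ⟨C, hC⟩ := hc.exists_bound_of_continuousOn hcont
  refine ⟨|C|, abs_nonneg _, fun s hs x hx => ?_⟩
  have := hC (s, x) ⟨⟨hs.1.le, hs.2.le⟩, hx⟩
  exact this.trans (le_abs_self C)

theorem dt_iter_Px {t : Set ℝ} (ht : Convex ℝ t) (ht' : IsOpen t) {r : ℝ → ℝ → ℝ}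
    (hr : Sm t 1 r) (j : ℕ) : ∀ s ∈ t, ∀ x ∈ Icc (0 : ℝ) 1,
      (dt^[j] (J310.Px r)) s x = J310.Px (dt^[j] r) s x := by
  induction j generalizing r with
  | zero => intro s hs x hx; rfl
  | succ j ih =>
    intro s hs x hx
    rw [Function.iterate_succ_apply]
    have h1 : (dt^[j] (dt (J310.Px r))) s x = (dt^[j] (J310.Px (dt r))) s x :=
      dt_iter_congr ht' (fun ρ hρ => J310.dt_Px ht ht' one_pos hr hρ hx) hs j
    rw [h1, ih (hr.dt ht' one_pos) s hs x hx]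
    rfl

theorem Px_abs_le {r : ℝ → ℝ → ℝ} {s x C : ℝ} (hx : x ∈ Icc (0 : ℝ) 1)
    (h : ∀ y ∈ Icc (0 : ℝ) 1, |r s y| ≤ C) : |J310.Px r s x| ≤ C := by
  have hC : 0 ≤ C := (abs_nonneg _).trans (h x hx)
  have h1 : ‖∫ ξ in (0 : ℝ)..x, r s ξ‖ ≤ C * |x - 0| := by
    apply intervalIntegral.norm_integral_le_of_norm_le_const
    intro y hy
    rw [uIoc_of_le hx.1] at hy
    exact h y ⟨hy.1.le, hy.2.trans hx.2⟩
  rw [sub_zero, abs_of_nonneg hx.1] at h1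
  refine (show |J310.Px r s x| ≤ C * x from h1).trans ?_
  calc C * x ≤ C * 1 := mul_le_mul_of_nonneg_left hx.2 hC
    _ = C := mul_one C

end ResBd

open ResBd in
theorem E_of_residual {s1 : ℝ} (hs1 : 0 < s1) {M : ℕ} {r : ℝ → ℝ → ℝ} (hr : Sm (Ioo 0 s1) 1 r)
    (hr0 : ∀ s ∈ Ioo 0 s1, ∀ x ∈ Icc (0 : ℝ) (3 / 16), r s x = 0)
    (hOM : OM (Ico 0 s1) (Icc (1 / 8) 1) M r) :
    ∃ (E : ℝ → ℝ → ℝ) (C : ℝ), Sm (Ioo 0 s1) 1 E ∧
      (∀ s ∈ Ioo 0 s1, ∀ x ∈ Icc (0 : ℝ) 1, dx 1 (dx 1 E) s x = r s x) ∧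
      (∀ s ∈ Ioo 0 s1, ∀ x ∈ Icc (0 : ℝ) (1 / 8), E s x = 0) ∧
      (∀ j ≤ M, ∀ s ∈ Ioo 0 (s1 / 2), ∀ x ∈ Icc (0 : ℝ) 1,
        |(dt^[j] E) s x| ≤ C * s ^ (M - j)) := by
  have hc : Convex ℝ (Ioo 0 s1) := convex_Ioo 0 s1
  have ho : IsOpen (Ioo 0 s1) := isOpen_Ioo
  have hu : UniqueDiffOn ℝ (Ioo 0 s1) := ho.uniqueDiffOn
  have hP : Sm (Ioo 0 s1) 1 (J310.Px r) := J310.sm_Px hc hu one_pos hr
  have hPP : Sm (Ioo 0 s1) 1 (J310.Px (J310.Px r)) := J310.sm_Px hc hu one_pos hP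
  -- bounds for the derivatives of `r`
  have hbd : ∀ j : ℕ, ∃ C : ℝ, 0 ≤ C ∧ (j ≤ M → ∀ s ∈ Ioo 0 (s1 / 2), ∀ x ∈ Icc (0 : ℝ) 1,
      |(dt^[j] r) s x| ≤ C * s ^ (M - j)) := by
    intro j
    by_cases hj : j ≤ M
    · obtain ⟨G, hG, h⟩ := dt_iter_OM hs1 (by norm_num : (1 / 8 : ℝ) < 1) hOM j hj
      obtain ⟨C, hC0, hC⟩ := SmIK_bdd hs1 hG
      refine ⟨C, hC0, fun _ s hs x hx => ?_⟩
      have hs' : s ∈ Ioo 0 s1 := ⟨hs.1, by linarith [hs.2]⟩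
      have hpos : 0 ≤ s ^ (M - j) := pow_nonneg hs.1.le _
      rcases le_or_gt x (3 / 16) with hx3 | hx3
      · have h0 : (dt^[j] r) s x = (dt^[j] (fun _ _ => (0 : ℝ))) s x :=
          dt_iter_congr ho (fun ρ hρ => hr0 ρ hρ x ⟨hx.1, hx3⟩) hs' j
        have h00 : ∀ k : ℕ, (dt^[k] (fun _ _ => (0 : ℝ))) = fun _ _ => (0 : ℝ) := by
          intro k
          induction k with
          | zero => rfl
          | succ k ih =>
            rw [Function.iterate_succ_apply']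
            rw [ih]
            funext a b
            exact dt_const 0
        rw [h0, h00 j, abs_zero]
        exact mul_nonneg hC0 hpos
      · have hx' : x ∈ Icc (1 / 8 : ℝ) 1 := ⟨by linarith, hx.2⟩
        rw [h s hs' x hx', abs_mul, abs_of_nonneg hpos, mul_comm]
        exact mul_le_mul_of_nonneg_right (hC s hs x hx') hpos
    · exact ⟨0, le_rfl, fun h => absurd h hj⟩
  choose C hC0 hC using hbd
  refine ⟨J310.Px (J310.Px r), ∑ j ∈ Finset.range (M + 1), C j, hPP, ?_, ?_, ?_⟩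
  · intro s hs x hx
    rw [dx_congr (v := dx 1 (J310.Px (J310.Px r))) (u := J310.Px r)
      (fun y hy => J310.dx_Px one_pos hP hs hy) hx]
    exact J310.dx_Px one_pos hr hs hx
  · intro s hs x hx
    have h1 : ∀ y ∈ Icc (0 : ℝ) (3 / 16), J310.Px r s y = 0 := by
      intro y hy
      apply intervalIntegral.integral_zero_ae
      refine Filter.Eventually.of_forall fun z hz => ?_
      rw [uIoc_of_le hy.1] at hz
      exact hr0 s hs z ⟨hz.1.le, hz.2.trans hy.2⟩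
    apply intervalIntegral.integral_zero_ae
    refine Filter.Eventually.of_forall fun z hz => ?_
    rw [uIoc_of_le hx.1] at hz
    exact h1 z ⟨hz.1.le, by linarith [hz.2, hx.2]⟩
  · intro j hj s hs x hx
    have hs' : s ∈ Ioo 0 s1 := ⟨hs.1, by linarith [hs.2]⟩
    rw [dt_iter_Px hc ho hP j s hs' x hx]
    have hpos : 0 ≤ s ^ (M - j) := pow_nonneg hs.1.le _
    have hle : C j ≤ ∑ j ∈ Finset.range (M + 1), C j :=
      Finset.single_le_sum (fun i _ => hC0 i) (Finset.mem_range.2 (by omega))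
    refine (Px_abs_le hx ?_).trans (mul_le_mul_of_nonneg_right hle hpos)
    intro y hy
    rw [dt_iter_Px hc ho hr j s hs' y hy]
    exact Px_abs_le hy (fun z hz => hC j hj s hs z hz)

end Crest.Agent.R213.D
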