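import Crest.Agent.R213.D.ResBd

/-!
# Row 213, part D, block D3b (second form): the error `E` from the residual, bounds as hypotheses
-/

set_option autoImplicit false

open Set MeasureTheory Filter Topology

noncomputable section

namespace Crest.Agent.R213.D

open Crest.Agent.R213 ResBd

theorem E_of_residual_bd {s1 C : ℝ} {M J : ℕ} {r : ℝ → ℝ → ℝ} (hr : Sm (Ioo 0 s1) 1 r)
    (hr0 : ∀ s ∈ Ioo 0 s1, ∀ x ∈ Icc (0 : ℝ) (1 / 8), r s x = 0)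
    (hb : ∀ j ≤ J, ∀ s ∈ Ioo 0 s1, ∀ x ∈ Icc (0 : ℝ) 1, |(dt^[j] r) s x| ≤ C * s ^ (M - j)) :
    ∃ E : ℝ → ℝ → ℝ, Sm (Ioo 0 s1) 1 E ∧
      (∀ s ∈ Ioo 0 s1, ∀ x ∈ Icc (0 : ℝ) 1, dx 1 (dx 1 E) s x = r s x) ∧
      (∀ s ∈ Ioo 0 s1, ∀ x ∈ Icc (0 : ℝ) (1 / 8), E s x = 0) ∧
      (∀ j ≤ J, ∀ s ∈ Ioo 0 s1, ∀ x ∈ Icc (0 : ℝ) 1, |(dt^[j] E) s x| ≤ C * s ^ (M - j)) := by
  have hc : Convex ℝ (Ioo 0 s1) := convex_Ioo 0 s1
  have ho : IsOpen (Ioo 0 s1) := isOpen_Ioo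
  have hu : UniqueDiffOn ℝ (Ioo 0 s1) := ho.uniqueDiffOn
  have hP : Sm (Ioo 0 s1) 1 (J310.Px r) := J310.sm_Px hc hu one_pos hr
  have hPP : Sm (Ioo 0 s1) 1 (J310.Px (J310.Px r)) := J310.sm_Px hc hu one_pos hP
  refine ⟨J310.Px (J310.Px r), hPP, ?_, ?_, ?_⟩
  · intro s hs x hx
    rw [dx_congr (v := dx 1 (J310.Px (J310.Px r))) (u := J310.Px r)
      (fun y hy => J310.dx_Px one_pos hP hs hy) hx]
    exact J310.dx_Px one_pos hr hs hx
  · intro s hs x hx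
    have h1 : ∀ y ∈ Icc (0 : ℝ) (1 / 8), J310.Px r s y = 0 := by
      intro y hy
      apply intervalIntegral.integral_zero_ae
      refine Filter.Eventually.of_forall fun z hz => ?_
      rw [uIoc_of_le hy.1] at hz
      exact hr0 s hs z ⟨hz.1.le, hz.2.trans hy.2⟩
    apply intervalIntegral.integral_zero_ae
    refine Filter.Eventually.of_forall fun z hz => ?_
    rw [uIoc_of_le hx.1] at hz
    exact h1 z ⟨hz.1.le, hz.2.trans hx.2⟩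
  · intro j hj s hs x hx
    rw [dt_iter_Px hc ho hP j s hs x hx]
    refine Px_abs_le hx ?_
    intro y hy
    rw [dt_iter_Px hc ho hr j s hs y hy]
    exact Px_abs_le hy (fun z hz => hb j hj s hs z hz)

end Crest.Agent.R213.D
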