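import Crest.Agent.R213.D.GlueRes
import Crest.Agent.R213.D.InnerBd
import Crest.Agent.R213.D.GenS
import Crest.Agent.R213.D.ResBd2
import Crest.Agent.R213.D.OuterBd

/-!
# Row 213, part D3: the background in unit scale (helper684)
-/

set_option autoImplicit false

open Set MeasureTheory Filter Topology

noncomputable section

namespace Crest.Agent.R213.D

namespace UB

variable {c A : ℝ} {g gh : ℝ → ℝ}

/-! ### iterated time derivatives -/

lemma dt_iter_eq (u : ℝ → ℝ → ℝ) (j : ℕ) :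
    ∀ t x : ℝ, (dt^[j] u) t x = iteratedDeriv j (fun r => u r x) t := by
  induction j with
  | zero => intro t x; simp
  | succ j ih =>
    intro t x
    rw [Function.iterate_succ_apply', iteratedDeriv_succ]
    have : (fun r => (dt^[j] u) r x) = iteratedDeriv j (fun r => u r x) := funext fun r => ih r x
    show deriv (fun r => (dt^[j] u) r x) t = _
    rw [this]

lemma iter_congr_pos {f h : ℝ → ℝ} {s1 : ℝ} (hfh : ∀ r ∈ Ioo 0 s1, f r = h r) (j : ℕ) :
    ∀ s ∈ Ioo 0 s1, iteratedDeriv j f s = iteratedDeriv j h s := by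
  intro s hs
  have : f =ᶠ[𝓝 s] h := by
    filter_upwards [Ioo_mem_nhds hs.1 hs.2] with r hr using hfh r hr
  exact this.iteratedDeriv_eq j

/-! ### the cut-off -/

/-- `1` for `x ≤ 3/16`, `0` for `x ≥ 1/4`. -/
def chi (x : ℝ) : ℝ := 1 - Real.smoothTransition (16 * (x - 3 / 16))

lemma chi_smooth : ContDiff ℝ (⊤ : ℕ∞) chi := by
  unfold chi
  exact contDiff_const.sub (Real.smoothTransition.contDiff.comp
    (contDiff_const.mul (contDiff_id.sub contDiff_const)))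

lemma chi_one {x : ℝ} (h : x ≤ 3 / 16) : chi x = 1 := by
  unfold chi; rw [Real.smoothTransition.zero_of_nonpos (by linarith)]; ring

lemma chi_zero {x : ℝ} (h : 1 / 4 ≤ x) : chi x = 0 := by
  unfold chi; rw [Real.smoothTransition.one_of_one_le (by linarith)]; ring

lemma chi_mem (x : ℝ) : chi x ∈ Icc (0 : ℝ) 1 := by
  unfold chi
  have h1 := Real.smoothTransition.nonneg (16 * (x - 3 / 16))
  have h2 := Real.smoothTransition.le_one (16 * (x - 3 / 16))
  exact ⟨by linarith, by linarith⟩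

/-! ### the outer form of the glued function, smooth up to `s = 0` -/

/-- glued function in the form valid for `s ≥ 0`, `x > 0` -/
def hW (gh : ℝ → ℝ) (a : ℕ → ℝ → ℝ) (M : ℕ) : ℝ → ℝ → ℝ := fun s x =>
  chi x * winh gh s x + (1 - chi x) * wM a M s x

lemma hW_eq (hg : Soliton c A g gh) (a : ℕ → ℝ → ℝ) (M : ℕ) {s x : ℝ} (hs : 0 < s) (hx : 0 < x) :
    hW gh a M s x = gW g chi a M s x := by
  unfold hW gW
  rw [win_eq_winh hg hs hx]

lemma smIK_chi_winh (hg : Soliton c A g gh) :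
    SmIK (Ici 0) (Icc (1 / 8) 1) (fun s x => chi x * winh gh s x) := by
  rintro ⟨s, x⟩ ⟨hs, hx⟩
  rcases lt_or_ge x (1 / 2) with h | h
  · have h1 : SmIK (Ici 0) (Icc (1 / 8) (1 / 2)) (fun s x => chi x * winh gh s x) :=
      SmIK.mul (SmIK.of_contDiff (u := fun _ x => chi x) (chi_smooth.comp contDiff_snd))
        (smIK_winh hg (by norm_num) (by norm_num))
    have h2 := h1 (s, x) ⟨hs, hx.1, h.le⟩
    refine h2.mono_of_mem_nhdsWithin ?_
    rw [nhdsWithin_prod_eq]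
    refine prod_mem_prod self_mem_nhdsWithin ?_
    have : Icc (1 / 8 : ℝ) (1 / 2) ⊇ Icc (1 / 8) 1 ∩ Iio (1 / 2) := by
      rintro y ⟨hy1, hy2⟩; exact ⟨hy1.1, le_of_lt hy2⟩
    exact mem_of_superset (inter_mem self_mem_nhdsWithin
      (mem_nhdsWithin_of_mem_nhds (Iio_mem_nhds h))) this
  · have h1 : (fun p : ℝ × ℝ => chi p.2 * winh gh p.1 p.2) =ᶠ[𝓝 (s, x)] fun _ => 0 := by
      have : ∀ᶠ p : ℝ × ℝ in 𝓝 (s, x), 1 / 4 < p.2 := by
        have hc : Continuous fun p : ℝ × ℝ => p.2 := continuous_snd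
        exact hc.continuousAt.eventually (Ioi_mem_nhds (by show (1 / 4 : ℝ) < x; linarith))
      filter_upwards [this] with p hp
      rw [chi_zero hp.le, zero_mul]
    exact (contDiffAt_const.congr_of_eventuallyEq h1).contDiffWithinAt

lemma wM_smIK {a : ℕ → ℝ → ℝ} (ha : FormalSol c a) (M : ℕ) (I K : Set ℝ) : SmIK I K (wM a M) :=
  ContDiffOn.mono (wM_sm ha.sm M) (subset_univ _)

lemma smIK_hW (hg : Soliton c A g gh) {a : ℕ → ℝ → ℝ} (ha : FormalSol c a) (M : ℕ) :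
    SmIK (Ici 0) (Icc (1 / 8) 1) (hW gh a M) := by
  have h1 := smIK_chi_winh hg
  have h2 : SmIK (Ici 0) (Icc (1 / 8) 1) (fun s x => (1 - chi x) * wM a M s x) :=
    SmIK.mul (SmIK.of_contDiff (u := fun _ x => 1 - chi x)
      ((contDiff_const.sub chi_smooth).comp contDiff_snd)) (wM_smIK ha M _ _)
  exact h1.add h2

lemma PP_winh (hg : Soliton c A g gh) {s x : ℝ} (hs : 0 ≤ s) (hx : 0 < x) (hx1 : x < 1) :
    0 < PP (winh gh) s x := by
  have h1 : 0 < gh (s / x ^ 2) := gh_pos hg (by positivity)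
  have h2 : 0 < 1 - x := by linarith
  have : PP (winh gh) s x = (1 - x) / gh (s / x ^ 2) := by
    unfold PP winh
    field_simp
    ring
  rw [this]; positivity

lemma PP_hW_pos (hg : Soliton c A g gh) {a : ℕ → ℝ → ℝ} {M : ℕ} {s x : ℝ} (hs : 0 ≤ s)
    (hx : x ∈ Icc (1 / 8 : ℝ) 1) (hp : 0 < Pw (wM a M) s x) : 0 < PP (hW gh a M) s x := by
  have e : PP (hW gh a M) s x = chi x * PP (winh gh) s x + (1 - chi x) * Pw (wM a M) s x := by
    unfold PP hW Pw; ring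
  rw [e]
  have h1 := (chi_mem x).1
  have h2 := (chi_mem x).2
  rcases lt_or_ge x (1 / 4) with h | h
  · have h3 := PP_winh hg hs (by linarith [hx.1]) (by linarith : x < 1)
    rcases h1.eq_or_lt with h4 | h4
    · rw [← h4]; simpa using hp
    · have : 0 ≤ (1 - chi x) * Pw (wM a M) s x := mul_nonneg (by linarith) hp.le
      have h5 := mul_pos h4 h3
      linarith
  · rw [chi_zero h]; simpa using hp

lemma hW_sub_OM {a : ℕ → ℝ → ℝ} (ha : FormalSol c a) {M : ℕ} (hM : 9 ≤ M) (I : Set ℝ) :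
    OM I (Icc (1 / 8) 1) 10 (fun s x => hW gh a M s x - hW gh a 9 s x) := by
  refine ⟨fun s x => (1 - chi x) * ∑ j ∈ Finset.Ico 10 (M + 1), s ^ (j - 10) * a j x, ?_, ?_⟩
  · refine SmIK.mul (SmIK.of_contDiff (u := fun _ x => 1 - chi x)
      ((contDiff_const.sub chi_smooth).comp contDiff_snd)) ?_
    exact ContDiffOn.sum fun j _ => ((contDiff_fst.pow _).mul
      ((ha.sm j).comp contDiff_snd)).contDiffOn
  · intro s _ x _
    have h1 : wM a M s x - wM a 9 s x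
        = ∑ j ∈ Finset.Ico 10 (M + 1), s ^ j * a j x := by
      unfold wM
      rw [Finset.sum_Ico_eq_sub _ (by omega)]
    have h2 : ∑ j ∈ Finset.Ico 10 (M + 1), s ^ j * a j x
        = s ^ 10 * ∑ j ∈ Finset.Ico 10 (M + 1), s ^ (j - 10) * a j x := by
      rw [Finset.mul_sum]
      refine Finset.sum_congr rfl fun j hj => ?_
      have : 10 ≤ j := (Finset.mem_Ico.1 hj).1
      rw [← mul_assoc, ← pow_add]
      congr 2; omega
    have e : hW gh a M s x - hW gh a 9 s x = (1 - chi x) * (wM a M s x - wM a 9 s x) := by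
      unfold hW; ring
    show hW gh a M s x - hW gh a 9 s x
      = s ^ 10 * ((1 - chi x) * ∑ j ∈ Finset.Ico 10 (M + 1), s ^ (j - 10) * a j x)
    rw [e, h1, h2]; ring

end UB

open UB in
theorem unit_bg {c A : ℝ} {g gh : ℝ → ℝ} (hg : Soliton c A g gh) :
    ∃ c0 C0 : ℝ, Prof c0 C0 g ∧ ∀ M : ℕ, 9 ≤ M → ∃ s1 C : ℝ, 0 < s1 ∧ s1 ≤ 1 ∧
      ∃ φ m w S E : ℝ → ℝ → ℝ,
      Sm (Ioo 0 s1) 1 m ∧ Sm (Ioo 0 s1) 1 w ∧ Sm (Ioo 0 s1) 1 S ∧ Sm (Ioo 0 s1) 1 E ∧
      (∀ s ∈ Ioo 0 s1, ∀ x ∈ Icc (0 : ℝ) 1, φ s x = x * (1 - x) * m s x) ∧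
      (∀ s ∈ Ioo 0 s1, ∀ x ∈ Icc (0 : ℝ) 1, c0 ≤ m s x) ∧
      (∀ s ∈ Ioo 0 s1, ∀ x ∈ Icc (0 : ℝ) 1, m s x ≤ C0) ∧
      (∀ s ∈ Ioo 0 s1, ∀ x ∈ Icc (0 : ℝ) 1, |dx 1 φ s x| ≤ C0) ∧
      (∀ j ≤ 9, ∀ s ∈ Ioo 0 s1, ∀ x ∈ Icc (0 : ℝ) 1,
        (x ^ 2 + s) ^ j * |(dt^[j] m) s x| ≤ C0) ∧
      (∀ s ∈ Ioo 0 s1, ∀ x ∈ Icc (0 : ℝ) (1 / 8), φ s x = x * g (x / √s)) ∧
      (∀ s ∈ Ioo 0 s1, ∀ x ∈ Ioo (0 : ℝ) 1, 1 / φ s x = 1 / x + 1 / (1 - x) + w s x) ∧
      (∀ s ∈ Ioo 0 s1, ∀ x ∈ Icc (0 : ℝ) 1, x ^ 10 - x ^ 9 * φ s x = Kint (S s) x) ∧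
      (∀ s ∈ Ioo 0 s1, ∀ x ∈ Icc (0 : ℝ) 1,
        dx 1 (dx 1 E) s x = dt w s x - dx 1 (dx 1 S) s x) ∧
      (∀ s ∈ Ioo 0 s1, S s 0 = 110 * A / √s) ∧
      (∀ s ∈ Ioo 0 s1, ∀ x ∈ Icc (0 : ℝ) (1 / 8), E s x = 0) ∧
      (∀ j ≤ 9, ∀ s ∈ Ioo 0 s1, ∀ x ∈ Icc (0 : ℝ) 1, |(dt^[j] E) s x| ≤ C * s ^ (M - j)) := by
  -- constants of the profile
  obtain ⟨p0, P0, hprof⟩ := prof_exists hg
  obtain ⟨CI, hCI⟩ := inner_dt_bd hg 9
  obtain ⟨a, ha⟩ := formalSol_exists hg.c_pos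
  -- the reference function
  obtain ⟨sr, hsr, cr, hcr, hposr, -⟩ := ha.res 9
  have hPr : ∀ s ∈ Ico 0 sr, ∀ x ∈ Icc (1 / 8 : ℝ) 1, 0 < PP (hW gh a 9) s x := fun s hs x hx =>
    PP_hW_pos hg hs.1 hx (hcr.trans_le (hposr s ⟨by linarith [hs.1], hs.2⟩ x))
  obtain ⟨c1, C1, hc1, hout⟩ := outer_bd hsr
    ((smIK_hW hg ha 9).mono Ico_subset_Ici_self Subset.rfl) hPr
  set c0 : ℝ := min p0 c1 with hc0
  have hC1 : 0 ≤ C1 := by
    obtain ⟨s3, hs3, -, h1, -⟩ := hout sr (hW gh a 9) hsr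
      ((smIK_hW hg ha 9).mono Ico_subset_Ici_self Subset.rfl) (hW_sub_OM ha le_rfl _)
    obtain ⟨h2, h3, h4, h5⟩ := h1 0 ⟨le_rfl, hs3⟩ 1 ⟨by norm_num, le_rfl⟩
    exact (abs_nonneg _).trans h5
  have hP0 : 0 ≤ P0 := (abs_nonneg _).trans (hprof.dG 0 le_rfl)
  have hCI0 : 0 ≤ CI := by
    have := hCI 0 (by norm_num) 1 one_pos 0 le_rfl
    exact le_trans (by positivity) this
  set C0 : ℝ := 2 * P0 + 2 ^ 9 * C1 + 2 * CI with hC0
  have hC1' : C1 ≤ 2 ^ 9 * C1 := by linarith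
  refine ⟨c0, C0, ⟨lt_min hprof.c0_pos hc1, hprof.smooth, fun y hy => (min_le_left _ _).trans
    (hprof.lower y hy), fun y hy => (hprof.upper y hy).trans (by rw [hC0]; nlinarith), fun y hy =>
    (hprof.dG y hy).trans (by rw [hC0]; nlinarith)⟩, ?_⟩
  intro M hM
  -- the glued function
  obtain ⟨sg, hsg, hglue⟩ :=
    glue_res hg chi_smooth (fun x => chi_one) (fun x => chi_zero) chi_mem ha M
  obtain ⟨hsm, hpos, hwin, hres0, hS0, hresb⟩ := hglue sg hsg le_rfl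
  set w : ℝ → ℝ → ℝ := gW g chi a M with hw
  set U := gU g sg with hU
  have hUo : IsOpen U := isOpen_gU hg
  obtain ⟨s3, hs3, -, hb1, hb2⟩ := hout sg (hW gh a M) hsg
    ((smIK_hW hg ha M).mono Ico_subset_Ici_self Subset.rfl) (hW_sub_OM ha hM _)
  set s1 : ℝ := min (min sg s3) 1 with hs1
  have hs1pos : 0 < s1 := lt_min (lt_min hsg hs3) one_pos
  have hs1g : s1 ≤ sg := (min_le_left _ _).trans (min_le_left _ _)
  have hs13 : s1 ≤ s3 := (min_le_left _ _).trans (min_le_right _ _)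
  have hs11 : s1 ≤ 1 := min_le_right _ _
  have hmem : ∀ s ∈ Ioo 0 s1, ∀ x ∈ Icc (0 : ℝ) 1, (s, x) ∈ U := fun s hs x hx =>
    mem_gU hg ⟨hs.1, hs.2.trans_le hs1g⟩ hx
  have hP : ∀ s ∈ Ioo 0 s1, ∀ x ∈ Icc (0 : ℝ) 1, 0 < Pw w s x := fun s hs x hx =>
    hpos _ (hmem s hs x hx)
  have hne : ∀ p ∈ U, Pw w p.1 p.2 ≠ 0 := fun p hp => (hpos p hp).ne'
  -- the functions
  set m : ℝ → ℝ → ℝ := fun s x => 1 / Pw w s x with hm
  set φ : ℝ → ℝ → ℝ := fun s x => x * (1 - x) * m s x with hφ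
  have smm : SmU U m := ((smU_const 1).mul (hsm.Pw.inv hne)).congr fun p _ => by
    simp only [hm, one_div, one_mul]
  have smφ : SmU U φ := (smU_x.mul ((smU_const 1).sub smU_x)).mul smm
  have smS : SmU U (Sop w) := hsm.Sop hUo hne
  have smR : SmU U (resid w) := hsm.resid hUo hne
  -- bounds for the residual
  have hR9 : ∃ CR : ℝ, ∀ j ≤ 9, ∀ s ∈ Ioo 0 s1, ∀ x ∈ Icc (0 : ℝ) 1,
      |(dt^[j] (resid w)) s x| ≤ CR * s ^ (M - j) := by
    have h1 : ∀ j : ℕ, ∃ C : ℝ, 0 ≤ C ∧ (j ≤ M → ∀ s ∈ Ioo 0 s1, ∀ x ∈ Icc (0 : ℝ) 1,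
        |(dt^[j] (resid w)) s x| ≤ C * s ^ (M - j)) := by
      intro j
      by_cases hj : j ≤ M
      · obtain ⟨C, hC⟩ := hresb j hj
        refine ⟨|C|, abs_nonneg _, fun _ s hs x hx => (hC s ⟨hs.1, hs.2.trans_le hs1g⟩ x hx).trans ?_⟩
        exact mul_le_mul_of_nonneg_right (le_abs_self _) (pow_nonneg hs.1.le _)
      · exact ⟨0, le_rfl, fun h => absurd h hj⟩
    choose CR hCR0 hCR using h1
    refine ⟨∑ j ∈ Finset.range 10, CR j, fun j hj s hs x hx => ?_⟩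
    refine (hCR j (hj.trans hM) s hs x hx).trans ?_
    refine mul_le_mul_of_nonneg_right ?_ (pow_nonneg hs.1.le _)
    exact Finset.single_le_sum (f := CR) (fun i _ => hCR0 i) (Finset.mem_range.2 (by omega))
  obtain ⟨CR, hCR⟩ := hR9
  obtain ⟨E, hE1, hE2, hE3, hE4⟩ := E_of_residual_bd (r := resid w) (J := 9) (M := M)
    (smR.sm hmem) (fun s hs x hx => hres0 s ⟨hs.1, hs.2.trans_le hs1g⟩ x
      ⟨hx.1, by linarith [hx.2]⟩) hCR
  -- inner form
  have hin : ∀ s ∈ Ioo 0 s1, ∀ x ∈ Ico (0 : ℝ) (3 / 16), m s x = g (x / √s) / (1 - x) := by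
    intro s hs x hx
    have h1 : w s x = win g s x := hwin (s, x) (hmem s hs x ⟨hx.1, by linarith [hx.2]⟩) hx.2
    have h2 := Pw_win hg (mem_Ug hg hs.1 hx.1 (by linarith [hx.2] : x < 1))
    have h3 : Pw w s x = (1 - x) / g (x / √s) := by
      rw [← h2]; simp only [Pw, h1]
    simp only [hm, h3]
    rw [one_div_div]
  have hφin : ∀ s ∈ Ioo 0 s1, ∀ x ∈ Ico (0 : ℝ) (3 / 16), φ s x = x * g (x / √s) := by
    intro s hs x hx
    have hx1 : 1 - x ≠ 0 := by linarith [hx.2]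
    simp only [hφ]
    rw [hin s hs x hx]
    field_simp
  -- outer form
  have hPout : ∀ s ∈ Ioo 0 s1, ∀ x ∈ Icc (1 / 8 : ℝ) 1, PP (hW gh a M) s x = Pw w s x := by
    intro s hs x hx
    simp only [PP, Pw]
    rw [hW_eq hg a M hs.1 (by linarith [hx.1])]
  have hg0 : ∀ s x : ℝ, 0 ≤ x → 0 ≤ x / √s := fun s x hx => div_nonneg hx (Real.sqrt_nonneg _)
  refine ⟨s1, CR, hs1pos, hs11, φ, m, w, Sop w, E, smm.sm hmem, hsm.sm hmem, smS.sm hmem, hE1,
    fun s _ x _ => rfl, ?_, ?_, ?_, ?_, ?_, ?_, ?_, ?_, ?_, hE3, hE4⟩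
  · -- lower bound
    intro s hs x hx
    rcases lt_or_ge x (1 / 8) with h | h
    · rw [hin s hs x ⟨hx.1, by linarith⟩]
      have h1 := hprof.lower _ (hg0 s x hx.1)
      have h2 := hprof.c0_pos
      have h3 : g (x / √s) ≤ g (x / √s) / (1 - x) := by
        rw [le_div_iff₀ (by linarith)]
        nlinarith [hx.1]
      exact (min_le_left _ _).trans (h1.trans h3)
    · have := (hb1 s ⟨hs.1.le, hs.2.trans_le hs13⟩ x ⟨h, hx.2⟩).2.1
      rw [hPout s hs x ⟨h, hx.2⟩] at this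
      exact (min_le_right _ _).trans this
  · -- upper bound
    intro s hs x hx
    rcases lt_or_ge x (1 / 8) with h | h
    · rw [hin s hs x ⟨hx.1, by linarith⟩]
      have h1 := hprof.upper _ (hg0 s x hx.1)
      have h3 : g (x / √s) / (1 - x) ≤ 2 * P0 := by
        rw [div_le_iff₀ (by linarith)]
        nlinarith [hx.1]
      refine h3.trans ?_
      rw [hC0]; nlinarith
    · have := (hb1 s ⟨hs.1.le, hs.2.trans_le hs13⟩ x ⟨h, hx.2⟩).2.2.1
      rw [hPout s hs x ⟨h, hx.2⟩] at this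
      refine this.trans ?_
      rw [hC0]; nlinarith
  · -- derivative of φ
    intro s hs x hx
    rcases lt_or_ge x (1 / 8) with h | h
    · have hG : ∀ y, HasDerivAt (fun z => z * g z) (deriv (fun z => z * g z) y) y := fun y =>
        ((contDiff_id.mul hg.smooth).differentiable (by simp) y).hasDerivAt
      have hss : 0 < √s := Real.sqrt_pos.2 hs.1
      have h1 : HasDerivAt (fun y => √s * ((y / √s) * g (y / √s)))
          (√s * (deriv (fun z => z * g z) (x / √s) * (1 / √s))) x := by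
        have h2 : HasDerivAt (fun y : ℝ => y / √s) (1 / √s) x := (hasDerivAt_id x).div_const _
        exact ((hG (x / √s)).comp x h2).const_mul _
      have h3 : dx 1 φ s x = deriv (fun z => z * g z) (x / √s) := by
        refine dx_eq_of_hasDerivWithinAt one_pos hx ?_
        have h4 : √s * (deriv (fun z => z * g z) (x / √s) * (1 / √s))
            = deriv (fun z => z * g z) (x / √s) := by field_simp
        rw [h4] at h1
        refine h1.hasDerivWithinAt.congr_of_eventuallyEq ?_ ?_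
        · have : ∀ᶠ y in 𝓝[Icc 0 1] x, y ∈ Icc (0 : ℝ) 1 ∧ y < 1 / 8 :=
            (eventually_mem_nhdsWithin).and (mem_nhdsWithin_of_mem_nhds (Iio_mem_nhds h))
          filter_upwards [this] with y hy
          rw [hφin s hs y ⟨hy.1.1, by linarith [hy.2]⟩]
          field_simp
        · rw [hφin s hs x ⟨hx.1, by linarith⟩]
          field_simp
      rw [h3]
      refine (hprof.dG _ (hg0 s x hx.1)).trans ?_
      rw [hC0]; nlinarith
    · have h1 := (hb1 s ⟨hs.1.le, hs.2.trans_le hs13⟩ x ⟨h, hx.2⟩).2.2.2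
      have h2 : dxK (Icc (1 / 8) 1) (fun s x => x * (1 - x) / PP (hW gh a M) s x) s x
          = dx 1 φ s x := by
        have hd := smφ.hdX hUo (hmem s hs x hx)
        have e1 : dx 1 φ s x = dX φ s x := smφ.dx_eq hUo one_pos hx (hmem s hs x hx)
        rw [e1]
        have h3 : HasDerivWithinAt (fun y => y * (1 - y) / PP (hW gh a M) s y) (dX φ s x)
            (Icc (1 / 8) 1) x := by
          refine hd.hasDerivWithinAt.congr (fun y hy => ?_) ?_
          · simp only [hφ, hm]; rw [hPout s hs y hy]; ring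
          · simp only [hφ, hm]; rw [hPout s hs x ⟨h, hx.2⟩]; ring
        exact h3.derivWithin (uniqueDiffOn_Icc (by norm_num) x ⟨h, hx.2⟩)
      rw [h2] at h1
      refine h1.trans ?_
      rw [hC0]; nlinarith
  · -- time derivatives of m
    intro j hj s hs x hx
    rw [dt_iter_eq]
    rcases lt_or_ge x (1 / 8) with h | h
    · have e1 : iteratedDeriv j (fun r => m r x) s
          = iteratedDeriv j (fun r => g (x / √r) / (1 - x)) s :=
        iter_congr_pos (fun r hr => hin r hr x ⟨hx.1, by linarith⟩) j s hs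
      have e2 : iteratedDeriv j (fun r => g (x / √r) / (1 - x)) s
          = (1 - x)⁻¹ * iteratedDeriv j (fun r => g (x / √r)) s := by
        have : (fun r => g (x / √r) / (1 - x)) = fun r => (1 - x)⁻¹ * g (x / √r) := by
          funext r; ring
        rw [this, iteratedDeriv_const_mul_field]
      rw [e1, e2, abs_mul]
      have h1 := hCI j hj s hs.1 x hx.1
      have h2 : |(1 - x)⁻¹| ≤ 2 := by
        rw [abs_of_pos (inv_pos.2 (by linarith))]
        rw [inv_le_comm₀ (by linarith) (by norm_num)]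
        linarith
      calc (x ^ 2 + s) ^ j * (|(1 - x)⁻¹| * |iteratedDeriv j (fun r => g (x / √r)) s|)
          = |(1 - x)⁻¹| * ((x ^ 2 + s) ^ j * |iteratedDeriv j (fun r => g (x / √r)) s|) := by ring
        _ ≤ 2 * CI := mul_le_mul h2 h1 (mul_nonneg (pow_nonneg (by nlinarith [hs.1]) _)
            (abs_nonneg _)) (by norm_num)
        _ ≤ C0 := by rw [hC0]; nlinarith
    · have e1 : iteratedDeriv j (fun r => m r x) s
          = iteratedDeriv j (fun r => 1 / PP (hW gh a M) r x) s :=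
        iter_congr_pos (fun r hr => by simp only [hm]; rw [hPout r hr x ⟨h, hx.2⟩]) j s hs
      rw [e1]
      have h1 := hb2 s ⟨hs.1, hs.2.trans_le hs13⟩ x ⟨h, hx.2⟩ j hj
      have h2 : (x ^ 2 + s) ^ j ≤ 2 ^ 9 := by
        have h3 : x ^ 2 + s ≤ 2 := by nlinarith [hx.1, hx.2, hs.2]
        have h4 : 0 ≤ x ^ 2 + s := by nlinarith [hs.1]
        calc (x ^ 2 + s) ^ j ≤ 2 ^ j := pow_le_pow_left₀ h4 h3 j
          _ ≤ 2 ^ 9 := pow_le_pow_right₀ (by norm_num) hj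
      calc (x ^ 2 + s) ^ j * |iteratedDeriv j (fun r => 1 / PP (hW gh a M) r x) s|
          ≤ 2 ^ 9 * C1 := mul_le_mul h2 h1 (abs_nonneg _) (by norm_num)
        _ ≤ C0 := by rw [hC0]; nlinarith
  · -- inner form
    intro s hs x hx
    exact hφin s hs x ⟨hx.1, by linarith [hx.2]⟩
  · -- 1/φ
    intro s hs x hx
    have h1 := hP s hs x ⟨hx.1.le, hx.2.le⟩
    have hx0 : x ≠ 0 := hx.1.ne'
    have hx1 : 1 - x ≠ 0 := by linarith [hx.2]
    have h2 : 1 + x * (1 - x) * w s x ≠ 0 := h1.ne'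
    simp only [hφ, hm, Pw]
    field_simp
    ring
  · -- scalar curvature
    intro s hs x hx
    rw [← Kint_Sop hUo hsm hpos (hmem s hs) x hx]
    simp only [hφ, hm]
    ring
  · -- error
    intro s hs x hx
    rw [hE2 s hs x hx, smS.dx_dx_eq hUo one_pos (hmem s hs) hx]
    rfl
  · -- value at 0
    intro s hs
    exact hS0 s ⟨hs.1, hs.2.trans_le hs1g⟩

end Crest.Agent.R213.D
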